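import Vale.Agent.P150.Gauss

/-!
# P150 fast side: comparison of two finite Gaussian families with equal variances

For a bounded increasing `ψ` with `ψ'' ≤ ψ'` the expectation of `ψ` of the log partition function
decreases when the covariances increase at fixed variances.
-/

open MeasureTheory ProbabilityTheory Real

namespace Vale.Agent.P150.Fast

variable {α γ X : Type*} [Fintype α] [Fintype γ] [Fintype X]

/-- The Gibbs weights. -/
noncomputable def gw {κ : Type*} [Fintype κ] (A : X → κ → ℝ) (c g : κ → ℝ) (x : X) : ℝ :=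
  exp (expo A c g x) / ∑ y, exp (expo A c g y)

/-- The Gibbs average of an arbitrary function. -/
noncomputable def gav {κ : Type*} [Fintype κ] (A : X → κ → ℝ) (c g : κ → ℝ) (φ : X → ℝ) : ℝ :=
  ∑ x, gw A c g x * φ x

/-- The interpolation angle's coefficients. -/
noncomputable def angle (θ : ℝ) : α ⊕ γ → ℝ := Sum.elim (fun _ => cos θ) fun _ => sin θ

/-- The derivative of `angle`. -/
noncomputable def angle' (θ : ℝ) : α ⊕ γ → ℝ := Sum.elim (fun _ => -sin θ) fun _ => cos θ

/-- The first derivative of the sigmoid. -/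
noncomputable def sig1 (x : ℝ) : ℝ := sigmoid x * (1 - sigmoid x)

/-- The second derivative of the sigmoid. -/
noncomputable def sig2 (x : ℝ) : ℝ := sig1 x * (1 - 2 * sigmoid x)

theorem sig1_nonneg (x : ℝ) : 0 ≤ sig1 x :=
  mul_nonneg (sigmoid_nonneg x) (sub_nonneg.2 (sigmoid_le_one x))

theorem sig1_le (x : ℝ) : |sig1 x| ≤ 1 := by
  rw [abs_of_nonneg (sig1_nonneg x), sig1]
  nlinarith [sigmoid_nonneg x, sigmoid_le_one x]

theorem sig2_le (x : ℝ) : |sig2 x| ≤ 1 := by
  rw [sig2, abs_mul]
  refine mul_le_one₀ (sig1_le x) (abs_nonneg _) ?_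
  rw [abs_le]
  constructor <;> linarith [sigmoid_nonneg x, sigmoid_le_one x]

theorem sig2_sub_sig1 (x : ℝ) : sig2 x - sig1 x ≤ 0 := by
  have h : sig2 x - sig1 x = -(2 * sig1 x * sigmoid x) := by rw [sig2]; ring
  rw [h]
  linarith [mul_nonneg (mul_nonneg zero_le_two (sig1_nonneg x)) (sigmoid_nonneg x)]

theorem hasDerivAt_sig1 (x : ℝ) : HasDerivAt sig1 (sig2 x) x := by
  have h := hasDerivAt_sigmoid x
  refine (h.mul (h.const_sub 1)).congr_deriv ?_
  simp only [sig2, sig1]; ring

theorem measurable_sig1 : Measurable sig1 :=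
  (continuous_sigmoid.mul (continuous_const.sub continuous_sigmoid)).measurable

theorem measurable_sig2 : Measurable sig2 :=
  ((continuous_sigmoid.mul (continuous_const.sub continuous_sigmoid)).mul
    (continuous_const.sub (continuous_sigmoid.const_mul 2))).measurable

section
variable {κ : Type*} [Fintype κ] [Nonempty X] (A : X → κ → ℝ)

theorem gw_nonneg (c g : κ → ℝ) (x : X) : 0 ≤ gw A c g x :=
  div_nonneg (exp_pos _).le (sum_exp_pos A c g).le

theorem sum_gw (c g : κ → ℝ) : ∑ x, gw A c g x = 1 := by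
  simp only [gw]
  rw [← Finset.sum_div, div_self (sum_exp_pos A c g).ne']

theorem avg_eq_gav (c g : κ → ℝ) (k : κ) : avg A c g k = gav A c g fun x => A x k := by
  simp only [avg, gav, gw, Finset.sum_div]
  exact Finset.sum_congr rfl fun x _ => by ring

theorem abs_gav_le (c g : κ → ℝ) {φ : X → ℝ} : |gav A c g φ| ≤ ∑ x, |φ x| := by
  refine (Finset.abs_sum_le_sum_abs _ _).trans (Finset.sum_le_sum fun x _ => ?_)
  rw [abs_mul, abs_of_nonneg (gw_nonneg A c g x)]
  refine mul_le_of_le_one_left (abs_nonneg _) ?_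
  rw [← sum_gw A c g]
  exact Finset.single_le_sum (fun y _ => gw_nonneg A c g y) (Finset.mem_univ x)

theorem measurable_gav (c : κ → ℝ) (φ : X → ℝ) : Measurable fun g => gav A c g φ := by
  unfold gav gw expo; fun_prop

variable [DecidableEq κ]

theorem hasDerivAt_press_update (c g : κ → ℝ) (k : κ) (y : ℝ) :
    HasDerivAt (fun y => press A c (Function.update g k y))
      (c k * avg A c (Function.update g k y) k) y := by
  have hS := (sum_exp_pos A c (Function.update g k y)).ne'
  simp only [press, avg, expo_update] at hS ⊢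
  have he : ∀ x, HasDerivAt
      (fun y => exp (c k * y * A x k + ∑ j ∈ Finset.univ.erase k, c j * g j * A x j))
      (exp (c k * y * A x k + ∑ j ∈ Finset.univ.erase k, c j * g j * A x j) * (c k * A x k)) y := fun x => by
    simpa using ((((hasDerivAt_id y).const_mul (c k)).mul_const (A x k)).add_const _).exp
  refine ((HasDerivAt.fun_sum fun x _ => he x).log hS).congr_deriv ?_
  rw [← mul_div_assoc, Finset.mul_sum]
  congr 1
  exact Finset.sum_congr rfl fun x _ => by ring

theorem hasDerivAt_avg' (c g : κ → ℝ) (k : κ) (y : ℝ) :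
    HasDerivAt (fun y => avg A c (Function.update g k y) k)
      (c k * (gav A c (Function.update g k y) (fun x => A x k ^ 2)
        - avg A c (Function.update g k y) k ^ 2)) y := by
  have hS := (sum_exp_pos A c (Function.update g k y)).ne'
  simp only [avg, gav, gw, expo_update] at hS ⊢
  have he : ∀ x, HasDerivAt
      (fun y => exp (c k * y * A x k + ∑ j ∈ Finset.univ.erase k, c j * g j * A x j))
      (exp (c k * y * A x k + ∑ j ∈ Finset.univ.erase k, c j * g j * A x j) * (c k * A x k)) y := fun x => by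
    simpa using ((((hasDerivAt_id y).const_mul (c k)).mul_const (A x k)).add_const _).exp
  refine ((HasDerivAt.fun_sum fun x _ => (he x).mul_const (A x k)).div
    (HasDerivAt.fun_sum fun x _ => he x) hS).congr_deriv ?_
  symm
  set w := fun x => exp (c k * y * A x k + ∑ j ∈ Finset.univ.erase k, c j * g j * A x j)
  have e1 : ∑ x, w x * (c k * A x k) * A x k = c k * ∑ x, w x * A x k ^ 2 := by
    rw [Finset.mul_sum]; exact Finset.sum_congr rfl fun x _ => by ring
  have e2 : ∑ x, w x * (c k * A x k) = c k * ∑ x, w x * A x k := by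
    rw [Finset.mul_sum]; exact Finset.sum_congr rfl fun x _ => by ring
  have e3 : ∑ x, w x / (∑ z, w z) * A x k ^ 2 = (∑ x, w x * A x k ^ 2) / ∑ z, w z := by
    rw [Finset.sum_div]; exact Finset.sum_congr rfl fun x _ => by ring
  change c k * (∑ x, w x / (∑ z, w z) * A x k ^ 2 - ((∑ x, w x * A x k) / ∑ x, w x) ^ 2)
    = ((∑ x, w x * (c k * A x k) * A x k) * ∑ x, w x
      - (∑ x, w x * A x k) * ∑ x, w x * (c k * A x k)) / (∑ x, w x) ^ 2
  rw [e1, e2, e3]
  field_simp

/-- The integrand after integration by parts in the coordinate `k`. -/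
noncomputable def ibp (A : X → κ → ℝ) (c : κ → ℝ) (t : ℝ) (k : κ) (g : κ → ℝ) : ℝ :=
  c k * ((sig2 (press A c g - t) - sig1 (press A c g - t)) * avg A c g k ^ 2
    + sig1 (press A c g - t) * gav A c g fun x => A x k ^ 2)

theorem abs_ibp_le (c g : κ → ℝ) (t : ℝ) (k : κ) :
    |ibp A c t k g| ≤ |c k| * (2 * (∑ x, |A x k|) ^ 2 + ∑ x, |A x k ^ 2|) := by
  rw [ibp, abs_mul]
  refine mul_le_mul_of_nonneg_left ?_ (abs_nonneg _)
  refine (abs_add_le _ _).trans (add_le_add ?_ ?_)
  · rw [abs_mul, abs_pow]
    refine mul_le_mul ?_ ?_ (by positivity) zero_le_two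
    · exact (abs_sub _ _).trans (by linarith [sig1_le (press A c g - t), sig2_le (press A c g - t)])
    · rw [avg_eq_gav]
      exact pow_le_pow_left₀ (abs_nonneg _) (abs_gav_le A c g) 2
  · rw [abs_mul]
    exact (mul_le_of_le_one_left (abs_nonneg _) (sig1_le _)).trans (abs_gav_le A c g)

theorem measurable_ibp (c : κ → ℝ) (t : ℝ) (k : κ) : Measurable (ibp A c t k) := by
  have hp : Measurable fun g => press A c g - t := (measurable_press A c).sub_const t
  exact ((((measurable_sig2.comp hp).sub (measurable_sig1.comp hp)).mul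
    ((measurable_avg A c k).pow_const 2)).add
      ((measurable_sig1.comp hp).mul (measurable_gav A c _))).const_mul _

theorem mean_coord_sig (c : κ → ℝ) (t : ℝ) (k : κ) :
    ∫ g, g k * (sig1 (press A c g - t) * avg A c g k) ∂stdPi κ = ∫ g, ibp A c t k g ∂stdPi κ := by
  refine gauss_ibp k (B := ∑ x, |A x k|)
    (B' := |c k| * (2 * (∑ x, |A x k|) ^ 2 + ∑ x, |A x k ^ 2|))
    ((measurable_sig1.comp ((measurable_press A c).sub_const t)).mul (measurable_avg A c k))
    (measurable_ibp A c t k) (fun g => ?_) (fun g => abs_ibp_le A c g t k) fun g y => ?_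
  · rw [abs_mul, avg_eq_gav]
    exact (mul_le_of_le_one_left (abs_nonneg _) (sig1_le _)).trans (abs_gav_le A c g)
  · refine (((hasDerivAt_sig1 _).comp y ((hasDerivAt_press_update A c g k y).sub_const t)).mul
      (hasDerivAt_avg' A c g k y)).congr_deriv ?_
    simp only [ibp, Function.comp_apply]
    ring

theorem hasDerivAt_mean_sig {c c' : ℝ → κ → ℝ} (hc : ∀ θ k, HasDerivAt (c · k) (c' θ k) θ)
    {B : ℝ} (hB : ∀ θ k, |c' θ k| ≤ B) (t θ : ℝ) :
    HasDerivAt (fun s => ∫ g, sigmoid (press A (c s) g - t) ∂stdPi κ)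
      (∑ k, c' θ k * ∫ g, ibp A (c θ) t k g ∂stdPi κ) θ := by
  have hd : ∀ g : κ → ℝ, ∀ s, HasDerivAt (fun s => sigmoid (press A (c s) g - t))
      (∑ k, c' s k * (g k * (sig1 (press A (c s) g - t) * avg A (c s) g k))) s := fun g s => by
    have he : ∀ x, HasDerivAt (fun s => exp (expo A (c s) g x))
        (exp (expo A (c s) g x) * ∑ k, c' s k * g k * A x k) s := fun x =>
      (HasDerivAt.fun_sum fun k _ => ((hc s k).mul_const (g k)).mul_const (A x k)).exp
    refine ((hasDerivAt_sigmoid _).comp s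
      (((HasDerivAt.fun_sum fun x _ => he x).log (sum_exp_pos A (c s) g).ne').sub_const t)).congr_deriv ?_
    change sig1 (press A (c s) g - t) * _ = _
    simp_rw [avg, Finset.sum_div, Finset.mul_sum, Finset.sum_div, Finset.mul_sum]
    rw [Finset.sum_comm]
    refine Finset.sum_congr rfl fun k _ => Finset.sum_congr rfl fun x _ => ?_
    ring
  have hav : ∀ s g k, |sig1 (press A (c s) g - t) * avg A (c s) g k| ≤ ∑ x, |A x k| := fun s g k => by
    rw [abs_mul, avg_eq_gav]
    exact (mul_le_of_le_one_left (abs_nonneg _) (sig1_le _)).trans (abs_gav_le A _ g)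
  have hm : ∀ s k, Measurable fun g => sig1 (press A (c s) g - t) * avg A (c s) g k := fun s k =>
    (measurable_sig1.comp ((measurable_press A _).sub_const t)).mul (measurable_avg A _ k)
  have hF := hasDerivAt_integral_of_dominated_loc_of_deriv_le (μ := stdPi κ) (s := Set.univ)
    (F := fun s g => sigmoid (press A (c s) g - t))
    (F' := fun s g => ∑ k, c' s k * (g k * (sig1 (press A (c s) g - t) * avg A (c s) g k)))
    (bound := fun g => ∑ k, B * (|g k| * ∑ x, |A x k|)) (x₀ := θ) Filter.univ_mem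
    (Filter.Eventually.of_forall fun s =>
      (continuous_sigmoid.measurable.comp ((measurable_press A _).sub_const t)).aestronglyMeasurable)
    (Integrable.of_bound
      (continuous_sigmoid.measurable.comp ((measurable_press A _).sub_const t)).aestronglyMeasurable 1
      (Filter.Eventually.of_forall fun g => by
        rw [Real.norm_of_nonneg (sigmoid_nonneg _)]; exact sigmoid_le_one _))
    (Measurable.aestronglyMeasurable (Finset.measurable_sum _ fun k _ =>
      ((measurable_pi_apply k).mul (hm θ k)).const_mul _))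
    (Filter.Eventually.of_forall fun g s _ => by
      refine (Finset.abs_sum_le_sum_abs _ _).trans (Finset.sum_le_sum fun k _ => ?_)
      rw [abs_mul, abs_mul (g k)]
      exact mul_le_mul (hB s k) (mul_le_mul_of_nonneg_left (hav s g k) (abs_nonneg _)) (by positivity)
        ((abs_nonneg _).trans (hB s k)))
    (integrable_finsetSum _ fun k _ => ((integrable_coord k).abs.mul_const _).const_mul B)
    (Filter.Eventually.of_forall fun g s _ => hd g s)
  refine hF.2.congr_deriv ?_
  rw [integral_finsetSum _ fun k _ => ((integrable_coord k).mul_bdd (hm θ k).aestronglyMeasurable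
      (Filter.Eventually.of_forall fun g => hav θ g k)).const_mul _]
  refine Finset.sum_congr rfl fun k _ => ?_
  rw [integral_const_mul, mean_coord_sig]

end

variable [Nonempty X]

/-- Comparison: equal variances and larger covariances on the `α` side. -/
theorem compare_sigmoid (A : X → α ⊕ γ → ℝ)
    (hvar : ∀ x, ∑ a, A x (.inl a) ^ 2 = ∑ b, A x (.inr b) ^ 2)
    (hcov : ∀ x y, ∑ b, A x (.inr b) * A y (.inr b) ≤ ∑ a, A x (.inl a) * A y (.inl a)) (t : ℝ) :
    ∫ g, sigmoid (press A (angle 0) g - t) ∂stdPi (α ⊕ γ) ≤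
      ∫ g, sigmoid (press A (angle (π / 2)) g - t) ∂stdPi (α ⊕ γ) := by
  classical
  have hc : ∀ θ (k : α ⊕ γ), HasDerivAt (fun s => angle s k) (angle' θ k) θ := fun θ k => by
    cases k with
    | inl a => exact hasDerivAt_cos θ
    | inr b => exact hasDerivAt_sin θ
  have hB : ∀ θ (k : α ⊕ γ), |angle' θ k| ≤ (1 : ℝ) := fun θ k => by
    cases k with
    | inl a => simpa [angle'] using abs_sin_le_one θ
    | inr b => simpa [angle'] using abs_cos_le_one θ
  have hd := fun θ => hasDerivAt_mean_sig A hc hB t θ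
  have hmon : MonotoneOn (fun s => ∫ g, sigmoid (press A (angle s) g - t) ∂stdPi (α ⊕ γ))
      (Set.Icc 0 (π / 2)) := by
    refine monotoneOn_of_deriv_nonneg (convex_Icc _ _) (fun z _ => (hd z).continuousAt.continuousWithinAt)
      (fun z _ => (hd z).differentiableAt.differentiableWithinAt) fun θ hθ => ?_
    rw [interior_Icc] at hθ
    rw [(hd θ).deriv]
    have hint : ∀ k, Integrable (ibp A (angle θ) t k) (stdPi (α ⊕ γ)) := fun k =>
      Integrable.of_bound (measurable_ibp A _ t k).aestronglyMeasurable _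
        (Filter.Eventually.of_forall fun g => abs_ibp_le A _ g t k)
    simp only [← integral_const_mul]
    rw [← integral_finsetSum _ fun k _ => (hint k).const_mul _]
    refine integral_nonneg fun g => ?_
    set p := gw A (angle θ) g
    set u := press A (angle θ) g - t
    have hcs : 0 ≤ cos θ * sin θ :=
      mul_nonneg (cos_nonneg_of_mem_Icc ⟨by linarith [hθ.1, pi_pos], hθ.2.le⟩)
        (sin_nonneg_of_nonneg_of_le_pi hθ.1.le (by linarith [hθ.2, pi_pos]))
    have e2 : ∀ k, gav A (angle θ) g (fun x => A x k ^ 2) = ∑ x, p x * A x k ^ 2 := fun k => rfl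
    have e1 : ∀ k, avg A (angle θ) g k ^ 2 = ∑ x, ∑ y, p x * p y * (A x k * A y k) := fun k => by
      rw [avg_eq_gav, gav, sq, Finset.sum_mul_sum]
      exact Finset.sum_congr rfl fun x _ => Finset.sum_congr rfl fun y _ => by ring
    simp only [ibp]
    rw [Fintype.sum_sum_type]
    simp only [e1, e2]
    simp only [angle', Sum.elim_inl, Sum.elim_inr]
    have c1 : ∀ a : α, angle (γ := γ) θ (Sum.inl a) = cos θ := fun a => rfl
    have c2 : ∀ b : γ, angle (α := α) θ (Sum.inr b) = sin θ := fun b => rfl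
    simp only [c1, c2]
    have key : ∀ (s a b : ℝ) (S : Finset α) (φ φ2 : α → ℝ), ∑ i ∈ S, s * (a * (b * φ i + sig1 u * φ2 i))
        = s * a * (b * ∑ i ∈ S, φ i + sig1 u * ∑ i ∈ S, φ2 i) := fun s a b S φ φ2 => by
      rw [Finset.mul_sum, Finset.mul_sum, ← Finset.sum_add_distrib, Finset.mul_sum]
      exact Finset.sum_congr rfl fun i _ => by ring
    have key' : ∀ (s a b : ℝ) (S : Finset γ) (φ φ2 : γ → ℝ), ∑ i ∈ S, s * (a * (b * φ i + sig1 u * φ2 i))
        = s * a * (b * ∑ i ∈ S, φ i + sig1 u * ∑ i ∈ S, φ2 i) := fun s a b S φ φ2 => by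
      rw [Finset.mul_sum, Finset.mul_sum, ← Finset.sum_add_distrib, Finset.mul_sum]
      exact Finset.sum_congr rfl fun i _ => by ring
    rw [key, key']
    have hv : ∑ a, ∑ x, p x * A x (.inl a) ^ 2 = ∑ b, ∑ x, p x * A x (.inr b) ^ 2 := by
      rw [Finset.sum_comm, Finset.sum_comm (f := fun b x => p x * A x (.inr b) ^ 2)]
      exact Finset.sum_congr rfl fun x _ => by rw [← Finset.mul_sum, ← Finset.mul_sum, hvar x]
    have hcv : ∑ b, ∑ x, ∑ y, p x * p y * (A x (.inr b) * A y (.inr b))
        ≤ ∑ a, ∑ x, ∑ y, p x * p y * (A x (.inl a) * A y (.inl a)) := by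
      rw [Finset.sum_comm, Finset.sum_comm (f := fun a x => ∑ y, p x * p y * (A x (.inl a) * A y (.inl a)))]
      refine Finset.sum_le_sum fun x _ => ?_
      rw [Finset.sum_comm, Finset.sum_comm (f := fun a y => p x * p y * (A x (.inl a) * A y (.inl a)))]
      refine Finset.sum_le_sum fun y _ => ?_
      rw [← Finset.mul_sum, ← Finset.mul_sum]
      exact mul_le_mul_of_nonneg_left (hcov x y) (mul_nonneg (gw_nonneg A _ g x) (gw_nonneg A _ g y))
    rw [hv]
    simp only [Pi.zero_apply]
    nlinarith [mul_nonneg hcs (mul_nonneg (sub_nonneg.2 hcv) (sub_nonneg.2 (sub_nonpos.1 (sig2_sub_sig1 u))))]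
  exact hmon (Set.left_mem_Icc.2 (by positivity)) (Set.right_mem_Icc.2 (by positivity)) (by positivity)

end Vale.Agent.P150.Fast
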