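import Vale.Agent.P150.Gauss

/-!
# P150 fast side: tails of sums of squares of independent standard normal variables
-/

open MeasureTheory ProbabilityTheory Real

namespace Vale.Agent.P150.Fast

theorem exp_sq_std {s : ℝ} (hs : s < 1 / 2) :
    Integrable (fun x => exp (s * x ^ 2)) std ∧ ∫ x, exp (s * x ^ 2) ∂std = 1 / √(1 - 2 * s) := by
  have hb : 0 < 1 / 2 - s := by linarith
  have he : ∀ x : ℝ, gaussianPDFReal 0 1 x • exp (s * x ^ 2)
      = (√(2 * π))⁻¹ * exp (-(1 / 2 - s) * x ^ 2) := fun x => by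
    simp only [gaussianPDFReal, sub_zero, NNReal.coe_one, mul_one, smul_eq_mul]
    rw [mul_assoc, ← exp_add]
    congr 2
    ring
  have hi : Integrable (fun x : ℝ => (√(2 * π))⁻¹ * exp (-(1 / 2 - s) * x ^ 2)) :=
    (integrable_exp_neg_mul_sq hb).const_mul _
  constructor
  · rw [std, gaussianReal_of_var_ne_zero _ one_ne_zero,
      integrable_withDensity_iff_integrable_smul' (measurable_gaussianPDF 0 1)
        (Filter.Eventually.of_forall fun x => gaussianPDF_lt_top)]
    refine hi.congr (Filter.Eventually.of_forall fun x => ?_)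
    simp only [toReal_gaussianPDF]
    exact (he x).symm
  · rw [std, integral_gaussianReal_eq_integral_smul one_ne_zero]
    simp only [he]
    rw [integral_const_mul, integral_gaussian, ← sqrt_inv, ← sqrt_mul (by positivity),
      one_div (√(1 - 2 * s)), ← sqrt_inv]
    congr 1
    have h1 : 1 - 2 * s ≠ 0 := by linarith
    field_simp

/-- Exponential Markov bound for a sum of squares. -/
theorem chi_tail {κ : Type*} [Fintype κ] (T : Finset κ) (x : ℝ) {s : ℝ} (h0 : 0 ≤ s) (hs : s < 1 / 2) :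
    (stdPi κ).real {g | x ≤ ∑ k ∈ T, g k ^ 2} ≤ exp (-(s * x)) * (1 / √(1 - 2 * s)) ^ T.card := by
  classical
  set f : (κ → ℝ) → ℝ := fun g => ∏ k, if k ∈ T then exp (s * g k ^ 2) else 1
  have hf : ∀ g, f g = exp (s * ∑ k ∈ T, g k ^ 2) := fun g => by
    simp only [f, Finset.prod_ite_mem, Finset.univ_inter, Finset.mul_sum, exp_sum]
  have hfi : Integrable f (stdPi κ) := by
    refine Integrable.fintype_prod (f := fun k (y : ℝ) => if k ∈ T then exp (s * y ^ 2) else 1) fun k => ?_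
    by_cases h : k ∈ T
    · simp only [h, if_true]; exact (exp_sq_std hs).1
    · simp only [h, if_false]; exact integrable_const _
  have hint : ∫ g, f g ∂stdPi κ = (1 / √(1 - 2 * s)) ^ T.card := by
    rw [stdPi, integral_fintype_prod_eq_prod (𝕜 := ℝ)
      (f := fun k (y : ℝ) => if k ∈ T then exp (s * y ^ 2) else 1)]
    have e : ∀ k, ∫ y, (if k ∈ T then exp (s * y ^ 2) else 1) ∂std
        = if k ∈ T then 1 / √(1 - 2 * s) else 1 := fun k => by
      by_cases h : k ∈ T
      · simp only [h, if_true]; exact (exp_sq_std hs).2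
      · simp [h]
    simp only [e, Finset.prod_ite_mem, Finset.univ_inter, Finset.prod_const]
  have h1 := mul_meas_ge_le_integral_of_nonneg
    (Filter.Eventually.of_forall fun g => by rw [hf g]; exact (exp_pos _).le) hfi (exp (s * x))
  rw [hint] at h1
  have h2 : (stdPi κ).real {g | x ≤ ∑ k ∈ T, g k ^ 2} ≤ (stdPi κ).real {g | exp (s * x) ≤ f g} :=
    measureReal_mono fun g hg => by
      simp only [Set.mem_setOf_eq, hf g, exp_le_exp]
      exact mul_le_mul_of_nonneg_left hg h0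
  refine h2.trans ?_
  rw [exp_neg, inv_mul_eq_div, le_div_iff₀' (exp_pos _)]
  exact h1

theorem chi_tail_crude {κ : Type*} [Fintype κ] (T : Finset κ) (x : ℝ) {m : ℝ} (hm : (T.card : ℝ) ≤ m) :
    (stdPi κ).real {g | x ≤ ∑ k ∈ T, g k ^ 2} ≤ exp (-(x / 4) + m / 2) := by
  refine (chi_tail T x (show (0 : ℝ) ≤ 1 / 4 by norm_num) (by norm_num)).trans ?_
  have h2 : (1 / √(1 - 2 * (1 / 4)) : ℝ) ≤ exp (1 / 2) := by
    rw [one_div, ← sqrt_inv, exp_half]
    refine sqrt_le_sqrt ?_
    have := add_one_le_exp (1 : ℝ)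
    norm_num at this ⊢
    linarith
  rw [exp_add, show (1 / 4 : ℝ) * x = x / 4 by ring]
  refine mul_le_mul_of_nonneg_left ((pow_le_pow_left₀ (by positivity) h2 _).trans ?_) (exp_pos _).le
  rw [← exp_nat_mul, exp_le_exp]
  linarith

theorem chi_tail_fine {κ : Type*} [Fintype κ] (T : Finset κ) {m δ : ℝ} (hm : (T.card : ℝ) ≤ m) (hδ : 0 < δ) :
    (stdPi κ).real {g | (1 + δ) * m ≤ ∑ k ∈ T, g k ^ 2}
      ≤ exp (-(δ ^ 2 / (8 * (1 + δ)) * m)) := by
  set s := δ / (4 * (1 + δ)) with hs_def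
  have hs0 : 0 ≤ s := by positivity
  have hs : s ≤ 1 / 4 := by rw [hs_def, div_le_iff₀ (by positivity)]; linarith
  have hm0 : 0 ≤ m := le_trans (Nat.cast_nonneg _) hm
  refine (chi_tail T _ hs0 (by linarith)).trans ?_
  have h12 : 0 < 1 - 2 * s := by linarith
  have h1 : 1 / √(1 - 2 * s) ≤ exp (s / (1 - 2 * s)) := by
    rw [one_div, ← sqrt_inv, show s / (1 - 2 * s) = (2 * s / (1 - 2 * s)) / 2 by ring, exp_half]
    refine sqrt_le_sqrt ?_
    have := add_one_le_exp (2 * s / (1 - 2 * s))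
    have e : (1 - 2 * s)⁻¹ = 2 * s / (1 - 2 * s) + 1 := by field_simp; ring
    linarith
  refine (mul_le_mul_of_nonneg_left (pow_le_pow_left₀ (by positivity) h1 _) (exp_pos _).le).trans ?_
  rw [← exp_nat_mul, ← exp_add, exp_le_exp]
  have h3 : s / (1 - 2 * s) ≤ s * (1 + δ / 2) := by
    rw [div_le_iff₀ h12, mul_assoc]
    refine le_mul_of_one_le_right hs0 ?_
    have e : s * (4 * (1 + δ)) = δ := by rw [hs_def]; field_simp
    nlinarith
  have h4 : (T.card : ℝ) * (s / (1 - 2 * s)) ≤ m * (s * (1 + δ / 2)) :=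
    mul_le_mul hm h3 (by positivity) hm0
  have e2 : δ ^ 2 / (8 * (1 + δ)) = s * (δ / 2) := by rw [hs_def]; field_simp; ring
  rw [e2]
  linarith

end Vale.Agent.P150.Fast
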