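import Vale.Agent.P150.Limit
import Vale.Agent.P150.Fast.GaussCompare
import Vale.Agent.P150.Fast.ChiTail

/-!
# P150 fast side: the Gaussian quadratic form on a finite set of unit vectors
-/

open MeasureTheory ProbabilityTheory Real Filter Topology

namespace Vale.Agent.P150.Fast

variable {n : ℕ}

/-- The unscaled symmetric matrix of couplings. -/
noncomputable def gmat (n : ℕ) (g : Edge n → ℝ) (i j : Fin n) : ℝ :=
  if h : i < j then g ⟨(i, j), h⟩ else if h' : j < i then g ⟨(j, i), h'⟩ else 0

theorem gmat_symm (g : Edge n → ℝ) (i j : Fin n) : gmat n g i j = gmat n g j i := by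
  rcases lt_trichotomy i j with h | h | h
  · simp [gmat, h, h.not_gt]
  · simp [h]
  · simp [gmat, h, h.not_gt]

theorem gmat_self (g : Edge n → ℝ) (i : Fin n) : gmat n g i i = 0 := by simp [gmat]

/-- The quadratic form as a sum over edges. -/
noncomputable def quad (g : Edge n → ℝ) (v : Fin n → ℝ) : ℝ :=
  ∑ e : Edge n, g e * (2 * v e.1.1 * v e.1.2)

theorem quad_eq (g : Edge n → ℝ) (v : Fin n → ℝ) :
    ∑ i, ∑ j, gmat n g i j * v i * v j = quad g v := by
  have h := sum_edge (fun i j => gmat n g i j * v i * v j) fun i j => by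
    rw [gmat_symm g i j]; ring
  simp only [gmat_self, zero_mul, Finset.sum_const_zero, sub_zero] at h
  rw [← h, quad, Finset.mul_sum]
  refine Finset.sum_congr rfl fun e _ => ?_
  simp only [gmat, dif_pos e.2]
  ring

/-- The auxiliary coordinates: couplings, diagonal and a common shift against one vector. -/
abbrev Aux (n : ℕ) : Type := ((Edge n ⊕ Fin n) ⊕ Unit) ⊕ Fin n

/-- The completed quadratic form, of variance `4` on unit vectors. -/
noncomputable def completed (g : Aux n → ℝ) (v : Fin n → ℝ) : ℝ :=
  quad (fun e => g (.inl (.inl (.inl e)))) v + √2 * ∑ i, g (.inl (.inl (.inr i))) * v i ^ 2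
    + √2 * g (.inl (.inr ()))

/-- The coefficients of both families at scale `M`. -/
noncomputable def coef (M : ℝ) (v : Fin n → ℝ) : Aux n → ℝ :=
  Sum.elim (Sum.elim (Sum.elim (fun e => M * (2 * v e.1.1 * v e.1.2)) fun i => M * (√2 * v i ^ 2))
    fun _ => M * √2) fun i => M * (2 * v i)

theorem cov_eq (M : ℝ) (u v : Fin n → ℝ) :
    (∑ a, coef M u (.inl a) * coef M v (.inl a))
        = M ^ 2 * (2 * (∑ i, u i * v i) ^ 2 + 2) ∧
      ∑ i, coef M u (.inr i) * coef M v (.inr i) = M ^ 2 * (4 * ∑ i, u i * v i) := by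
  constructor
  · have h := sum_edge (fun i j => (u i * v i) * (u j * v j)) fun i j => by ring
    rw [← Finset.sum_mul_sum] at h
    have h2 : (√2 : ℝ) * √2 = 2 := mul_self_sqrt zero_le_two
    simp only [coef, Fintype.sum_sum_type, Sum.elim_inl, Sum.elim_inr, Finset.univ_unique,
      Finset.sum_singleton]
    have e1 : ∑ e : Edge n, M * (2 * u e.1.1 * u e.1.2) * (M * (2 * v e.1.1 * v e.1.2))
        = M ^ 2 * (2 * (2 * ∑ e : Edge n, u e.1.1 * v e.1.1 * (u e.1.2 * v e.1.2))) := by
      simp only [Finset.mul_sum]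
      exact Finset.sum_congr rfl fun e _ => by ring
    have e2 : ∑ i, M * (√2 * u i ^ 2) * (M * (√2 * v i ^ 2))
        = M ^ 2 * (2 * ∑ i, u i * v i * (u i * v i)) := by
      simp only [Finset.mul_sum]
      refine Finset.sum_congr rfl fun i _ => ?_
      linear_combination (M ^ 2 * u i ^ 2 * v i ^ 2) * h2
    rw [e1, e2, h]
    linear_combination M ^ 2 * h2
  · simp only [coef, Sum.elim_inr, Finset.mul_sum]
    exact Finset.sum_congr rfl fun i _ => by ring

theorem expo_zero (M : ℝ) (V : Finset (Fin n → ℝ)) (g : Aux n → ℝ) (v : V) :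
    expo (fun w : V => coef M w.1) (angle 0) g v = M * completed g v.1 := by
  simp only [expo, angle, coef, completed, quad, Fintype.sum_sum_type, Sum.elim_inl, Sum.elim_inr,
    cos_zero, sin_zero, zero_mul, Finset.sum_const_zero, add_zero, one_mul, Finset.univ_unique,
    Finset.sum_singleton, Finset.mul_sum, mul_add]
  refine congrArg₂ (· + ·) (congrArg₂ (· + ·) ?_ ?_) ?_
  · exact Finset.sum_congr rfl fun i _ => by ring
  · exact Finset.sum_congr rfl fun i _ => by ring
  · ring

theorem expo_one (M : ℝ) (V : Finset (Fin n → ℝ)) (g : Aux n → ℝ) (v : V) :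
    expo (fun w : V => coef M w.1) (angle (π / 2)) g v
      = M * (2 * ∑ i, g (.inr i) * v.1 i) := by
  simp only [expo, angle, coef, Fintype.sum_sum_type, Sum.elim_inl, Sum.elim_inr, cos_pi_div_two,
    sin_pi_div_two, zero_mul, Finset.sum_const_zero, zero_add, one_mul, Finset.mul_sum]
  exact Finset.sum_congr rfl fun i _ => by ring

theorem measurable_quad (v : Fin n → ℝ) : Measurable fun g : Edge n → ℝ => quad g v := by
  unfold quad; fun_prop

theorem completed_tail (S : Finset (Fin n)) (V : Finset (Fin n → ℝ))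
    (hV : ∀ v ∈ V, (∀ i ∉ S, v i = 0) ∧ ∑ i, v i ^ 2 = 1) {x : ℝ} (_hx : 0 ≤ x) :
    (stdPi (Aux n)).real {g | ∃ v ∈ V, 2 * √x + 1 ≤ completed g v}
      ≤ (stdPi (Fin n)).real {z | x ≤ ∑ i ∈ S, z i ^ 2} := by
  rcases V.eq_empty_or_nonempty with rfl | hne
  · simp
  have : Nonempty V := hne.coe_sort
  set μ := stdPi (Aux n)
  set B := {g : Aux n → ℝ | ∃ v ∈ V, 2 * √x + 1 ≤ completed g v}
  set Y := {z : Fin n → ℝ | x ≤ ∑ i ∈ S, z i ^ 2}
  have hYm : MeasurableSet Y := measurableSet_le measurable_const (by fun_prop)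
  have hBm : MeasurableSet B := by
    have : B = ⋃ v ∈ V, {g | 2 * √x + 1 ≤ completed g v} := by ext g; simp [B]
    rw [this]
    refine Finset.measurableSet_biUnion V fun v _ => measurableSet_le measurable_const ?_
    unfold completed quad; fun_prop
  have hR : MeasurePreserving (fun g : Aux n → ℝ => g ∘ Sum.inr) μ (stdPi (Fin n)) :=
    measurePreserving_right
  have key : ∀ L : ℝ, 0 < L → sigmoid L * μ.real B ≤ (stdPi (Fin n)).real Y + sigmoid (-L) := by
    intro L hL
    set N := log (Fintype.card V : ℝ)
    have hN : 0 ≤ N := log_natCast_nonneg _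
    set M := 2 * L + N with hM_def
    have hM : 0 < M := by linarith
    set t := M * (2 * √x) + N + L with ht_def
    set A : V → Aux n → ℝ := fun w => coef M w.1
    have h1 : ∀ g, B.indicator (fun _ => sigmoid L) g ≤ sigmoid (press A (angle 0) g - t) := fun g => by
      by_cases hg : g ∈ B
      · obtain ⟨v, hv, hva⟩ := hg
        rw [Set.indicator_of_mem (show g ∈ B from ⟨v, hv, hva⟩)]
        refine sigmoid_le ?_
        have hp : expo A (angle 0) g ⟨v, hv⟩ ≤ press A (angle 0) g := by
          rw [press, ← log_exp (expo A (angle 0) g ⟨v, hv⟩)]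
          exact log_le_log (exp_pos _) (Finset.single_le_sum
            (fun w _ => (exp_pos (expo A (angle 0) g w)).le) (Finset.mem_univ _))
        rw [expo_zero] at hp
        have := mul_le_mul_of_nonneg_left hva hM.le
        rw [mul_add, mul_one] at this
        simp only at hp
        linarith
      · rw [Set.indicator_of_notMem hg]
        exact sigmoid_nonneg _
    have h2 : ∀ g, sigmoid (press A (angle (π / 2)) g - t)
        ≤ ((fun g : Aux n → ℝ => g ∘ Sum.inr) ⁻¹' Y).indicator (fun _ => (1 : ℝ)) g + sigmoid (-L) := by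
      intro g
      by_cases hg : g ∘ Sum.inr ∈ Y
      · rw [Set.indicator_of_mem (show g ∈ (fun g : Aux n → ℝ => g ∘ Sum.inr) ⁻¹' Y from hg)]
        linarith [sigmoid_le_one (press A (angle (π / 2)) g - t), sigmoid_nonneg (-L)]
      · rw [Set.indicator_of_notMem (show g ∉ (fun g : Aux n → ℝ => g ∘ Sum.inr) ⁻¹' Y from hg), zero_add]
        refine sigmoid_le ?_
        have hz : ∑ i ∈ S, g (.inr i) ^ 2 < x := by simpa [Y] using hg
        have hb : ∀ w : V, exp (expo A (angle (π / 2)) g w) ≤ exp (M * (2 * √x)) := fun w => by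
          rw [exp_le_exp, expo_one]
          refine mul_le_mul_of_nonneg_left (mul_le_mul_of_nonneg_left ?_ zero_le_two) hM.le
          obtain ⟨hw0, hw1⟩ := hV w.1 w.2
          have e : ∑ i, g (.inr i) * w.1 i = ∑ i ∈ S, g (.inr i) * w.1 i :=
            (Finset.sum_subset (Finset.subset_univ S) fun i _ hi => by rw [hw0 i hi, mul_zero]).symm
          have e1 : ∑ i ∈ S, w.1 i ^ 2 = 1 := by
            rw [← hw1]
            exact Finset.sum_subset (Finset.subset_univ S) fun i _ hi => by rw [hw0 i hi]; ring
          rw [e]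
          refine le_sqrt_of_sq_le ((Finset.sum_mul_sq_le_sq_mul_sq S _ _).trans ?_)
          rw [e1, mul_one]
          exact hz.le
        have hlog : press A (angle (π / 2)) g ≤ N + M * (2 * √x) := by
          have h3 := log_le_log (sum_exp_pos A (angle (π / 2)) g)
            ((Finset.sum_le_sum fun w _ => hb w).trans (le_of_eq (by
              rw [Finset.sum_const, nsmul_eq_mul, Finset.card_univ])))
          rw [log_mul (by exact_mod_cast (Fintype.card_pos (α := V)).ne') (exp_pos _).ne', log_exp] at h3
          exact h3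
        linarith
    have hc := compare_sigmoid A (fun w => by
        have h := cov_eq M w.1 w.1
        have hw := (hV w.1 w.2).2
        simp only [← sq] at h
        rw [h.1, h.2, hw]
        ring)
      (fun w w' => by
        rw [(cov_eq M w.1 w'.1).1, (cov_eq M w.1 w'.1).2]
        exact mul_le_mul_of_nonneg_left (by nlinarith [sq_nonneg (∑ i, w.1 i * w'.1 i - 1)]) (sq_nonneg M)) t
    have hint : ∀ c : Aux n → ℝ, Integrable (fun g => sigmoid (press A c g - t)) μ := fun c =>
      Integrable.of_bound
        (continuous_sigmoid.measurable.comp ((measurable_press A c).sub_const t)).aestronglyMeasurable 1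
        (Eventually.of_forall fun g => by
          rw [Real.norm_of_nonneg (sigmoid_nonneg _)]; exact sigmoid_le_one _)
    have hi1 : Integrable (B.indicator fun _ => sigmoid L) μ := (integrable_const _).indicator hBm
    have hi2 : Integrable (((fun g : Aux n → ℝ => g ∘ Sum.inr) ⁻¹' Y).indicator fun _ => (1 : ℝ)) μ :=
      (integrable_const _).indicator (hR.measurable hYm)
    calc sigmoid L * μ.real B = ∫ g, B.indicator (fun _ => sigmoid L) g ∂μ := by
          rw [integral_indicator_const _ hBm, smul_eq_mul, mul_comm]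
      _ ≤ ∫ g, sigmoid (press A (angle 0) g - t) ∂μ := integral_mono hi1 (hint _) h1
      _ ≤ ∫ g, sigmoid (press A (angle (π / 2)) g - t) ∂μ := hc
      _ ≤ ∫ g, (((fun g : Aux n → ℝ => g ∘ Sum.inr) ⁻¹' Y).indicator (fun _ => (1 : ℝ)) g + sigmoid (-L)) ∂μ :=
          integral_mono (hint _) (hi2.add (integrable_const _)) h2
      _ = _ := by
          rw [integral_add hi2 (integrable_const _), integral_indicator_const _ (hR.measurable hYm),
            integral_const, smul_eq_mul, mul_one, probReal_univ, one_smul]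
          congr 1
          simp only [Measure.real, hR.measure_preimage hYm.nullMeasurableSet]
  have hl : Tendsto (fun L => sigmoid L * μ.real B) atTop (𝓝 (1 * μ.real B)) :=
    tendsto_sigmoid_atTop.mul_const _
  have hr : Tendsto (fun L => (stdPi (Fin n)).real Y + sigmoid (-L)) atTop
      (𝓝 ((stdPi (Fin n)).real Y + 0)) :=
    (tendsto_sigmoid_atBot.comp tendsto_neg_atTop_atBot).const_add _
  rw [one_mul] at hl
  rw [add_zero] at hr
  exact le_of_tendsto_of_tendsto hl hr (eventually_atTop.2 ⟨1, fun L hL => key L (by linarith)⟩)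

/-- The sign change of the diagonal and shift coordinates. -/
def flipAux (g : Aux n → ℝ) : Aux n → ℝ := fun k =>
  Sum.elim (Sum.elim (Sum.elim (fun e => g (.inl (.inl (.inl e)))) fun i => -g (.inl (.inl (.inr i))))
    fun _ => -g (.inl (.inr ()))) (fun i => g (.inr i)) k

theorem measurePreserving_flipAux : MeasurePreserving (flipAux (n := n)) (stdPi (Aux n)) (stdPi (Aux n)) := by
  have hn : MeasurePreserving (fun y : ℝ => -y) std std :=
    ⟨measurable_neg, by rw [std, gaussianReal_map_neg, neg_zero]⟩
  have h := measurePreserving_pi (fun _ : Aux n => std) (fun _ : Aux n => std)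
    (f := fun k => Sum.elim (Sum.elim (Sum.elim (fun _ => id) fun _ y => -y) fun _ y => -y) (fun _ => id) k)
    (fun k => by
      rcases k with ((e | i) | u) | i
      · exact MeasurePreserving.id _
      · exact hn
      · exact hn
      · exact MeasurePreserving.id _)
  have he : flipAux (n := n) = fun g k => Sum.elim (Sum.elim (Sum.elim (fun _ : Edge n => id)
      fun (_ : Fin n) (y : ℝ) => -y) fun (_ : Unit) (y : ℝ) => -y) (fun _ : Fin n => id) k (g k) := by
    funext g k
    rcases k with ((e | i) | u) | i <;> rfl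
  rw [he]
  exact h

/-- Tail of the quadratic form over a finite set of unit vectors supported in `S`. -/
theorem quad_tail (S : Finset (Fin n)) (V : Finset (Fin n → ℝ))
    (hV : ∀ v ∈ V, (∀ i ∉ S, v i = 0) ∧ ∑ i, v i ^ 2 = 1) {x : ℝ} (hx : 0 ≤ x) :
    (stdPi (Edge n)).real {g | ∃ v ∈ V, 2 * √x + 1 ≤ quad g v}
      ≤ 2 * (stdPi (Fin n)).real {z | x ≤ ∑ i ∈ S, z i ^ 2} := by
  set B := {g : Aux n → ℝ | ∃ v ∈ V, 2 * √x + 1 ≤ completed g v}
  set E := {g : Edge n → ℝ | ∃ v ∈ V, 2 * √x + 1 ≤ quad g v}
  have hEm : MeasurableSet E := by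
    have : E = ⋃ v ∈ V, {g | 2 * √x + 1 ≤ quad g v} := by ext g; simp [E]
    rw [this]
    exact Finset.measurableSet_biUnion V fun v _ => measurableSet_le measurable_const (measurable_quad v)
  have hBm : MeasurableSet B := by
    have : B = ⋃ v ∈ V, {g | 2 * √x + 1 ≤ completed g v} := by ext g; simp [B]
    rw [this]
    refine Finset.measurableSet_biUnion V fun v _ => measurableSet_le measurable_const ?_
    unfold completed quad; fun_prop
  have hp : MeasurePreserving (fun g : Aux n → ℝ => fun e : Edge n => g (.inl (.inl (.inl e))))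
      (stdPi (Aux n)) (stdPi (Edge n)) :=
    ((measurePreserving_left (α := Edge n) (γ := Fin n)).comp
      (measurePreserving_left (α := Edge n ⊕ Fin n) (γ := Unit))).comp
      (measurePreserving_left (α := (Edge n ⊕ Fin n) ⊕ Unit) (γ := Fin n))
  have hsub : (fun g : Aux n → ℝ => fun e : Edge n => g (.inl (.inl (.inl e)))) ⁻¹' E
      ⊆ B ∪ flipAux ⁻¹' B := by
    rintro g ⟨v, hv, hva⟩
    set W := √2 * ∑ i, g (.inl (.inl (.inr i))) * v i ^ 2 + √2 * g (.inl (.inr ()))
    rcases le_total 0 W with hW | hW
    · refine Or.inl ⟨v, hv, ?_⟩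
      simp only [completed]
      linarith
    · refine Or.inr ⟨v, hv, ?_⟩
      simp only [completed, flipAux, Sum.elim_inl, Sum.elim_inr, neg_mul, Finset.sum_neg_distrib, mul_neg]
      linarith
  have e : (stdPi (Edge n)).real E
      = (stdPi (Aux n)).real ((fun g : Aux n → ℝ => fun e : Edge n => g (.inl (.inl (.inl e)))) ⁻¹' E) := by
    simp only [Measure.real, hp.measure_preimage hEm.nullMeasurableSet]
  have e' : (stdPi (Aux n)).real (flipAux ⁻¹' B) = (stdPi (Aux n)).real B := by
    simp only [Measure.real, measurePreserving_flipAux.measure_preimage hBm.nullMeasurableSet]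
  rw [e, two_mul]
  refine (measureReal_mono hsub).trans ((measureReal_union_le _ _).trans ?_)
  rw [e']
  exact add_le_add (completed_tail S V hV hx) (completed_tail S V hV hx)

end Vale.Agent.P150.Fast
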