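import Vale.Agent.P150.Fast.Defs
import Vale.Agent.P150.Fast.QuadTail

/-!
# P150 fast side (C): uniform bounds on the principal submatrices of the SK couplings
-/

open MeasureTheory ProbabilityTheory Real Filter Topology

namespace Vale.Agent.P150.Fast

variable {n : ℕ}

theorem skMat_eq (β : ℝ) (g : Edge n → ℝ) (i j : Fin n) :
    skMat n β g i j = β / √(n : ℝ) * gmat n g i j := by
  unfold skMat gmat
  split_ifs <;> simp

/-- The edge between two distinct sites. -/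
def edgeOf (i j : Fin n) (h : j ≠ i) : Edge n :=
  if hij : i < j then ⟨(i, j), hij⟩ else ⟨(j, i), lt_of_le_of_ne (not_lt.1 hij) h⟩

theorem gmat_edgeOf (g : Edge n → ℝ) (i j : Fin n) (h : j ≠ i) :
    gmat n g i j = g (edgeOf i j h) := by
  by_cases hij : i < j
  · simp [gmat, edgeOf, hij]
  · have hji : j < i := lt_of_le_of_ne (not_lt.1 hij) h
    simp [gmat, edgeOf, hij, hji]

theorem edgeOf_inj (i j k : Fin n) (hj : j ≠ i) (hk : k ≠ i) (h : edgeOf i j hj = edgeOf i k hk) :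
    j = k := by
  unfold edgeOf at h
  split_ifs at h <;> simp only [Subtype.mk.injEq, Prod.mk.injEq] at h
  · exact h.2
  · exact absurd h.1.symm hk
  · exact absurd h.1 hj
  · exact h.1

theorem row_edges (i : Fin n) (S : Finset (Fin n)) :
    ∃ T : Finset (Edge n), T.card ≤ S.card ∧
      ∀ g, ∑ j ∈ S, gmat n g i j ^ 2 = ∑ e ∈ T, g e ^ 2 := by
  refine ⟨(S.erase i).attach.image fun j => edgeOf i j.1 (Finset.ne_of_mem_erase j.2), ?_, fun g => ?_⟩
  · refine Finset.card_image_le.trans ?_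
    rw [Finset.card_attach]
    exact Finset.card_le_card (Finset.erase_subset _ _)
  · rw [Finset.sum_image fun a _ b _ h => Subtype.ext (edgeOf_inj _ _ _ _ _ h),
      ← Finset.sum_erase (f := fun j => gmat n g i j ^ 2) S
        (show gmat n g i i ^ 2 = 0 by rw [gmat_self]; ring),
      ← Finset.sum_attach]
    exact Finset.sum_congr rfl fun j _ => by rw [gmat_edgeOf g i j.1 (Finset.ne_of_mem_erase j.2)]

theorem exists_net (S : Finset (Fin n)) {δ : ℝ} (hδ : 0 < δ) :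
    ∃ V : Finset (Fin n → ℝ), (∀ v ∈ V, (∀ i ∉ S, v i = 0) ∧ ∑ i, v i ^ 2 = 1) ∧
      ∀ u : Fin n → ℝ, (∀ i ∉ S, u i = 0) → ∑ i, u i ^ 2 = 1 →
        ∃ v ∈ V, ∀ i, |u i - v i| ≤ δ := by
  set A := {v : Fin n → ℝ | (∀ i ∉ S, v i = 0) ∧ ∑ i, v i ^ 2 = 1}
  have hA : A ⊆ Metric.closedBall 0 1 := fun v hv => by
    rw [mem_closedBall_zero_iff, pi_norm_le_iff_of_nonneg zero_le_one]
    intro i
    have := Finset.single_le_sum (fun k _ => sq_nonneg (v k)) (Finset.mem_univ i)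
    rw [hv.2] at this
    rw [Real.norm_eq_abs]
    exact (sq_le_one_iff_abs_le_one _).1 this
  obtain ⟨t, htA, htf, htc⟩ := Metric.finite_approx_of_totallyBounded
    ((isCompact_closedBall (0 : Fin n → ℝ) 1).totallyBounded.subset hA) δ hδ
  refine ⟨htf.toFinset, fun v hv => htA (htf.mem_toFinset.1 hv), fun u hu hu1 => ?_⟩
  obtain ⟨v, hv, hd⟩ := Set.mem_iUnion₂.1 (htc (show u ∈ A from ⟨hu, hu1⟩))
  refine ⟨v, htf.mem_toFinset.2 hv, fun i => ?_⟩
  have := (dist_le_pi_dist u v i).trans (Metric.mem_ball.1 hd).le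
  rwa [Real.dist_eq] at this

theorem form_le_of_net (J : Fin n → Fin n → ℝ) {τ δ c : ℝ} (hJ : ∀ i j, |J i j| ≤ τ)
    {V : Finset (Fin n → ℝ)} (hV : ∀ v ∈ V, ∑ i, ∑ j, J i j * v i * v j ≤ c)
    (hV1 : ∀ v ∈ V, ∑ i, v i ^ 2 = 1) (u : Fin n → ℝ) (hu : ∑ i, u i ^ 2 = 1)
    (hnet : ∃ v ∈ V, ∀ i, |u i - v i| ≤ δ) :
    ∑ i, ∑ j, J i j * u i * u j ≤ c + (n : ℝ) ^ 2 * (τ * (2 * δ)) := by
  obtain ⟨v, hv, hd⟩ := hnet
  have hb : ∀ w : Fin n → ℝ, ∑ i, w i ^ 2 = 1 → ∀ i, |w i| ≤ 1 := fun w hw i => by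
    have := Finset.single_le_sum (fun k _ => sq_nonneg (w k)) (Finset.mem_univ i)
    rw [hw] at this
    exact (sq_le_one_iff_abs_le_one _).1 this
  have hterm : ∀ i j, J i j * u i * u j ≤ J i j * v i * v j + τ * (2 * δ) := fun i j => by
    have h1 : |u i * u j - v i * v j| ≤ 2 * δ := by
      rw [show u i * u j - v i * v j = (u i - v i) * u j + v i * (u j - v j) by ring]
      refine (abs_add_le _ _).trans ?_
      rw [abs_mul, abs_mul]
      nlinarith [hd i, hd j, hb u hu j, hb v (hV1 v hv) i, abs_nonneg (u i - v i),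
        abs_nonneg (u j - v j), abs_nonneg (u j), abs_nonneg (v i)]
    have h2 : |J i j * (u i * u j - v i * v j)| ≤ τ * (2 * δ) := by
      rw [abs_mul]
      exact mul_le_mul (hJ i j) h1 (abs_nonneg _) ((abs_nonneg _).trans (hJ i j))
    have h3 := (abs_le.1 h2).2
    linarith
  refine (Finset.sum_le_sum fun i _ => Finset.sum_le_sum fun j _ => hterm i j).trans ?_
  simp only [Finset.sum_add_distrib, Finset.sum_const, Finset.card_univ, Fintype.card_fin, nsmul_eq_mul]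
  linarith [hV v hv]

theorem form_scale (S : Finset (Fin n)) (M : Fin n → Fin n → ℝ) {c : ℝ}
    (h : ∀ u : Fin n → ℝ, (∀ i ∉ S, u i = 0) → ∑ i, u i ^ 2 = 1 →
      ∑ i, ∑ j, M i j * u i * u j ≤ c) (v : Fin n → ℝ) :
    ∑ i ∈ S, ∑ j ∈ S, M i j * v i * v j ≤ c * ∑ i ∈ S, v i ^ 2 := by
  set s := ∑ i ∈ S, v i ^ 2 with hs
  rcases (show (0 : ℝ) ≤ s from Finset.sum_nonneg fun i _ => sq_nonneg (v i)).eq_or_lt with h0 | h0
  · have hz : ∀ i ∈ S, v i = 0 := fun i hi =>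
      sq_eq_zero_iff.1 ((Finset.sum_eq_zero_iff_of_nonneg fun i _ => sq_nonneg (v i)).1 h0.symm i hi)
    rw [← h0, mul_zero]
    refine le_of_eq (Finset.sum_eq_zero fun i hi => Finset.sum_eq_zero fun j _ => ?_)
    rw [hz i hi]; ring
  · set u : Fin n → ℝ := fun i => if i ∈ S then v i / √s else 0
    have hu0 : ∀ i ∉ S, u i = 0 := fun i hi => if_neg hi
    have hu1 : ∑ i, u i ^ 2 = 1 := by
      rw [← Finset.sum_subset (Finset.subset_univ S) fun i _ hi => by rw [hu0 i hi]; ring]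
      calc ∑ i ∈ S, u i ^ 2 = ∑ i ∈ S, v i ^ 2 / s :=
            Finset.sum_congr rfl fun i hi => by simp only [u, if_pos hi, div_pow, sq_sqrt h0.le]
        _ = 1 := by rw [← Finset.sum_div, div_self h0.ne']
    have := h u hu0 hu1
    have e : ∑ i, ∑ j, M i j * u i * u j = (∑ i ∈ S, ∑ j ∈ S, M i j * v i * v j) / s := by
      rw [← Finset.sum_subset (Finset.subset_univ S) fun i _ hi =>
        Finset.sum_eq_zero fun j _ => by rw [hu0 i hi]; ring, Finset.sum_div]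
      refine Finset.sum_congr rfl fun i hi => ?_
      rw [← Finset.sum_subset (Finset.subset_univ S) fun j _ hj => by rw [hu0 j hj]; ring,
        Finset.sum_div]
      refine Finset.sum_congr rfl fun j hj => ?_
      simp only [u, if_pos hi, if_pos hj]
      rw [div_eq_mul_inv (M i j * v i * v j) s]
      have h2 : (√s)⁻¹ * (√s)⁻¹ = s⁻¹ := by rw [← mul_inv, mul_self_sqrt h0.le]
      linear_combination (M i j * v i * v j) * h2
    rwa [e, div_le_iff₀ h0] at this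

theorem abs_eff_sub {t : ℝ} (ht : |t| ≤ 1 / 2) : |eff t - t| ≤ |t| ^ 3 := by
  have key : ∀ x : ℝ, |x| ≤ 1 → |exp x - (1 + x + x ^ 2 / 2)| ≤ |x| ^ 3 * (2 / 9) := fun x hx => by
    have := Real.exp_bound hx (n := 3) (by norm_num)
    norm_num [Finset.sum_range_succ, Nat.factorial] at this ⊢
    exact this
  have h2 : |2 * t| ≤ 1 := by rw [abs_mul, abs_two]; linarith
  have a := key (2 * t) h2
  have b := key (-(2 * t)) (by rwa [abs_neg])
  have e : eff t = (exp (2 * t) - exp (-(2 * t))) / 4 := by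
    rw [eff, sinh_eq, cosh_eq]
    have e1 : exp t * exp t = exp (2 * t) := by rw [← exp_add]; ring_nf
    have e2 : exp (-t) * exp (-t) = exp (-(2 * t)) := by rw [← exp_add]; ring_nf
    linear_combination (1 / 4 : ℝ) * e1 - (1 / 4 : ℝ) * e2
  rw [abs_neg, abs_mul, abs_two, mul_pow] at b
  rw [abs_mul, abs_two, mul_pow] at a
  have := abs_nonneg t
  have := pow_nonneg this 3
  rw [abs_le] at a b ⊢
  rw [e]
  constructor <;> nlinarith

theorem eff_form_le (S : Finset (Fin n)) (J : Fin n → Fin n → ℝ) (hs : ∀ i j, J i j = J j i)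
    {τ ρ c : ℝ} (hτ : ∀ i j, |J i j| ≤ τ) (hτ2 : τ ≤ 1 / 2) (hτ0 : 0 ≤ τ)
    (hρ : ∀ i ∈ S, ∑ j ∈ S, J i j ^ 2 ≤ ρ) (v : Fin n → ℝ)
    (hc : ∑ i ∈ S, ∑ j ∈ S, J i j * v i * v j ≤ c * ∑ i ∈ S, v i ^ 2) :
    ∑ i ∈ S, ∑ j ∈ S, eff (J i j) * v i * v j ≤ (c + τ * ρ) * ∑ i ∈ S, v i ^ 2 := by
  have hterm : ∀ i j, eff (J i j) * v i * v j
      ≤ J i j * v i * v j + (τ / 2 * (J i j ^ 2 * v i ^ 2) + τ / 2 * (J j i ^ 2 * v j ^ 2)) := fun i j => by
    have h1 := abs_eff_sub ((hτ i j).trans hτ2)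
    have h3 : |J i j| ^ 3 ≤ τ * J i j ^ 2 := by
      rw [show |J i j| ^ 3 = |J i j| * |J i j| ^ 2 by ring, sq_abs]
      exact mul_le_mul_of_nonneg_right (hτ i j) (sq_nonneg _)
    have h4 : |(eff (J i j) - J i j) * (v i * v j)| ≤ τ * J i j ^ 2 * ((v i ^ 2 + v j ^ 2) / 2) := by
      rw [abs_mul]
      refine mul_le_mul (h1.trans h3) ?_ (abs_nonneg _) (by positivity)
      rw [abs_le]
      constructor <;> nlinarith [sq_nonneg (v i + v j), sq_nonneg (v i - v j)]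
    have h5 := (abs_le.1 h4).2
    rw [← hs i j]
    linarith
  refine (Finset.sum_le_sum fun i _ => Finset.sum_le_sum fun j _ => hterm i j).trans ?_
  simp only [Finset.sum_add_distrib]
  have hA : ∑ i ∈ S, ∑ j ∈ S, τ / 2 * (J i j ^ 2 * v i ^ 2) ≤ τ / 2 * ρ * ∑ i ∈ S, v i ^ 2 := by
    rw [Finset.mul_sum]
    refine Finset.sum_le_sum fun i hi => ?_
    rw [← Finset.mul_sum, ← Finset.sum_mul, mul_assoc]
    exact mul_le_mul_of_nonneg_left (mul_le_mul_of_nonneg_right (hρ i hi) (sq_nonneg _)) (by positivity)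
  have hB : ∑ i ∈ S, ∑ j ∈ S, τ / 2 * (J j i ^ 2 * v j ^ 2) ≤ τ / 2 * ρ * ∑ i ∈ S, v i ^ 2 := by
    rw [Finset.sum_comm]; exact hA
  linarith

theorem choose_le_exp {m : ℕ} (hm : 1 ≤ m) (hmn : m ≤ n) :
    ((n.choose m : ℕ) : ℝ) ≤ exp ((m : ℝ) + 2 * √((n : ℝ) * m)) := by
  have hm0 : (0 : ℝ) < m := by exact_mod_cast hm
  have hn0 : (0 : ℝ) < n := by exact_mod_cast hm.trans hmn
  set q := √((n : ℝ) / m)
  have hq : q * q = (n : ℝ) / m := mul_self_sqrt (by positivity)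
  have h1 : ((n : ℝ) / m) ^ m ≤ exp (2 * √((n : ℝ) * m)) := by
    have hqe : q ≤ exp q := by have := add_one_le_exp q; linarith
    have e : √((n : ℝ) * m) = m * q := by
      rw [show (n : ℝ) * m = (m * q) ^ 2 by rw [mul_pow, sq q, hq]; field_simp, sqrt_sq (by positivity)]
    rw [← hq, mul_pow, e]
    refine (mul_le_mul (pow_le_pow_left₀ (sqrt_nonneg _) hqe m) (pow_le_pow_left₀ (sqrt_nonneg _) hqe m)
      (by positivity) (by positivity)).trans (le_of_eq ?_)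
    rw [← exp_nat_mul, ← exp_add]
    ring_nf
  refine (Nat.choose_le_pow_div m n).trans ?_
  rw [exp_add, show (n : ℝ) ^ m / (m.factorial : ℝ) = (m : ℝ) ^ m / m.factorial * ((n : ℝ) / m) ^ m by
    rw [div_pow]; field_simp]
  exact mul_le_mul (Real.pow_div_factorial_le_exp (m : ℝ) hm0.le m) h1 (by positivity) (exp_pos _).le

/-- The threshold used for the sum of squares on a set of size `m`. -/
noncomputable def level (n m : ℕ) : ℝ := 24 * √((n : ℝ) * m)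

theorem small_terms {m : ℕ} (hm : 1 ≤ m) (hmn : m ≤ n) :
    (n.choose m : ℝ) * exp (-(level n m / 4) + (m : ℝ) / 2) ≤ exp (-√(n : ℝ)) := by
  refine (mul_le_mul_of_nonneg_right (choose_le_exp hm hmn) (exp_pos _).le).trans ?_
  rw [← exp_add, exp_le_exp, level]
  have h1 : √(n : ℝ) ≤ √((n : ℝ) * m) :=
    sqrt_le_sqrt (le_mul_of_one_le_right (Nat.cast_nonneg _) (by exact_mod_cast hm))
  have h2 : (m : ℝ) ≤ √((n : ℝ) * m) := by
    refine le_sqrt_of_sq_le ?_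
    rw [sq]
    exact mul_le_mul_of_nonneg_right (by exact_mod_cast hmn) (Nat.cast_nonneg _)
  linarith [sqrt_nonneg (n : ℝ)]

/-- The couplings for which some member of `V` has quadratic form above the threshold of `x`. -/
def quadBad (V : Finset (Fin n → ℝ)) (x : ℝ) : Set (Edge n → ℝ) :=
  {g | ∃ v ∈ V, 2 * √x + 1 ≤ quad g v}

/-- The couplings whose sum of squares on `T` reaches `x`. -/
def sqBad (T : Finset (Edge n)) (x : ℝ) : Set (Edge n → ℝ) :=
  {g | x ≤ ∑ e ∈ T, g e ^ 2}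

theorem small_sets_tail (T : Finset (Fin n) → Fin n → Finset (Edge n))
    (hTc : ∀ S i, (T S i).card ≤ S.card) (V : Finset (Fin n) → Finset (Fin n → ℝ))
    (hV : ∀ S, ∀ v ∈ V S, (∀ i ∉ S, v i = 0) ∧ ∑ i, v i ^ 2 = 1) :
    (stdPi (Edge n)).real (⋃ S ∈ (Finset.univ : Finset (Finset (Fin n))).filter (·.Nonempty),
        quadBad (V S) (level n S.card) ∪ ⋃ i ∈ S, sqBad (T S i) (level n S.card))
      ≤ ((n : ℝ) + 1) * ((n + 2) * exp (-√(n : ℝ))) := by
  classical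
  set f : ℕ → ℝ := fun m =>
    if m = 0 then 0 else ((n : ℝ) + 2) * exp (-(level n m / 4) + (m : ℝ) / 2) with hf
  have hS : ∀ S ∈ (Finset.univ : Finset (Finset (Fin n))).filter (·.Nonempty),
      (stdPi (Edge n)).real (quadBad (V S) (level n S.card) ∪ ⋃ i ∈ S, sqBad (T S i) (level n S.card))
        ≤ f S.card := fun S hS => by
    have hne : S.card ≠ 0 := Finset.card_ne_zero.2 (Finset.mem_filter.1 hS).2
    simp only [f, if_neg hne]
    refine (measureReal_union_le _ _).trans ?_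
    have hcn : (S.card : ℝ) ≤ n := by exact_mod_cast (Finset.card_le_univ S).trans_eq (by simp)
    have h1 := (quad_tail S _ (hV S) (x := level n S.card) (by unfold level; positivity)).trans
      (mul_le_mul_of_nonneg_left (chi_tail_crude S (level n S.card) le_rfl) zero_le_two)
    have h2 : (stdPi (Edge n)).real (⋃ i ∈ S, sqBad (T S i) (level n S.card))
        ≤ (S.card : ℝ) * exp (-(level n S.card / 4) + (S.card : ℝ) / 2) := by
      refine (measureReal_biUnion_finset_le _ _).trans ((Finset.sum_le_sum fun i _ =>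
        chi_tail_crude (T S i) (level n S.card) (m := (S.card : ℝ))
          (by exact_mod_cast hTc S i)).trans ?_)
      simp
    refine (add_le_add h1 h2).trans ?_
    rw [← add_mul]
    exact mul_le_mul_of_nonneg_right (by linarith) (exp_pos _).le
  refine (measureReal_biUnion_finset_le _ _).trans ((Finset.sum_le_sum hS).trans ?_)
  rw [Finset.sum_filter, ← Finset.powerset_univ]
  refine (Finset.sum_le_sum (g := fun S => f S.card) fun S _ => ?_).trans ?_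
  · split_ifs with h
    · exact le_rfl
    · simp [f, Finset.not_nonempty_iff_eq_empty.1 h]
  rw [Finset.sum_powerset_apply_card, Finset.card_univ, Fintype.card_fin]
  refine (Finset.sum_le_sum (g := fun _ => ((n : ℝ) + 2) * exp (-√(n : ℝ))) fun m hm => ?_).trans ?_
  · by_cases hm0 : m = 0
    · simp only [f, hm0, if_true, smul_zero]; positivity
    · simp only [f, if_neg hm0, nsmul_eq_mul]
      rw [mul_left_comm]
      exact mul_le_mul_of_nonneg_left (small_terms (Nat.one_le_iff_ne_zero.2 hm0)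
        (Nat.lt_succ_iff.1 (Finset.mem_range.1 hm))) (by positivity)
  · simp

theorem skMat_symm (β : ℝ) (g : Edge n → ℝ) (i j : Fin n) : skMat n β g i j = skMat n β g j i := by
  simp only [skMat_eq, gmat_symm g i j]

theorem skMat_small {β a τ : ℝ} (hn : 0 < n) (hτ : 0 ≤ τ) (ha : β ^ 2 * a ≤ τ ^ 2)
    {g : Edge n → ℝ} (hg : ∀ e, g e ^ 2 ≤ a * n) (i j : Fin n) : |skMat n β g i j| ≤ τ := by
  have hN0 : (0 : ℝ) < n := by exact_mod_cast hn
  rw [skMat_eq]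
  by_cases hji : j = i
  · rw [hji, gmat_self, mul_zero, abs_zero]; exact hτ
  · rw [gmat_edgeOf g i j hji]
    refine abs_le_of_sq_le_sq ?_ hτ
    rw [mul_pow, div_pow, sq_sqrt hN0.le, div_mul_eq_mul_div, div_le_iff₀ hN0]
    have h := mul_le_mul_of_nonneg_left (hg (edgeOf i j hji)) (sq_nonneg β)
    nlinarith

theorem skMat_row (β : ℝ) (S : Finset (Fin n)) (i : Fin n) {T : Finset (Edge n)}
    (hT : ∀ g, ∑ j ∈ S, gmat n g i j ^ 2 = ∑ e ∈ T, g e ^ 2) {g : Edge n → ℝ} {x : ℝ}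
    (h : g ∉ sqBad T x) : ∑ j ∈ S, skMat n β g i j ^ 2 ≤ β ^ 2 / n * x := by
  simp only [sqBad, Set.mem_ofPred_eq, not_le] at h
  simp only [skMat_eq, mul_pow, div_pow, sq_sqrt (Nat.cast_nonneg (α := ℝ) n), ← Finset.mul_sum]
  refine mul_le_mul_of_nonneg_left ?_ (by positivity)
  rw [hT g]; exact h.le

theorem skMat_form {β τ : ℝ} (hβ : 0 ≤ β) (S : Finset (Fin n)) {V : Finset (Fin n → ℝ)}
    (hV : ∀ v ∈ V, (∀ i ∉ S, v i = 0) ∧ ∑ i, v i ^ 2 = 1)
    (hVn : ∀ u : Fin n → ℝ, (∀ i ∉ S, u i = 0) → ∑ i, u i ^ 2 = 1 →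
      ∃ v ∈ V, ∀ i, |u i - v i| ≤ 1 / (n : ℝ) ^ 3)
    {g : Edge n → ℝ} (hJ : ∀ i j, |skMat n β g i j| ≤ τ) {x : ℝ} (h : g ∉ quadBad V x)
    (v : Fin n → ℝ) :
    ∑ i ∈ S, ∑ j ∈ S, skMat n β g i j * v i * v j
      ≤ (β / √(n : ℝ) * (2 * √x + 1) + 2 * τ / n) * ∑ i ∈ S, v i ^ 2 := by
  simp only [quadBad, Set.mem_ofPred_eq, not_exists, not_and, not_le] at h
  refine form_scale S _ (fun u hu hu1 => ?_) v
  refine (form_le_of_net (c := β / √(n : ℝ) * (2 * √x + 1)) _ hJ (fun w hw => ?_) (fun w hw => (hV w hw).2) u hu1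
    (hVn u hu hu1)).trans (le_of_eq ?_)
  · simp only [skMat_eq, mul_assoc, ← Finset.mul_sum]
    refine mul_le_mul_of_nonneg_left ?_ (by positivity)
    have e := quad_eq g w
    simp only [mul_assoc] at e
    rw [e]; exact (h w hw).le
  · rcases Nat.eq_zero_or_pos n with rfl | hn
    · simp
    · field_simp

theorem good_full {β τ δ ε : ℝ} (hβ : 0 ≤ β) (hn : 8 ≤ n) (hβn : β / √(n : ℝ) ≤ ε / 4)
    (hτ0 : 0 ≤ τ) (hτ2 : τ ≤ 1 / 2) (hτε : τ ≤ ε) (hτρ : τ * (β ^ 2 + ε) ≤ ε / 4) (hδ : 0 ≤ δ)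
    (hδ' : δ * (4 * (β ^ 2 + β + 1)) ≤ ε) (J : Fin n → Fin n → ℝ) (hs : ∀ i j, J i j = J j i)
    (hJ : ∀ i j, |J i j| ≤ τ) (hr : ∀ i, ∑ j, J i j ^ 2 ≤ β ^ 2 + ε)
    (hf : ∀ v : Fin n → ℝ, ∑ i, ∑ j, J i j * v i * v j
      ≤ (β / √(n : ℝ) * (2 * √((1 + δ) * n) + 1) + 2 * τ / n) * ∑ i, v i ^ 2)
    (v : Fin n → ℝ) : ∑ i, ∑ j, eff (J i j) * v i * v j ≤ (2 * β + ε) * ∑ i, v i ^ 2 := by
  have hN : (8 : ℝ) ≤ n := by exact_mod_cast hn
  have hN0 : (0 : ℝ) < n := by linarith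
  have hsn0 : (0 : ℝ) < √(n : ℝ) := sqrt_pos.2 hN0
  refine (eff_form_le Finset.univ J hs hJ hτ2 hτ0 (fun i _ => hr i) v (hf v)).trans ?_
  refine mul_le_mul_of_nonneg_right ?_ (Finset.sum_nonneg fun i _ => sq_nonneg _)
  have h1 : β / √(n : ℝ) * √((1 + δ) * n) ≤ β * (1 + δ) := by
    rw [sqrt_mul' _ hN0.le, div_mul_eq_mul_div, div_le_iff₀ hsn0, ← mul_assoc]
    refine mul_le_mul_of_nonneg_right (mul_le_mul_of_nonneg_left ?_ hβ) (sqrt_nonneg _)
    exact sqrt_le_iff.2 ⟨by linarith, by nlinarith⟩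
  have h2 : 2 * τ / n ≤ ε / 4 := by rw [div_le_iff₀ hN0]; nlinarith
  have h3 : β * δ ≤ ε / 12 := by nlinarith [mul_nonneg hδ (sq_nonneg (β - 1))]
  linarith

theorem good_small {β τ : ℝ} (hβ : 0 ≤ β) (hn : 0 < n) (hτ0 : 0 ≤ τ) (hτ2 : τ ≤ 1 / 2)
    (S : Finset (Fin n)) (hS : S.Nonempty) (J : Fin n → Fin n → ℝ) (hs : ∀ i j, J i j = J j i)
    (hJ : ∀ i j, |J i j| ≤ τ) (hr : ∀ i ∈ S, ∑ j ∈ S, J i j ^ 2 ≤ β ^ 2 / n * level n S.card)
    (hf : ∀ v : Fin n → ℝ, ∑ i ∈ S, ∑ j ∈ S, J i j * v i * v j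
      ≤ (β / √(n : ℝ) * (2 * √(level n S.card) + 1) + 2 * τ / n) * ∑ i ∈ S, v i ^ 2) :
    (∀ v : Fin n → ℝ, ∑ i ∈ S, ∑ j ∈ S, eff (J i j) * v i * v j
        ≤ (24 * β ^ 2 + 11 * β + 2) * √(√((S.card : ℝ) / n)) * ∑ i ∈ S, v i ^ 2) ∧
      ∀ i ∈ S, ∑ j ∈ S, J i j ^ 2 ≤ (24 * β ^ 2 + 11 * β + 2) * √(√((S.card : ℝ) / n)) := by
  have hN0 : (0 : ℝ) < n := by exact_mod_cast hn
  have hsn0 : (0 : ℝ) < √(n : ℝ) := sqrt_pos.2 hN0
  have hnn : √(n : ℝ) ≤ n := by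
    refine sqrt_le_iff.2 ⟨hN0.le, ?_⟩
    have : (1 : ℝ) ≤ n := by exact_mod_cast hn
    nlinarith
  set r := (S.card : ℝ) / n with hr_def
  set q := √(√r)
  have hr0 : 0 ≤ r := by positivity
  have hr1 : r ≤ 1 := by
    rw [hr_def, div_le_one hN0]
    exact_mod_cast (Finset.card_le_univ S).trans_eq (by simp)
  have hq : q ^ 2 = √r := sq_sqrt (sqrt_nonneg _)
  have hq0 : 0 ≤ q := sqrt_nonneg _
  have hq1 : q ≤ 1 := sqrt_le_one.2 (sqrt_le_one.2 hr1)
  have hrq : √r ≤ q := by nlinarith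
  have hx : level n S.card = 24 * (n : ℝ) * √r := by
    rw [level, show (n : ℝ) * (S.card : ℝ) = (n : ℝ) ^ 2 * r by rw [hr_def]; field_simp,
      sqrt_mul (by positivity), sqrt_sq hN0.le, mul_assoc]
  have hone : 1 / √(n : ℝ) ≤ q := by
    refine le_trans ?_ hrq
    rw [hr_def, sqrt_div (Nat.cast_nonneg _)]
    exact div_le_div_of_nonneg_right (one_le_sqrt.2 (by exact_mod_cast hS.card_pos)) hsn0.le
  have hsx : √(level n S.card) ≤ 5 * √(n : ℝ) * q := by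
    refine sqrt_le_iff.2 ⟨by positivity, ?_⟩
    rw [hx, mul_pow, mul_pow, sq_sqrt hN0.le, hq]
    nlinarith [mul_nonneg hN0.le (sqrt_nonneg r)]
  have hρ : ∀ i ∈ S, ∑ j ∈ S, J i j ^ 2 ≤ 24 * β ^ 2 * q := fun i hi => by
    refine (hr i hi).trans ?_
    rw [hx, show β ^ 2 / n * (24 * (n : ℝ) * √r) = 24 * β ^ 2 * √r by field_simp]
    exact mul_le_mul_of_nonneg_left hrq (by positivity)
  refine ⟨fun v => ?_, fun i hi => (hρ i hi).trans (mul_le_mul_of_nonneg_right (by linarith) hq0)⟩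
  refine (eff_form_le S J hs hJ hτ2 hτ0 hρ v (hf v)).trans ?_
  refine mul_le_mul_of_nonneg_right ?_ (Finset.sum_nonneg fun i _ => sq_nonneg _)
  have h1 : β / √(n : ℝ) * √(level n S.card) ≤ 5 * β * q := by
    refine (mul_le_mul_of_nonneg_left hsx (by positivity)).trans (le_of_eq ?_)
    field_simp
  have h2 : β / √(n : ℝ) ≤ β * q := by
    rw [div_eq_mul_one_div]; exact mul_le_mul_of_nonneg_left hone hβ
  have h3 : 2 * τ / n ≤ q :=
    le_trans (div_le_div₀ zero_le_one (by linarith) hsn0 hnn) hone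
  have h4 : τ * (24 * β ^ 2 * q) ≤ 12 * β ^ 2 * q := by
    have := mul_le_mul_of_nonneg_right hτ2 (by positivity : (0 : ℝ) ≤ 24 * β ^ 2 * q)
    linarith
  nlinarith [mul_nonneg (sq_nonneg β) hq0]

theorem bad_le_sum {c a δ : ℝ} (hn : 1 ≤ n) (hδ : 0 < δ) (hc1 : c ≤ a / 4)
    (hc2 : c ≤ δ ^ 2 / (8 * (1 + δ))) (hc0 : 0 ≤ c) (hc3 : c ≤ 1)
    (T : Finset (Fin n) → Fin n → Finset (Edge n)) (hTc : ∀ S i, (T S i).card ≤ S.card)
    (V : Finset (Fin n) → Finset (Fin n → ℝ))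
    (hV : ∀ S, ∀ v ∈ V S, (∀ i ∉ S, v i = 0) ∧ ∑ i, v i ^ 2 = 1) :
    (stdPi (Edge n)).real ((⋃ e ∈ (Finset.univ : Finset (Edge n)), sqBad {e} (a * n))
      ∪ (⋃ i ∈ (Finset.univ : Finset (Fin n)), sqBad (T Finset.univ i) ((1 + δ) * n))
      ∪ quadBad (V Finset.univ) ((1 + δ) * n)
      ∪ ⋃ S ∈ (Finset.univ : Finset (Finset (Fin n))).filter (·.Nonempty),
          quadBad (V S) (level n S.card) ∪ ⋃ i ∈ S, sqBad (T S i) (level n S.card))
      ≤ 20 * ((n : ℝ) ^ 2 * exp (-c * √(n : ℝ))) := by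
  have hN : (1 : ℝ) ≤ n := by exact_mod_cast hn
  have hnn : √(n : ℝ) ≤ n := sqrt_le_iff.2 ⟨by linarith, by nlinarith⟩
  have hs0 := sqrt_nonneg (n : ℝ)
  have hE : exp (-(c * n)) ≤ exp (-c * √(n : ℝ)) := by
    rw [exp_le_exp]; nlinarith
  have b1 : (stdPi (Edge n)).real (⋃ e ∈ (Finset.univ : Finset (Edge n)), sqBad {e} (a * n))
      ≤ (n : ℝ) ^ 2 * (2 * exp (-c * √(n : ℝ))) := by
    refine (measureReal_biUnion_finset_le _ _).trans ((Finset.sum_le_sum fun e _ =>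
      chi_tail_crude {e} (a * n) (m := 1) (by simp)).trans ?_)
    rw [Finset.sum_const, nsmul_eq_mul, Finset.card_univ]
    refine mul_le_mul ?_ ?_ (exp_pos _).le (by positivity)
    · have : Fintype.card (Edge n) ≤ n ^ 2 := (Fintype.card_subtype_le _).trans_eq (by simp [sq])
      exact_mod_cast this
    · rw [exp_add, mul_comm (2 : ℝ)]
      refine mul_le_mul ((exp_le_exp.2 ?_).trans hE) ?_ (exp_pos _).le (exp_pos _).le
      · nlinarith
      · have h := exp_bound_div_one_sub_of_interval (x := (1 / 2 : ℝ)) (by norm_num) (by norm_num)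
        norm_num at h ⊢
        linarith
  have hX2 : exp (-(δ ^ 2 / (8 * (1 + δ)) * n)) ≤ exp (-c * √(n : ℝ)) := by
    refine le_trans ?_ hE
    rw [exp_le_exp]; nlinarith
  have b2 : (stdPi (Edge n)).real
      (⋃ i ∈ (Finset.univ : Finset (Fin n)), sqBad (T Finset.univ i) ((1 + δ) * n))
      ≤ (n : ℝ) * exp (-c * √(n : ℝ)) := by
    refine (measureReal_biUnion_finset_le _ _).trans ((Finset.sum_le_sum fun i _ =>
      (chi_tail_fine (T Finset.univ i) (m := (n : ℝ)) (δ := δ) ?_ hδ).trans hX2).trans ?_)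
    · exact_mod_cast (hTc Finset.univ i).trans_eq (by simp)
    · simp
  have b3 : (stdPi (Edge n)).real (quadBad (V Finset.univ) ((1 + δ) * n))
      ≤ 2 * exp (-c * √(n : ℝ)) := by
    refine (quad_tail Finset.univ _ (hV Finset.univ) (by positivity)).trans ?_
    exact mul_le_mul_of_nonneg_left
      ((chi_tail_fine Finset.univ (m := (n : ℝ)) (δ := δ) (by simp) hδ).trans hX2) zero_le_two
  have hE2 : exp (-√(n : ℝ)) ≤ exp (-c * √(n : ℝ)) := by
    rw [exp_le_exp]; nlinarith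
  refine (measureReal_union_le _ _).trans ((add_le_add ((measureReal_union_le _ _).trans
    (add_le_add ((measureReal_union_le _ _).trans (add_le_add b1 b2)) b3))
    ((small_sets_tail T hTc V hV).trans (mul_le_mul_of_nonneg_left
      (mul_le_mul_of_nonneg_left hE2 (by positivity)) (by positivity)))).trans ?_)
  have := exp_pos (-c * √(n : ℝ))
  have h2 : (n : ℝ) ≤ (n : ℝ) ^ 2 := by nlinarith
  have h3 : (1 : ℝ) ≤ (n : ℝ) ^ 2 := by nlinarith
  nlinarith [mul_le_mul_of_nonneg_right h2 this.le, mul_le_mul_of_nonneg_right h3 this.le]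

theorem couplingBounds : CouplingBounds := by
  intro β hβ
  refine ⟨24 * β ^ 2 + 11 * β + 2, by positivity, fun ε hε η hη => ?_⟩
  set δ := min 1 (ε / (4 * (β ^ 2 + β + 1))) with hδ_def
  set τ := min (1 / 2) (min ε (ε / (4 * (β ^ 2 + ε)))) with hτ_def
  set a := τ ^ 2 / (β ^ 2 + 1) with ha_def
  have hδ : 0 < δ := lt_min one_pos (by positivity)
  have hτ : 0 < τ := lt_min (by norm_num) (lt_min hε (by positivity))
  have hτ2 : τ ≤ 1 / 2 := min_le_left _ _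
  have hτε : τ ≤ ε := (min_le_right _ _).trans (min_le_left _ _)
  have hτρ : τ * (β ^ 2 + ε) ≤ ε / 4 := by
    have h : τ ≤ ε / (4 * (β ^ 2 + ε)) := (min_le_right _ _).trans (min_le_right _ _)
    rw [le_div_iff₀ (by positivity)] at h
    linarith
  have hδ' : δ * (4 * (β ^ 2 + β + 1)) ≤ ε :=
    (le_div_iff₀ (by positivity)).1 (min_le_right _ _)
  have ha : 0 < a := by positivity
  have ha' : β ^ 2 * a ≤ τ ^ 2 := by
    rw [ha_def, mul_div_assoc', div_le_iff₀ (by positivity)]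
    nlinarith [sq_nonneg τ]
  set c := min (min (a / 4) (δ ^ 2 / (8 * (1 + δ)))) 1 with hc_def
  have hc : 0 < c := lt_min (lt_min (by positivity) (by positivity)) one_pos
  have hlim : Tendsto (fun n : ℕ => 20 * (√(n : ℝ) ^ (4 : ℝ) * exp (-c * √(n : ℝ)))) atTop (𝓝 0) := by
    have := ((tendsto_rpow_mul_exp_neg_mul_atTop_nhds_zero 4 c hc).comp
      (tendsto_sqrt_atTop.comp tendsto_natCast_atTop_atTop)).const_mul (20 : ℝ)
    simpa using this
  obtain ⟨n₁, hn₁⟩ := eventually_atTop.1 (hlim.eventually (ge_mem_nhds hη))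
  refine ⟨max n₁ (max 8 ⌈(4 * β / ε) ^ 2⌉₊), fun n hn => ?_⟩
  simp only [max_le_iff] at hn
  obtain ⟨hn1, hn8, hnβ⟩ := hn
  have hN0 : (0 : ℝ) < n := by exact_mod_cast (by omega : 0 < n)
  have hsn0 : (0 : ℝ) < √(n : ℝ) := sqrt_pos.2 hN0
  have hβn : β / √(n : ℝ) ≤ ε / 4 := by
    have h := sqrt_le_sqrt (Nat.ceil_le.1 hnβ)
    rw [sqrt_sq (by positivity), div_le_iff₀ hε] at h
    rw [div_le_iff₀ hsn0]
    linarith
  choose T hTc hTs using fun (S : Finset (Fin n)) (i : Fin n) => row_edges i S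
  choose V hV hVn using fun S : Finset (Fin n) => exists_net S (δ := 1 / (n : ℝ) ^ 3) (by positivity)
  have hsum := bad_le_sum (n := n) (c := c) (a := a) (by omega) hδ
    ((min_le_left _ _).trans (min_le_left _ _)) ((min_le_left _ _).trans (min_le_right _ _)) hc.le
    (min_le_right _ _) T hTc V hV
  have h := hn₁ n hn1
  have e4 : √(n : ℝ) ^ (4 : ℝ) = (n : ℝ) ^ 2 := by
    rw [show (4 : ℝ) = ((4 : ℕ) : ℝ) by norm_num, rpow_natCast,
      show √(n : ℝ) ^ 4 = (√(n : ℝ) ^ 2) ^ 2 by ring, sq_sqrt hN0.le]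
  rw [e4] at h
  set B₁ : Set (Edge n → ℝ) := ⋃ e ∈ (Finset.univ : Finset (Edge n)), sqBad {e} (a * n)
  set B₂ : Set (Edge n → ℝ) :=
    ⋃ i ∈ (Finset.univ : Finset (Fin n)), sqBad (T Finset.univ i) ((1 + δ) * n)
  set B₃ : Set (Edge n → ℝ) := quadBad (V Finset.univ) ((1 + δ) * n)
  set B₄ : Set (Edge n → ℝ) := ⋃ S ∈ (Finset.univ : Finset (Finset (Fin n))).filter (·.Nonempty),
    quadBad (V S) (level n S.card) ∪ ⋃ i ∈ S, sqBad (T S i) (level n S.card)
  have hb' : stdPi (Edge n) (B₁ ∪ B₂ ∪ B₃ ∪ B₄) ≤ ENNReal.ofReal η :=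
    (ENNReal.le_ofReal_iff_toReal_le (measure_ne_top _ _) hη.le).2 (hsum.trans h)
  have key : ∀ g, g ∉ B₁ ∪ B₂ ∪ B₃ ∪ B₄ →
      (∀ i j, |skMat n β g i j| ≤ ε) ∧
      (∀ i, ∑ j, skMat n β g i j ^ 2 ≤ β ^ 2 + ε) ∧
      (∀ v : Fin n → ℝ, ∑ i, ∑ j, eff (skMat n β g i j) * v i * v j ≤
        (2 * β + ε) * ∑ i, v i ^ 2) ∧
      ∀ (S : Finset (Fin n)), S.Nonempty →
        (∀ v : Fin n → ℝ, ∑ i ∈ S, ∑ j ∈ S, eff (skMat n β g i j) * v i * v j ≤
          (24 * β ^ 2 + 11 * β + 2) * √(√((S.card : ℝ) / n)) * ∑ i ∈ S, v i ^ 2) ∧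
        ∀ i ∈ S, ∑ j ∈ S, skMat n β g i j ^ 2 ≤
          (24 * β ^ 2 + 11 * β + 2) * √(√((S.card : ℝ) / n)) := fun g hb => by
    simp only [B₁, B₂, B₄, Set.mem_union, Set.mem_iUnion, Finset.mem_univ, exists_prop, true_and,
      Finset.mem_filter, not_or, not_exists, not_and] at hb
    obtain ⟨⟨⟨g1, g2⟩, g3⟩, g4⟩ := hb
    have hJ : ∀ i j, |skMat n β g i j| ≤ τ :=
      skMat_small (by omega) hτ.le ha' fun e => by
        have := g1 e
        simp only [sqBad, Set.mem_ofPred_eq, not_le, Finset.sum_singleton] at this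
        exact this.le
    have hrow : ∀ i, ∑ j, skMat n β g i j ^ 2 ≤ β ^ 2 + ε := fun i => by
      refine (skMat_row β Finset.univ i (hTs Finset.univ i) (g2 i)).trans ?_
      rw [show β ^ 2 / n * ((1 + δ) * n) = β ^ 2 * (1 + δ) by field_simp]
      nlinarith
    refine ⟨fun i j => (hJ i j).trans hτε, hrow, ?_, fun S hS => ?_⟩
    · exact good_full hβ hn8 hβn hτ.le hτ2 hτε hτρ hδ.le hδ' _ (skMat_symm β g) hJ hrow
        (skMat_form hβ Finset.univ (hV Finset.univ) (hVn Finset.univ) hJ g3)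
    · obtain ⟨g4a, g4b⟩ := g4 S hS
      exact good_small hβ (by omega) hτ.le hτ2 S hS _ (skMat_symm β g) hJ
        (fun i hi => skMat_row β S i (hTs S i) (g4b i hi))
        (skMat_form hβ S (hV S) (hVn S) hJ g4a)
  rw [ENNReal.ofReal_sub 1 hη.le, ENNReal.ofReal_one]
  refine tsub_le_iff_right.2 (le_trans ?_ (add_le_add le_rfl hb'))
  rw [← measure_univ (μ := stdPi (Edge n))]
  refine le_trans (measure_mono ?_) (measure_union_le _ _)
  intro g _
  by_cases hb : g ∈ B₁ ∪ B₂ ∪ B₃ ∪ B₄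
  · exact Or.inr hb
  · exact Or.inl (key g hb)

end Vale.Agent.P150.Fast
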