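import Vale.Agent.P150.Fast.Bridge

/-!
# P150 fast side: the mixing time is at least of order `log n`

A pointwise bound `d/du |grad P_u f|^2 <= L |grad P_u f|^2 + M |grad P_u f|^2` bounds the variance of
a linear statistic at time `t`; started at a well-chosen configuration its mean is still large.
-/

open Finset MeasureTheory

namespace Vale.Agent.P150.Fast

section pointwise

variable {ι : Type*} [Fintype ι] [DecidableEq ι] {J : ι → ι → ℝ} (h : ι → ℝ)

/-- `∑_j (grad_j f)^2`. -/
def gradSq (f : (ι → Bool) → ℝ) (x : ι → Bool) : ℝ := ∑ j, grad j f x ^ 2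

theorem gradSq_nonneg (f : (ι → Bool) → ℝ) (x : ι → Bool) : 0 ≤ gradSq f x :=
  Finset.sum_nonneg fun _ _ => sq_nonneg _

theorem lap_grad (f : (ι → Bool) → ℝ) (x : ι → Bool) :
    lap J h f x = ∑ i, (cmean J h i x - spin (x i)) * grad i f x / 2 := by
  rw [lap_eq, ← Finset.sum_neg_distrib]
  refine Finset.sum_congr rfl fun i _ => ?_
  rw [dev_eq]
  linear_combination (cmean J h i x * grad i f x / 2) * spin_mul_spin (x i)

omit [Fintype ι] in
theorem grad_grad_comm {i j : ι} (hij : i ≠ j) (f : (ι → Bool) → ℝ) (x : ι → Bool) :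
    grad i (grad j f) x = grad j (grad i f) x := by
  simp only [grad, Function.update_comm hij]
  ring

omit [Fintype ι] in
theorem grad_self_grad (i : ι) (f : (ι → Bool) → ℝ) (x : ι → Bool) :
    grad i (grad i f) x = 0 := by
  simp [grad]

omit [Fintype ι] in
theorem grad_sq (i : ι) (φ : (ι → Bool) → ℝ) (x : ι → Bool) :
    grad i (fun y => φ y ^ 2) x = grad i φ x * (2 * φ x - spin (x i) * grad i φ x) := by
  cases hx : x i
  · have : φ x = φ (Function.update x i false) := by rw [← hx, Function.update_eq_self]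
    simp only [grad, this, spin_false]; ring
  · have : φ x = φ (Function.update x i true) := by rw [← hx, Function.update_eq_self]
    simp only [grad, this, spin_true]; ring

theorem lap_gradSq (f : (ι → Bool) → ℝ) (x : ι → Bool) :
    lap J h (gradSq f) x = ∑ j, ∑ i, (cmean J h i x - spin (x i)) / 2 *
      (grad i (grad j f) x * (2 * grad j f x - spin (x i) * grad i (grad j f) x)) := by
  rw [lap_grad, Finset.sum_comm]
  refine Finset.sum_congr rfl fun i _ => ?_
  have e : grad i (gradSq f) x = ∑ j, grad i (fun y => grad j f y ^ 2) x := by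
    simp only [grad, gradSq, Finset.sum_sub_distrib]
  rw [e, ← Finset.mul_sum, Finset.sum_congr rfl fun j _ => (grad_sq i (grad j f) x)]
  ring

/-- The change of the `i`-th conditional mean along the `j`-th spin. -/
noncomputable def cdiff (J : ι → ι → ℝ) (h : ι → ℝ) (i j : ι) (x : ι → Bool) : ℝ :=
  cmean J h i (Function.update x j true) - cmean J h i (Function.update x j false)

/-- The value of `φ` after flipping the `j`-th spin. -/
def flipped {α : Type*} (j : ι) (φ : (ι → Bool) → α) (x : ι → Bool) : α :=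
  φ (Function.update x j (!x j))

theorem flipped_eq (i j : ι) (x : ι → Bool) :
    flipped j (cmean J h i) x = cmean J h i x - spin (x j) * cdiff J h i j x := by
  cases hx : x j
  · have : cmean J h i x = cmean J h i (Function.update x j false) := by
      rw [← hx, Function.update_eq_self]
    simp only [flipped, cdiff, hx, this, spin_false, Bool.not_false]; ring
  · have : cmean J h i x = cmean J h i (Function.update x j true) := by
      rw [← hx, Function.update_eq_self]
    simp only [flipped, cdiff, hx, this, spin_true, Bool.not_true]; ring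

theorem grad_term {i j : ι} (hij : i ≠ j) (f : (ι → Bool) → ℝ) (x : ι → Bool) :
    grad j (fun y => (cmean J h i y - spin (y i)) * grad i f y) x =
      cdiff J h i j x * grad i f x +
        (flipped j (cmean J h i) x - spin (x i)) * grad i (grad j f) x := by
  rw [grad_grad_comm hij]
  cases hx : x j
  · have e : x = Function.update x j false := by rw [← hx, Function.update_eq_self]
    simp only [grad, cdiff, flipped, hx, Bool.not_false, Function.update_of_ne hij]
    conv_rhs => rw [← congrArg (fun y => f (Function.update y i true)) e.symm,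
      ← congrArg (fun y => f (Function.update y i false)) e.symm]
    ring
  · have e : x = Function.update x j true := by rw [← hx, Function.update_eq_self]
    simp only [grad, cdiff, flipped, hx, Bool.not_true, Function.update_of_ne hij]
    conv_rhs => rw [← congrArg (fun y => f (Function.update y i true)) e.symm,
      ← congrArg (fun y => f (Function.update y i false)) e.symm]
    ring

theorem cdiff_eq (_hJ : IsCoupling J) {i j : ι} (_hij : i ≠ j) (x : ι → Bool) :
    cdiff J h i j x = 2 * eff (J i j) * (1 - cmean J h i x ^ 2) *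
      (Real.cosh (field J h i x) / Real.cosh (field J h i x - 2 * J i j * spin (x j))) := by
  have key : ∀ a b : ℝ, Real.tanh a - Real.tanh b =
      Real.sinh (a - b) / (Real.cosh a * Real.cosh b) := fun a b => by
    have ha := (Real.cosh_pos a).ne'
    have hb := (Real.cosh_pos b).ne'
    rw [Real.sinh_sub, Real.tanh_eq_sinh_div_cosh, Real.tanh_eq_sinh_div_cosh]
    field_simp
  have hs : 1 - cmean J h i x ^ 2 = 1 / Real.cosh (field J h i x) ^ 2 := by
    have hc := (Real.cosh_pos (field J h i x)).ne'
    rw [cmean, Real.tanh_eq_sinh_div_cosh]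
    field_simp
    linarith [Real.cosh_sq (field J h i x)]
  have hsh : ∀ y : ℝ, Real.sinh (2 * y) = 2 * eff y := fun y => by
    rw [Real.sinh_two_mul, eff]; ring
  have hc := (Real.cosh_pos (field J h i x)).ne'
  have hc' := (Real.cosh_pos (field J h i x - 2 * J i j * spin (x j))).ne'
  cases hx : x j
  · have e1 : field J h i (Function.update x j true) =
        field J h i x - 2 * J i j * spin (x j) := by
      rw [field_update, hx, spin_true, spin_false]; ring
    have e0 : field J h i (Function.update x j false) = field J h i x := by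
      rw [← hx, Function.update_eq_self]
    rw [cdiff, cmean, cmean, e1, e0, key, hs, ← hsh, hx, spin_false]
    rw [show field J h i x - 2 * J i j * -1 - field J h i x = 2 * J i j by ring]
    rw [hx, spin_false] at hc'
    field_simp
  · have e0 : field J h i (Function.update x j false) =
        field J h i x - 2 * J i j * spin (x j) := by
      rw [field_update, hx, spin_true, spin_false]; ring
    have e1 : field J h i (Function.update x j true) = field J h i x := by
      rw [← hx, Function.update_eq_self]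
    rw [cdiff, cmean, cmean, e1, e0, key, hs, ← hsh, hx, spin_true]
    rw [show field J h i x - (field J h i x - 2 * J i j * 1) = 2 * J i j by ring]
    rw [hx, spin_true] at hc'
    field_simp

theorem abs_eff_le {t : ℝ} (ht : |t| ≤ 1 / 4) : |eff t| ≤ 2 * |t| := by
  have h2 : |2 * t| ≤ 1 / 2 := by rw [abs_mul, abs_two]; linarith
  have e : eff t = Real.sinh (2 * t) / 2 := by rw [Real.sinh_two_mul, eff]; ring
  have hb := Real.abs_exp_sub_one_le (show |2 * t| ≤ 1 by linarith)
  have hb' := Real.abs_exp_sub_one_le (show |-(2 * t)| ≤ 1 by rw [abs_neg]; linarith)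
  rw [abs_neg, abs_mul, abs_two] at hb'
  rw [abs_mul, abs_two] at hb
  rw [e, Real.sinh_eq, abs_div, abs_div, abs_two]
  have := abs_sub (Real.exp (2 * t) - 1) (Real.exp (-(2 * t)) - 1)
  rw [show Real.exp (2 * t) - 1 - (Real.exp (-(2 * t)) - 1) =
    Real.exp (2 * t) - Real.exp (-(2 * t)) by ring] at this
  linarith

theorem cosh_ratio {a d : ℝ} (hd : |d| ≤ 1) :
    |Real.cosh a / Real.cosh (a - d) - 1| ≤ 2 * |d| := by
  have hb := Real.abs_exp_sub_one_le hd
  have hb' := Real.abs_exp_sub_one_le (show |-d| ≤ 1 by rwa [abs_neg])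
  rw [abs_neg] at hb'
  have hp := Real.cosh_pos (a - d)
  rw [div_sub_one hp.ne', abs_div, abs_of_pos hp, div_le_iff₀ hp]
  have e : Real.cosh a - Real.cosh (a - d) = (Real.exp d - 1) * (Real.exp (a - d) / 2) +
      (Real.exp (-d) - 1) * (Real.exp (-(a - d)) / 2) := by
    rw [Real.cosh_eq, Real.cosh_eq]
    have e1 : Real.exp d * Real.exp (a - d) = Real.exp a := by rw [← Real.exp_add]; ring_nf
    have e2 : Real.exp (-d) * Real.exp (-(a - d)) = Real.exp (-a) := by
      rw [← Real.exp_add]; ring_nf
    linear_combination (-1 / 2 : ℝ) * e1 + (-1 / 2 : ℝ) * e2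
  have e' : Real.cosh (a - d) = Real.exp (a - d) / 2 + Real.exp (-(a - d)) / 2 := by
    rw [Real.cosh_eq]; ring
  rw [e, e', mul_add]
  refine (abs_add_le _ _).trans (add_le_add ?_ ?_) <;>
    (rw [abs_mul, abs_of_pos (by positivity : (0 : ℝ) < Real.exp _ / 2)];
     exact mul_le_mul_of_nonneg_right (by assumption) (by positivity))

theorem pair_drift (hJ : IsCoupling J) {i j : ι} (hij : i ≠ j) (hJij : |J i j| ≤ 1 / 20)
    (x : ι → Bool) (a b w : ℝ) :
    cdiff J h i j x * (a * b) + (flipped j (cmean J h i) x - cmean J h i x) * (w * b) -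
        (1 - cmean J h i x * spin (x i)) / 2 * w ^ 2 ≤
      2 * eff (J i j) * ((1 - cmean J h i x ^ 2) * a) * b + 100 * J i j ^ 2 * (a ^ 2 + b ^ 2) := by
  rw [flipped_eq]
  have hs0 : 0 < 1 - cmean J h i x ^ 2 := sub_pos.2 (Real.tanh_sq_lt_one _)
  have hs1 : 1 - cmean J h i x ^ 2 ≤ 1 := by linarith [sq_nonneg (cmean J h i x)]
  have he := abs_eff_le (t := J i j) (by linarith)
  have hr := cosh_ratio (a := field J h i x) (d := 2 * J i j * spin (x j)) (by
    rw [abs_mul, abs_mul, abs_two, abs_spin, mul_one]; linarith)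
  rw [abs_mul, abs_mul, abs_two, abs_spin, mul_one] at hr
  set r := Real.cosh (field J h i x) / Real.cosh (field J h i x - 2 * J i j * spin (x j)) with hr0
  have hd := cdiff_eq h hJ hij x
  rw [← hr0] at hd
  set s := 1 - cmean J h i x ^ 2 with hsdef
  set c := cdiff J h i j x
  have hrabs : |r| ≤ 3 / 2 := by
    have := abs_add_le (r - 1) 1
    rw [sub_add_cancel, abs_one] at this
    linarith
  have hc : |c| ≤ 6 * |J i j| * s := by
    rw [hd, abs_mul, abs_mul, abs_mul, abs_two, abs_of_pos hs0]
    calc 2 * |eff (J i j)| * s * |r| ≤ 2 * (2 * |J i j|) * s * (3 / 2) := by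
          refine mul_le_mul (mul_le_mul_of_nonneg_right (by linarith) hs0.le) hrabs (abs_nonneg _) ?_
          positivity
      _ = 6 * |J i j| * s := by ring
  have hrem : |c - 2 * eff (J i j) * s| ≤ 16 * J i j ^ 2 := by
    rw [hd, show 2 * eff (J i j) * s * r - 2 * eff (J i j) * s =
      2 * eff (J i j) * s * (r - 1) by ring, abs_mul, abs_mul, abs_mul, abs_two, abs_of_pos hs0]
    calc 2 * |eff (J i j)| * s * |r - 1| ≤ 2 * (2 * |J i j|) * 1 * (2 * (2 * |J i j|)) := by
          refine mul_le_mul (mul_le_mul (by linarith) hs1 hs0.le (by positivity)) hr (abs_nonneg _) ?_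
          positivity
      _ = 16 * J i j ^ 2 := by rw [← sq_abs (J i j)]; ring
  have h1 : (c - 2 * eff (J i j) * s) * (a * b) ≤ 8 * J i j ^ 2 * (a ^ 2 + b ^ 2) := by
    refine (le_abs_self _).trans ?_
    rw [abs_mul]
    refine (mul_le_mul hrem (le_refl _) (abs_nonneg _) (by positivity)).trans ?_
    have : |a * b| ≤ (a ^ 2 + b ^ 2) / 2 :=
      abs_le.2 ⟨by nlinarith [sq_nonneg (a + b)], by nlinarith [sq_nonneg (a - b)]⟩
    nlinarith [mul_le_mul_of_nonneg_left this (sq_nonneg (J i j))]
  -- the mixed term is absorbed by the second derivative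
  have hlow : s / 2 ≤ 1 - cmean J h i x * spin (x i) := by
    rw [hsdef]
    have := abs_le.1 (Real.abs_tanh_lt_one (field J h i x)).le
    rcases spin_cases (x i) with e | e <;> rw [e] <;> rw [cmean] <;>
      nlinarith [sq_nonneg (Real.tanh (field J h i x) - 1), sq_nonneg (Real.tanh (field J h i x) + 1)]
  have h2 : (cmean J h i x - spin (x j) * c - cmean J h i x) * (w * b) -
      (1 - cmean J h i x * spin (x i)) / 2 * w ^ 2 ≤ 72 * J i j ^ 2 * b ^ 2 := by
    set z := spin (x j) * c with hz
    have hz2 : z ^ 2 ≤ 36 * J i j ^ 2 * s := by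
      rw [hz, mul_pow, sq (spin (x j)), spin_mul_spin, one_mul]
      have hc2 := pow_le_pow_left₀ (abs_nonneg c) hc 2
      rw [sq_abs] at hc2
      refine hc2.trans ?_
      rw [mul_pow, mul_pow, sq_abs]
      calc 6 ^ 2 * J i j ^ 2 * s ^ 2 = 36 * J i j ^ 2 * s * s := by ring
        _ ≤ 36 * J i j ^ 2 * s * 1 := mul_le_mul_of_nonneg_left hs1 (by positivity)
        _ = 36 * J i j ^ 2 * s := mul_one _
    refine le_of_mul_le_mul_left ?_ hs0
    nlinarith [mul_le_mul_of_nonneg_right hlow (mul_nonneg hs0.le (sq_nonneg w)),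
      mul_le_mul_of_nonneg_right hz2 (sq_nonneg b), sq_nonneg (s * w + 2 * z * b)]
  nlinarith [mul_nonneg (sq_nonneg (J i j)) (sq_nonneg a), mul_nonneg (sq_nonneg (J i j)) (sq_nonneg b)]

/-- `d/du |grad P_u f|^2 <= L |grad P_u f|^2 + M |grad P_u f|^2`. -/
theorem gradSq_drift (hJ : IsCoupling J) {K ρ : ℝ} (hτ : ∀ i j, |J i j| ≤ 1 / 20)
    (hK : ∀ v : ι → ℝ, |∑ i, ∑ j, eff (J i j) * v i * v j| ≤ K * ∑ i, v i ^ 2)
    (hρ : ∀ i, ∑ j, J i j ^ 2 ≤ ρ) (hK0 : 0 ≤ K) (f : (ι → Bool) → ℝ) (x : ι → Bool) :
    2 * ∑ j, grad j f x * grad j (lap J h f) x ≤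
      lap J h (gradSq f) x + (2 * K + 200 * ρ) * gradSq f x := by
  set A := fun i => grad i f x with hA
  set a := fun i => (1 - cmean J h i x ^ 2) * A i with ha
  have hterm : ∀ j i, A j * grad j (fun y => (cmean J h i y - spin (y i)) * grad i f y) x -
      (cmean J h i x - spin (x i)) / 2 *
        (grad i (grad j f) x * (2 * A j - spin (x i) * grad i (grad j f) x)) ≤
      2 * eff (J i j) * a i * A j + 100 * J i j ^ 2 * (A i ^ 2 + A j ^ 2) := fun j i => by
    by_cases hij : i = j
    · subst hij
      rw [grad_self_grad, hJ.2 i]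
      have e : grad i (fun y => (cmean J h i y - spin (y i)) * grad i f y) x = -2 * A i := by
        simp only [grad, cmean_update_self h hJ, Function.update_self, spin_true, spin_false,
          Function.update_idem, hA]
        ring
      rw [e]
      simp [eff]
      nlinarith [sq_nonneg (A i)]
    · rw [grad_term h hij]
      refine le_trans (le_of_eq ?_) (pair_drift h hJ hij (hτ i j) x (A i) (A j) (grad i (grad j f) x))
      linear_combination
        (-(grad i (grad j f) x ^ 2) / 2) * spin_mul_spin (x i)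
  have hsum := Finset.sum_le_sum (s := univ) fun j _ =>
    Finset.sum_le_sum (s := univ) fun i _ => hterm j i
  have e1 : 2 * ∑ j, A j * grad j (lap J h f) x =
      ∑ j, ∑ i, A j * grad j (fun y => (cmean J h i y - spin (y i)) * grad i f y) x := by
    rw [Finset.mul_sum]
    refine Finset.sum_congr rfl fun j _ => ?_
    rw [← Finset.mul_sum, mul_left_comm]
    congr 1
    simp only [grad, lap_grad, ← Finset.sum_sub_distrib, Finset.mul_sum]
    exact Finset.sum_congr rfl fun i _ => by ring
  simp only [Finset.sum_sub_distrib] at hsum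
  rw [← e1, ← lap_gradSq] at hsum
  have hbil : ∑ j, ∑ i, eff (J i j) * a i * A j ≤ K * gradSq f x := by
    have hp := (abs_le.1 (hK fun i => a i + A i)).2
    have hm := (abs_le.1 (hK fun i => a i - A i)).1
    have hsym : ∑ i, ∑ j, eff (J i j) * A i * a j = ∑ i, ∑ j, eff (J i j) * a i * A j := by
      rw [Finset.sum_comm]
      exact Finset.sum_congr rfl fun i _ => Finset.sum_congr rfl fun j _ => by
        rw [hJ.1 j i]; ring
    have hle : ∑ i, a i ^ 2 ≤ gradSq f x := Finset.sum_le_sum fun i _ => by
      rw [ha, mul_pow]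
      refine mul_le_of_le_one_left (sq_nonneg _) (pow_le_one₀ ?_ ?_)
      · exact (sub_pos.2 (Real.tanh_sq_lt_one _)).le
      · linarith [sq_nonneg (cmean J h i x)]
    have hG : gradSq f x = ∑ i, A i ^ 2 := rfl
    simp only [mul_add, add_mul, mul_sub, sub_mul, Finset.sum_add_distrib, Finset.sum_sub_distrib,
      add_sq, sub_sq, ← Finset.mul_sum] at hp hm
    rw [Finset.sum_comm]
    nlinarith
  have hrow : ∑ j, ∑ i, 100 * J i j ^ 2 * (A i ^ 2 + A j ^ 2) ≤ 200 * ρ * gradSq f x := by
    have p1 : ∑ j, ∑ i, 100 * J i j ^ 2 * A i ^ 2 ≤ 100 * ρ * gradSq f x := by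
      rw [Finset.sum_comm, gradSq, Finset.mul_sum]
      refine Finset.sum_le_sum fun i _ => ?_
      rw [← Finset.sum_mul, ← Finset.mul_sum]
      exact mul_le_mul_of_nonneg_right (mul_le_mul_of_nonneg_left (hρ i) (by norm_num)) (sq_nonneg _)
    have p2 : ∑ j, ∑ i, 100 * J i j ^ 2 * A j ^ 2 ≤ 100 * ρ * gradSq f x := by
      rw [gradSq, Finset.mul_sum]
      refine Finset.sum_le_sum fun j _ => ?_
      rw [← Finset.sum_mul, ← Finset.mul_sum]
      simp only [hJ.1 _ j]
      exact mul_le_mul_of_nonneg_right (mul_le_mul_of_nonneg_left (hρ j) (by norm_num)) (sq_nonneg _)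
    simp only [mul_add, Finset.sum_add_distrib]
    linarith
  simp only [Finset.sum_add_distrib, mul_assoc (2 : ℝ), ← Finset.mul_sum] at hsum
  simp only [mul_assoc] at hbil hrow hsum ⊢
  linarith

theorem lap_sq_sub (f : (ι → Bool) → ℝ) (x : ι → Bool) :
    lap J h (fun y => f y ^ 2) x - 2 * f x * lap J h f x ≤ gradSq f x := by
  simp only [lap_grad, grad_sq, gradSq, Finset.mul_sum, ← Finset.sum_sub_distrib]
  refine Finset.sum_le_sum fun i _ => ?_
  have := abs_le.1 (Real.abs_tanh_lt_one (field J h i x)).le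
  rcases spin_cases (x i) with e | e <;> rw [e] <;> rw [cmean] <;>
    nlinarith [sq_nonneg (grad i f x),
      mul_nonneg (sub_nonneg.2 this.2) (sq_nonneg (grad i f x)),
      mul_nonneg (neg_le_iff_add_nonneg.1 this.1) (sq_nonneg (grad i f x))]

end pointwise

section semigroup

variable {n : ℕ} {β : ℝ} {g : Edge n → ℝ}

open scoped Matrix.Norms.Operator in
theorem hasDerivAt_kernel (t : ℝ) (x y : Fin n → Bool) :
    HasDerivAt (fun u => kernel n β g u x y) ((generator n β g * kernel n β g t) x y) t ∧
      HasDerivAt (fun u => kernel n β g u x y) ((kernel n β g t * generator n β g) x y) t := by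
  let L : Matrix (Fin n → Bool) (Fin n → Bool) ℝ →L[ℝ] ℝ :=
    LinearMap.toContinuousLinearMap
      { toFun := fun M => M x y
        map_add' := fun _ _ => rfl
        map_smul' := fun _ _ => rfl }
  exact ⟨L.hasFDerivAt.comp_hasDerivAt t (hasDerivAt_exp_smul_const' (generator n β g) t),
    L.hasFDerivAt.comp_hasDerivAt t (hasDerivAt_exp_smul_const (generator n β g) t)⟩

/-- `P_u f`. -/
noncomputable def evolve (n : ℕ) (β : ℝ) (g : Edge n → ℝ) (u : ℝ) (f : (Fin n → Bool) → ℝ) :
    (Fin n → Bool) → ℝ :=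
  (kernel n β g u).mulVec f

theorem hasDerivAt_evolve (u : ℝ) (f : (Fin n → Bool) → ℝ) (x : Fin n → Bool) :
    HasDerivAt (fun w => evolve n β g w f x) (lap (skMat n β g) 0 (evolve n β g u f) x) u := by
  simp only [evolve, Matrix.mulVec, dotProduct]
  refine (HasDerivAt.fun_sum fun y _ => (hasDerivAt_kernel u x y).1.mul_const (f y)).congr_deriv ?_
  rw [← generator_skMat]
  show (generator n β g * kernel n β g u).mulVec f x = _
  rw [← Matrix.mulVec_mulVec]

/-- The derivative of `P_{t-u} φ_u`. -/
theorem hasDerivAt_interpolate (t u : ℝ) {φ φ' : ℝ → (Fin n → Bool) → ℝ}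
    (hφ : ∀ y, HasDerivAt (fun w => φ w y) (φ' u y) u) (x : Fin n → Bool) :
    HasDerivAt (fun w => evolve n β g (t - w) (φ w) x)
      (evolve n β g (t - u) (fun y => φ' u y - lap (skMat n β g) 0 (φ u) y) x) u := by
  simp only [evolve, Matrix.mulVec, dotProduct]
  refine (HasDerivAt.fun_sum fun y _ =>
    ((hasDerivAt_kernel (t - u) x y).2.comp u ((hasDerivAt_id' u).const_sub t)).mul (hφ y)).congr_deriv ?_
  simp only [Function.comp_apply, mul_sub, Finset.sum_sub_distrib, Finset.sum_add_distrib,
    mul_neg, mul_one, neg_mul, Finset.sum_neg_distrib]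
  have e : ∑ y, (kernel n β g (t - u) * generator n β g) x y * φ u y =
      ∑ y, kernel n β g (t - u) x y * lap (skMat n β g) 0 (φ u) y := by
    have := congrFun (Matrix.mulVec_mulVec (φ u) (kernel n β g (t - u)) (generator n β g)) x
    simp only [← generator_skMat, Matrix.mulVec, dotProduct] at this ⊢
    exact this.symm
  rw [e]
  ring

theorem kernel_nonneg (hn : 0 < n) {t : ℝ} (ht : 0 ≤ t) (x y : Fin n → Bool) :
    0 ≤ kernel n β g t x y := by
  refine (kernel_hasSum hn t x y).nonneg fun k => ?_
  have hpow : ∀ k x y, 0 ≤ (stepMat n β g ^ k) x y := by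
    intro k
    induction k with
    | zero => intro x y; rw [pow_zero, Matrix.one_apply]; split_ifs <;> norm_num
    | succ k ih =>
      intro x y
      rw [pow_succ, Matrix.mul_apply]
      refine Finset.sum_nonneg fun z _ => mul_nonneg (ih x z) ?_
      simp only [stepMat, Matrix.smul_apply, Matrix.sum_apply, smul_eq_mul]
      exact mul_nonneg (by positivity) (Finset.sum_nonneg fun i _ => condMat_nonneg i z y)
  exact mul_nonneg (by positivity) (hpow k x y)

theorem evolve_le (hn : 0 < n) {t : ℝ} (ht : 0 ≤ t) {φ ψ : (Fin n → Bool) → ℝ}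
    (h : ∀ y, φ y ≤ ψ y) (x : Fin n → Bool) : evolve n β g t φ x ≤ evolve n β g t ψ x :=
  Finset.sum_le_sum fun y _ => mul_le_mul_of_nonneg_left (h y) (kernel_nonneg hn ht x y)

theorem evolve_zero (φ : (Fin n → Bool) → ℝ) : evolve n β g 0 φ = φ := by
  simp [evolve, kernel, NormedSpace.exp_zero]

theorem evolve_const (hn : 0 < n) (t c : ℝ) (x : Fin n → Bool) :
    evolve n β g t (fun _ => c) x = c := by
  simp only [evolve, Matrix.mulVec, dotProduct, ← Finset.sum_mul, sum_kernel hn, one_mul]

/-- The gradient of `P_t f` grows at most exponentially. -/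
theorem gradSq_evolve_le (hn : 0 < n) {M : ℝ}
    (hM : ∀ f x, 2 * ∑ j, grad j f x * grad j (lap (skMat n β g) 0 f) x ≤
      lap (skMat n β g) 0 (gradSq f) x + M * gradSq f x)
    (f : (Fin n → Bool) → ℝ) {t : ℝ} (ht : 0 ≤ t) (x : Fin n → Bool) :
    gradSq (evolve n β g t f) x ≤ Real.exp (M * t) * evolve n β g t (gradSq f) x := by
  set φ : ℝ → (Fin n → Bool) → ℝ := fun w => gradSq (evolve n β g w f)
  set φ' : ℝ → (Fin n → Bool) → ℝ := fun w y => 2 * ∑ j, grad j (evolve n β g w f) y *
    grad j (lap (skMat n β g) 0 (evolve n β g w f)) y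
  have hφ : ∀ u y, HasDerivAt (fun w => φ w y) (φ' u y) u := fun u y => by
    simp only [φ, φ', gradSq, grad, Finset.mul_sum]
    refine (HasDerivAt.fun_sum fun j _ =>
      (((hasDerivAt_evolve u f (Function.update y j true)).sub
        (hasDerivAt_evolve u f (Function.update y j false))).fun_pow 2)).congr_deriv ?_
    exact Finset.sum_congr rfl fun j _ => by simp; ring
  set Ψ : ℝ → ℝ := fun u => Real.exp (-(M * u)) * evolve n β g (t - u) (φ u) x
  have hΨ : ∀ u, HasDerivAt Ψ (Real.exp (-(M * u)) *
      (evolve n β g (t - u) (fun y => φ' u y - lap (skMat n β g) 0 (φ u) y) x -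
        M * evolve n β g (t - u) (φ u) x)) u := fun u => by
    refine ((((hasDerivAt_id' u).const_mul M).neg).exp.mul
      (hasDerivAt_interpolate t u (φ := φ) (φ' := φ') (hφ u) x)).congr_deriv ?_
    simp only [Pi.neg_apply]
    ring
  have hanti : AntitoneOn Ψ (Set.Icc 0 t) := by
    refine antitoneOn_of_deriv_nonpos (convex_Icc 0 t)
      (fun u _ => (hΨ u).continuousAt.continuousWithinAt)
      (fun u _ => (hΨ u).differentiableAt.differentiableWithinAt) fun u hu => ?_
    rw [interior_Icc] at hu
    rw [(hΨ u).deriv]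
    refine mul_nonpos_of_nonneg_of_nonpos (Real.exp_pos _).le ?_
    have e : M * evolve n β g (t - u) (φ u) x = evolve n β g (t - u) (fun y => M * φ u y) x := by
      simp only [evolve, Matrix.mulVec, dotProduct, Finset.mul_sum]
      exact Finset.sum_congr rfl fun y _ => by ring
    rw [e, sub_nonpos]
    refine evolve_le hn (by linarith [hu.2]) (fun y => ?_) x
    have := hM (evolve n β g u f) y
    simp only [φ, φ']
    linarith
  have h := hanti (Set.left_mem_Icc.2 ht) (Set.right_mem_Icc.2 ht) ht
  simp only [Ψ, φ, sub_self, sub_zero, evolve_zero, mul_zero, neg_zero, Real.exp_zero, one_mul,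
    Real.exp_neg] at h
  rw [inv_mul_le_iff₀ (Real.exp_pos _), inv_one, one_mul] at h
  exact h

/-- The variance at time `t` grows at most like `t e^(M t)`. -/
theorem var_evolve_le (hn : 0 < n) {M : ℝ} (hM0 : 0 ≤ M)
    (hM : ∀ f x, 2 * ∑ j, grad j f x * grad j (lap (skMat n β g) 0 f) x ≤
      lap (skMat n β g) 0 (gradSq f) x + M * gradSq f x)
    (f : (Fin n → Bool) → ℝ) {V : ℝ} (hV : ∀ y, gradSq f y ≤ V) {t : ℝ} (ht : 0 ≤ t)
    (x : Fin n → Bool) :
    evolve n β g t (fun y => f y ^ 2) x - evolve n β g t f x ^ 2 ≤ t * (Real.exp (M * t) * V) := by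
  set φ : ℝ → (Fin n → Bool) → ℝ := fun w y => evolve n β g w f y ^ 2
  set φ' : ℝ → (Fin n → Bool) → ℝ := fun w y =>
    2 * evolve n β g w f y * lap (skMat n β g) 0 (evolve n β g w f) y
  have hφ : ∀ u y, HasDerivAt (fun w => φ w y) (φ' u y) u := fun u y =>
    ((hasDerivAt_evolve u f y).fun_pow 2).congr_deriv (by simp [φ'])
  set Ψ : ℝ → ℝ := fun u => evolve n β g (t - u) (φ u) x + Real.exp (M * t) * V * u
  have hΨ : ∀ u, HasDerivAt Ψ
      (evolve n β g (t - u) (fun y => φ' u y - lap (skMat n β g) 0 (φ u) y) x +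
        Real.exp (M * t) * V) u := fun u =>
    ((hasDerivAt_interpolate t u (φ := φ) (φ' := φ') (hφ u) x).add
      ((hasDerivAt_id' u).const_mul (Real.exp (M * t) * V))).congr_deriv (by rw [mul_one])
  have hmono : MonotoneOn Ψ (Set.Icc 0 t) := by
    refine monotoneOn_of_deriv_nonneg (convex_Icc 0 t)
      (fun u _ => (hΨ u).continuousAt.continuousWithinAt)
      (fun u _ => (hΨ u).differentiableAt.differentiableWithinAt) fun u hu => ?_
    rw [interior_Icc] at hu
    rw [(hΨ u).deriv]
    have hle : evolve n β g (t - u) (fun _ => -(Real.exp (M * t) * V)) x ≤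
        evolve n β g (t - u) (fun y => φ' u y - lap (skMat n β g) 0 (φ u) y) x := by
      refine evolve_le hn (by linarith [hu.2]) (fun y => ?_) x
      have h1 := lap_sq_sub (J := skMat n β g) 0 (evolve n β g u f) y
      have h2 := gradSq_evolve_le hn hM f hu.1.le y
      have h3 : evolve n β g u (gradSq f) y ≤ V :=
        (evolve_le hn hu.1.le hV y).trans_eq (evolve_const hn u V y)
      have h4 : Real.exp (M * u) * evolve n β g u (gradSq f) y ≤ Real.exp (M * t) * V :=
        (mul_le_mul_of_nonneg_left h3 (Real.exp_pos _).le).trans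
          (mul_le_mul_of_nonneg_right (Real.exp_le_exp.2 (mul_le_mul_of_nonneg_left hu.2.le hM0))
            ((gradSq_nonneg f y).trans (hV y)))
      simp only [φ, φ']
      linarith
    rw [evolve_const hn] at hle
    linarith
  have h := hmono (Set.left_mem_Icc.2 ht) (Set.right_mem_Icc.2 ht) ht
  simp only [Ψ, φ, sub_self, sub_zero, evolve_zero, mul_zero, add_zero] at h
  linarith

theorem ip_pow_comm (u v : (Fin n → Bool) → ℝ) (k : ℕ) :
    ip n β g u ((stepMat n β g ^ k).mulVec v) = ip n β g v ((stepMat n β g ^ k).mulVec u) := by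
  induction k generalizing u v with
  | zero => simp [ip_comm]
  | succ k ih =>
    calc ip n β g u ((stepMat n β g ^ (k + 1)).mulVec v)
        = ip n β g u ((stepMat n β g ^ k).mulVec ((stepMat n β g).mulVec v)) := by
          rw [pow_succ, Matrix.mulVec_mulVec]
      _ = ip n β g ((stepMat n β g).mulVec v) ((stepMat n β g ^ k).mulVec u) := ih _ _
      _ = ip n β g ((stepMat n β g ^ k).mulVec u) ((stepMat n β g).mulVec v) := ip_comm _ _
      _ = ip n β g v ((stepMat n β g).mulVec ((stepMat n β g ^ k).mulVec u)) := (step_symm _ _).trans (ip_comm _ _)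
      _ = _ := by rw [pow_succ', Matrix.mulVec_mulVec]

theorem kernel_symm (hn : 0 < n) (t : ℝ) (u v : (Fin n → Bool) → ℝ) :
    ip n β g u ((kernel n β g t).mulVec v) = ip n β g v ((kernel n β g t).mulVec u) :=
  (kernel_ip hn t u v).unique ((kernel_ip hn t v u).congr_fun fun k => by rw [ip_pow_comm])

/-- The autocorrelation of a spin decays at most like `e^(-2t)`. -/
theorem autocorr_ge (hn : 0 < n) (i : Fin n) {t : ℝ} (ht : 0 ≤ t) :
    Real.exp (-(2 * t)) ≤
      ip n β g (fun x => spin (x i)) (evolve n β g t fun x => spin (x i)) := by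
  set e : (Fin n → Bool) → ℝ := fun x => spin (x i) with he
  have hee : ip n β g e e = 1 := by
    simp only [ip, he, mul_assoc, spin_mul_spin, mul_one, sum_gibbs]
  have hd : dirichlet n β g e ≤ 1 := by
    obtain ⟨-, hd⟩ := gibbsVar_spin (β := β) (g := g) i
    have : linStat (Pi.single i 1) = e := funext fun x => by simp [linStat, he, Pi.single_apply]
    rwa [this] at hd
  have small : ∀ s, 0 ≤ s → 1 - s ≤ ip n β g e (evolve n β g s e) := fun s hs => by
    have := kernel_ip_le (β := β) (g := g) hn hs e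
    rw [hee] at this
    have := mul_le_mul_of_nonneg_left hd hs
    simp only [evolve]
    linarith
  have sqstep : ∀ s, ip n β g e (evolve n β g s e) ^ 2 ≤
      ip n β g e (evolve n β g (s + s) e) := fun s => by
    have hk : kernel n β g (s + s) = kernel n β g s * kernel n β g s := by
      simp only [kernel, add_smul]
      exact Matrix.exp_add_of_commute _ _ (Commute.refl _)
    have e1 : ip n β g e (evolve n β g (s + s) e) =
        ip n β g (evolve n β g s e) (evolve n β g s e) := by
      simp only [evolve, hk, ← Matrix.mulVec_mulVec]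
      exact kernel_symm hn s e _
    rw [e1]
    have h := ip_self_nonneg (β := β) (g := g)
      (evolve n β g s e - (ip n β g e (evolve n β g s e)) • e)
    rw [ip_sub_self] at h
    set c := ip n β g e (evolve n β g s e)
    have e2 : ip n β g (evolve n β g s e) (c • e) = c * c := by
      rw [ip_comm]
      simp only [c, ip, Pi.smul_apply, smul_eq_mul, Finset.mul_sum]
      exact Finset.sum_congr rfl fun x _ => by ring
    have e3 : ip n β g (c • e) (c • e) = c * c * ip n β g e e := by
      simp only [ip, Pi.smul_apply, smul_eq_mul, Finset.mul_sum]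
      exact Finset.sum_congr rfl fun x _ => by ring
    rw [e2, e3, hee] at h
    linarith [sq c]
  have pow2 : ∀ k : ℕ, ∀ s, 0 ≤ s → s ≤ 1 / 2 →
      Real.exp (-(2 * (2 ^ k * s))) ≤ ip n β g e (evolve n β g (2 ^ k * s) e) := by
    intro k
    induction k with
    | zero =>
      intro s hs hs2
      rw [pow_zero, one_mul]
      refine le_trans ?_ (small s hs)
      rw [Real.exp_neg, inv_le_iff_one_le_mul₀ (Real.exp_pos _)]
      nlinarith [mul_le_mul_of_nonneg_left (Real.add_one_le_exp (2 * s))
        (by linarith : (0 : ℝ) ≤ 1 - s), mul_nonneg hs (by linarith : (0 : ℝ) ≤ 1 - 2 * s)]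
    | succ k ih =>
      intro s hs hs2
      rw [pow_succ, show (2 : ℝ) ^ k * 2 * s = 2 ^ k * s + 2 ^ k * s by ring]
      refine le_trans ?_ (sqstep _)
      refine le_trans (le_of_eq ?_) (pow_le_pow_left₀ (Real.exp_pos _).le (ih s hs hs2) 2)
      rw [← Real.exp_nat_mul]
      push_cast
      ring_nf
  obtain ⟨k, hk⟩ := pow_unbounded_of_one_lt (2 * t) (one_lt_two : (1 : ℝ) < 2)
  have hk0 : (0 : ℝ) < 2 ^ k := by positivity
  have := pow2 k (t / 2 ^ k) (by positivity) (by rw [div_le_iff₀ hk0]; linarith)
  rwa [mul_div_cancel₀ _ hk0.ne'] at this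

theorem exists_start (hn : 0 < n) {t : ℝ} (ht : 0 ≤ t) :
    ∃ x : Fin n → Bool, n * Real.exp (-(2 * t)) ≤
      evolve n β g t (linStat fun i => spin (x i)) x := by
  by_contra hcon
  push Not at hcon
  have hlin : ∀ x, evolve n β g t (linStat fun i => spin (x i)) x =
      ∑ i, spin (x i) * evolve n β g t (fun y => spin (y i)) x := fun x => by
    simp only [evolve, Matrix.mulVec, dotProduct, linStat, Finset.mul_sum]
    rw [Finset.sum_comm]
    exact Finset.sum_congr rfl fun i _ => Finset.sum_congr rfl fun y _ => by ring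
  have h1 : ∑ x, gibbs n β g x * evolve n β g t (linStat fun i => spin (x i)) x <
      n * Real.exp (-(2 * t)) := by
    calc ∑ x, gibbs n β g x * evolve n β g t (linStat fun i => spin (x i)) x
        < ∑ x, gibbs n β g x * (n * Real.exp (-(2 * t))) :=
          Finset.sum_lt_sum_of_nonempty Finset.univ_nonempty fun x _ =>
            mul_lt_mul_of_pos_left (hcon x) (gibbs_pos n β g x)
      _ = _ := by rw [← Finset.sum_mul, sum_gibbs, one_mul]
  have h2 : (n : ℝ) * Real.exp (-(2 * t)) ≤
      ∑ x, gibbs n β g x * evolve n β g t (linStat fun i => spin (x i)) x := by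
    simp only [hlin, Finset.mul_sum]
    rw [Finset.sum_comm]
    calc (n : ℝ) * Real.exp (-(2 * t)) = ∑ _i : Fin n, Real.exp (-(2 * t)) := by simp
      _ ≤ _ := Finset.sum_le_sum fun i _ => (autocorr_ge hn i ht).trans
          (le_of_eq (Finset.sum_congr rfl fun x _ => by ring))
  linarith

theorem chebyshev_event {X : Type*} [Fintype X] (w f : X → ℝ) (hw : ∀ x, 0 ≤ w x)
    {m d V : ℝ} (hd : 0 < d) (hV : ∑ x, w x * (f x - m) ^ 2 ≤ V) (A : Finset X)
    (hA : ∀ x ∈ A, d ≤ |f x - m|) : ∑ x ∈ A, w x ≤ V / d ^ 2 := by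
  rw [le_div_iff₀ (by positivity), Finset.sum_mul]
  refine le_trans ((Finset.sum_le_sum fun x hx => mul_le_mul_of_nonneg_left
    ?_ (hw x)).trans (Finset.sum_le_univ_sum_of_nonneg fun x => mul_nonneg (hw x) (sq_nonneg _))) hV
  rw [← sq_abs (f x - m)]
  exact pow_le_pow_left₀ hd.le (hA x hx) 2

/-- Some start is far from equilibrium as long as `t e^(O(t))` is small against `n`. -/
theorem tv_large (hn : 0 < n) {M : ℝ} (hM0 : 0 ≤ M)
    (hM : ∀ f x, 2 * ∑ j, grad j f x * grad j (lap (skMat n β g) 0 f) x ≤
      lap (skMat n β g) 0 (gradSq f) x + M * gradSq f x)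
    {t : ℝ} (ht : 0 ≤ t) (hsmall : 64 * (t * Real.exp (M * t) * Real.exp (4 * t)) < n) :
    ∃ x, 1 / 4 < tvDist n β g t x := by
  classical
  obtain ⟨x, hx⟩ := exists_start (β := β) (g := g) hn ht
  refine ⟨x, ?_⟩
  set v : Fin n → ℝ := fun i => spin (x i) with hv
  set f := linStat v with hf
  set m := evolve n β g t f x with hm
  have hn' : (0 : ℝ) < n := by exact_mod_cast hn
  have hm0 : 0 < m := lt_of_lt_of_le (by positivity) hx
  have hgrad : ∀ y, gradSq f y ≤ 4 * n := fun y => by
    refine le_of_eq ?_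
    have : ∀ j, grad j f y = 2 * v j := fun j => by
      rw [grad, hf, linStat, linStat, ← Finset.sum_sub_distrib, Finset.sum_eq_single j]
      · simp [spin]; ring
      · intro k _ hk; simp [hk]
      · simp
    simp only [gradSq, this, mul_pow, hv, spin_sq, mul_one, Finset.sum_const, Finset.card_univ,
      Fintype.card_fin, nsmul_eq_mul]
    ring
  have hV1 : ∑ y, kernel n β g t x y * (f y - m) ^ 2 ≤ t * (Real.exp (M * t) * (4 * n)) := by
    refine le_trans (le_of_eq ?_) (var_evolve_le hn hM0 hM f hgrad ht x)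
    simp only [hm, evolve, Matrix.mulVec, dotProduct]
    have := sum_kernel (β := β) (g := g) hn t x
    generalize hS : ∑ y, kernel n β g t x y * f y = S
    calc ∑ y, kernel n β g t x y * (f y - S) ^ 2
        = ∑ y, kernel n β g t x y * f y ^ 2 - 2 * S * (∑ y, kernel n β g t x y * f y) +
          S ^ 2 * ∑ y, kernel n β g t x y := by
          simp only [Finset.mul_sum, ← Finset.sum_sub_distrib, ← Finset.sum_add_distrib]
          exact Finset.sum_congr rfl fun y _ => by ring
      _ = _ := by rw [this, hS]; ring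
  set A := Finset.univ.filter fun y => m / 2 ≤ f y with hA
  have p1 := chebyshev_event (fun y => kernel n β g t x y) f (kernel_nonneg hn ht x)
    (by linarith : 0 < m / 2) hV1 Aᶜ fun y hy => by
      simp only [hA, Finset.compl_filter, Finset.mem_filter, Finset.mem_univ, true_and, not_le] at hy
      rw [abs_sub_comm, abs_of_pos (by linarith)]
      linarith
  have p2 : ∑ y ∈ A, gibbs n β g y ≤ 1 / 2 := by
    have hinv : Function.Involutive fun (y : Fin n → Bool) j => !y j := fun y => by simp
    have hodd : ∀ y : Fin n → Bool, f (fun j => !y j) = -f y := fun y => by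
      simp [hf, linStat, spin_not, Finset.sum_neg_distrib]
    have hg : ∀ y : Fin n → Bool, gibbs n β g (fun j => !y j) = gibbs n β g y := fun y => by
      simp [gibbs, energy, spin_not]
    set B := Finset.univ.filter fun y => f y ≤ -(m / 2) with hB
    have e : ∑ y ∈ A, gibbs n β g y = ∑ y ∈ B, gibbs n β g y :=
      Finset.sum_bij' (fun y _ j => !y j) (fun y _ j => !y j)
        (fun y hy => by
          simp only [hA, hB, Finset.mem_filter, Finset.mem_univ, true_and, hodd] at hy ⊢
          linarith)
        (fun y hy => by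
          simp only [hA, hB, Finset.mem_filter, Finset.mem_univ, true_and, hodd] at hy ⊢
          linarith)
        (fun y _ => hinv y) (fun y _ => hinv y) (fun y _ => (hg y).symm)
    have hd : Disjoint A B := Finset.disjoint_left.2 fun y hy hy' => by
      simp only [hA, hB, Finset.mem_filter, Finset.mem_univ, true_and] at hy hy'
      linarith
    have h2 : ∑ y ∈ A ∪ B, gibbs n β g y ≤ 1 := by
      rw [← sum_gibbs n β g]
      exact Finset.sum_le_univ_sum_of_nonneg fun y => (gibbs_pos n β g y).le
    rw [Finset.sum_union hd, ← e] at h2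
    linarith
  have hk1 := Finset.sum_add_sum_compl A fun y => kernel n β g t x y
  have hg1 := Finset.sum_add_sum_compl A fun y => gibbs n β g y
  rw [sum_kernel hn] at hk1
  rw [sum_gibbs] at hg1
  have hA1 : ∑ y ∈ A, (kernel n β g t x y - gibbs n β g y) ≤
      ∑ y ∈ A, |kernel n β g t x y - gibbs n β g y| := Finset.sum_le_sum fun y _ => le_abs_self _
  have hA2 : ∑ y ∈ Aᶜ, (gibbs n β g y - kernel n β g t x y) ≤
      ∑ y ∈ Aᶜ, |kernel n β g t x y - gibbs n β g y| :=
    Finset.sum_le_sum fun y _ => by rw [abs_sub_comm]; exact le_abs_self _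
  have hsum := Finset.sum_add_sum_compl A fun y => |kernel n β g t x y - gibbs n β g y|
  simp only [Finset.sum_sub_distrib] at hA1 hA2
  have hq : t * (Real.exp (M * t) * (4 * n)) / (m / 2) ^ 2 < 1 / 4 := by
    rw [div_lt_iff₀ (by positivity)]
    have hm2 : (n * Real.exp (-(2 * t))) ^ 2 ≤ m ^ 2 := pow_le_pow_left₀ (by positivity) hx 2
    have he : Real.exp (4 * t) * Real.exp (-(2 * t)) ^ 2 = 1 := by
      rw [← Real.exp_nat_mul, ← Real.exp_add, ← Real.exp_zero]
      congr 1; push_cast; ring
    have hmul := mul_lt_mul_of_pos_left hsmall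
      (show 0 < (n : ℝ) * Real.exp (-(2 * t)) ^ 2 by positivity)
    have e : (n : ℝ) * Real.exp (-(2 * t)) ^ 2 *
        (64 * (t * Real.exp (M * t) * Real.exp (4 * t))) =
        16 * (t * (Real.exp (M * t) * (4 * n))) := by
      linear_combination (64 * (n : ℝ) * (t * Real.exp (M * t))) * he
    rw [e] at hmul
    linarith
  rw [tvDist]
  linarith

/-- `tv_large` on an interval of length a multiple of `log n`. -/
theorem tv_large_log (hn : 0 < n) {M : ℝ} (hM0 : 0 ≤ M)
    (hM : ∀ f x, 2 * ∑ j, grad j f x * grad j (lap (skMat n β g) 0 f) x ≤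
      lap (skMat n β g) 0 (gradSq f) x + M * gradSq f x)
    (hbig : 4096 < n) {t : ℝ}
    (ht : 0 ≤ t) (ht' : t ≤ 1 / (2 * (M + 5)) * Real.log n) : ∃ x, 1 / 4 < tvDist n β g t x := by
  refine tv_large hn hM0 hM ht ?_
  have hn' : (0 : ℝ) < n := by exact_mod_cast hn
  have hpos : 0 < 2 * (M + 5) := by linarith
  rw [div_mul_eq_mul_div, one_mul, le_div_iff₀ hpos] at ht'
  have hexp : Real.exp ((M + 5) * t) ≤ √(n : ℝ) := by
    rw [Real.sqrt_eq_rpow, Real.rpow_def_of_pos hn']
    exact Real.exp_le_exp.2 (by linarith)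
  have h1 : t ≤ Real.exp t := by linarith [Real.add_one_le_exp t]
  have hlt : 64 < √(n : ℝ) := by
    rw [Real.lt_sqrt (by norm_num)]
    have : (4096 : ℝ) < n := by exact_mod_cast hbig
    linarith
  calc 64 * (t * Real.exp (M * t) * Real.exp (4 * t))
      ≤ 64 * (Real.exp t * Real.exp (M * t) * Real.exp (4 * t)) := by gcongr
    _ = 64 * Real.exp ((M + 5) * t) := by
        rw [← Real.exp_add, ← Real.exp_add]; congr 1; ring_nf
    _ ≤ 64 * √(n : ℝ) := by gcongr
    _ < √(n : ℝ) * √(n : ℝ) := mul_lt_mul_of_pos_right hlt (Real.sqrt_pos.2 hn')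
    _ = n := Real.mul_self_sqrt hn'.le

end semigroup

end Vale.Agent.P150.Fast
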