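import Vale.Agent.P150.Fast.Assembly
import Vale.Agent.P150.Fast.Coupling
import Vale.Agent.P150.Fast.LowerTime

/-!
# P150 fast side: the high probability event carries both signs of the couplings
-/

open Finset MeasureTheory ProbabilityTheory

namespace Vale.Agent.P150.Fast

theorem measurePreserving_neg_disorder (n : ℕ) :
    MeasurePreserving (fun g : Edge n → ℝ => -g) (disorder n) (disorder n) := by
  have h : MeasurePreserving (fun y : ℝ => -y) (gaussianReal 0 1) (gaussianReal 0 1) :=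
    ⟨measurable_neg, by rw [gaussianReal_map_neg, neg_zero]⟩
  exact measurePreserving_pi (fun _ : Edge n => gaussianReal 0 1) (fun _ : Edge n => gaussianReal 0 1)
    (f := fun _ y => -y) fun _ => h

theorem skMat_neg (n : ℕ) (β : ℝ) (g : Edge n → ℝ) (i j : Fin n) :
    skMat n β (-g) i j = -skMat n β g i j := by
  unfold skMat
  split_ifs <;> simp

theorem eff_neg (t : ℝ) : eff (-t) = -eff t := by
  simp [eff, Real.sinh_neg, Real.cosh_neg]

/-- Two events of probability at least `1 - η/2` meet with probability at least `1 - η`. -/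
theorem ofReal_le_inter {Ω : Type*} [MeasurableSpace Ω] (μ : Measure Ω) [IsProbabilityMeasure μ]
    {A B A' B' : Set Ω} (hA : MeasurableSet A) (hB : MeasurableSet B) (hAA : A ⊆ A') (hBB : B ⊆ B')
    {η : ℝ} (a : ENNReal.ofReal (1 - η / 2) ≤ μ A) (b : ENNReal.ofReal (1 - η / 2) ≤ μ B) :
    ENNReal.ofReal (1 - η) ≤ μ (A' ∩ B') := by
  refine le_trans ?_ (measure_mono (Set.inter_subset_inter hAA hBB))
  rw [← ofReal_measureReal] at a b ⊢
  rw [ENNReal.ofReal_le_ofReal_iff measureReal_nonneg] at a b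
  refine ENNReal.ofReal_le_ofReal ?_
  have := measureReal_union_add_inter (μ := μ) (s := A) hB
  have := measureReal_le_one (μ := μ) (s := A ∪ B)
  linarith

/-- With high probability both `J` and `-J` satisfy the coupling bounds. -/
theorem two_sided_event (n : ℕ) {β ε η K : ℝ}
    (h1 : ENNReal.ofReal (1 - η / 2) ≤ disorder n {g |
      (∀ i j, |skMat n β g i j| ≤ ε) ∧
      (∀ i, ∑ j, skMat n β g i j ^ 2 ≤ β ^ 2 + ε) ∧
      (∀ v : Fin n → ℝ, ∑ i, ∑ j, eff (skMat n β g i j) * v i * v j ≤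
        (2 * β + ε) * ∑ i, v i ^ 2) ∧
      ∀ (S : Finset (Fin n)), S.Nonempty →
        (∀ v : Fin n → ℝ, ∑ i ∈ S, ∑ j ∈ S, eff (skMat n β g i j) * v i * v j ≤
          K * √(√((S.card : ℝ) / n)) * ∑ i ∈ S, v i ^ 2) ∧
        ∀ i ∈ S, ∑ j ∈ S, skMat n β g i j ^ 2 ≤ K * √(√((S.card : ℝ) / n))}) :
    ENNReal.ofReal (1 - η) ≤ disorder n {g |
      (∀ i j, |skMat n β g i j| ≤ ε) ∧
      (∀ i, ∑ j, skMat n β g i j ^ 2 ≤ β ^ 2 + ε) ∧
      (∀ v : Fin n → ℝ, |∑ i, ∑ j, eff (skMat n β g i j) * v i * v j| ≤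
        (2 * β + ε) * ∑ i, v i ^ 2) ∧
      ∀ (S : Finset (Fin n)), S.Nonempty →
        (∀ v : Fin n → ℝ, ∑ i ∈ S, ∑ j ∈ S, eff (skMat n β g i j) * v i * v j ≤
          K * √(√((S.card : ℝ) / n)) * ∑ i ∈ S, v i ^ 2) ∧
        ∀ i ∈ S, ∑ j ∈ S, skMat n β g i j ^ 2 ≤ K * √(√((S.card : ℝ) / n))} := by
  have : IsProbabilityMeasure (disorder n) := by unfold disorder; infer_instance
  set A' : Set (Edge n → ℝ) := {g |
      (∀ i j, |skMat n β g i j| ≤ ε) ∧
      (∀ i, ∑ j, skMat n β g i j ^ 2 ≤ β ^ 2 + ε) ∧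
      (∀ v : Fin n → ℝ, ∑ i, ∑ j, eff (skMat n β g i j) * v i * v j ≤
        (2 * β + ε) * ∑ i, v i ^ 2) ∧
      ∀ (S : Finset (Fin n)), S.Nonempty →
        (∀ v : Fin n → ℝ, ∑ i ∈ S, ∑ j ∈ S, eff (skMat n β g i j) * v i * v j ≤
          K * √(√((S.card : ℝ) / n)) * ∑ i ∈ S, v i ^ 2) ∧
        ∀ i ∈ S, ∑ j ∈ S, skMat n β g i j ^ 2 ≤ K * √(√((S.card : ℝ) / n))}
  have hA : MeasurableSet A' := by
    have hc : ∀ i j, Continuous fun g : Edge n → ℝ => skMat n β g i j := fun i j => by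
      unfold skMat; split_ifs <;> fun_prop
    have he : Continuous eff := by
      unfold eff; fun_prop
    refine IsClosed.measurableSet ?_
    simp only [A', Set.setOf_and, Set.setOf_forall]
    refine ((isClosed_iInter fun i => isClosed_iInter fun j => isClosed_le (hc i j).abs continuous_const).inter
      ((isClosed_iInter fun i => isClosed_le ?_ continuous_const).inter
      ((isClosed_iInter fun v => isClosed_le ?_ continuous_const).inter
      (isClosed_iInter fun S => isClosed_iInter fun _ => (isClosed_iInter fun v =>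
        isClosed_le ?_ continuous_const).inter
        (isClosed_iInter fun i => isClosed_iInter fun _ => isClosed_le ?_ continuous_const)))))
    · exact continuous_finset_sum _ fun j _ => (hc i j).pow 2
    · exact continuous_finset_sum _ fun i _ => continuous_finset_sum _ fun j _ =>
        ((he.comp (hc i j)).mul continuous_const).mul continuous_const
    · exact continuous_finset_sum _ fun i _ => continuous_finset_sum _ fun j _ =>
        ((he.comp (hc i j)).mul continuous_const).mul continuous_const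
    · exact continuous_finset_sum _ fun j _ => (hc i j).pow 2
  have h2 : ENNReal.ofReal (1 - η / 2) ≤ disorder n ((fun g => -g) ⁻¹' A') := by
    rw [(measurePreserving_neg_disorder n).measure_preimage hA.nullMeasurableSet]; exact h1
  refine (ofReal_le_inter (disorder n) hA
    ((measurePreserving_neg_disorder n).measurable hA) subset_rfl subset_rfl h1 h2).trans
    (measure_mono fun g hg => ?_)
  obtain ⟨⟨hτ, hρ, hL, hS⟩, -, -, hL', -⟩ := hg
  refine ⟨hτ, hρ, fun v => abs_le.2 ⟨?_, hL v⟩, hS⟩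
  have b' := hL' v
  simp only [skMat_neg, eff_neg, neg_mul, Finset.sum_neg_distrib] at b'
  linarith

/-- The pointwise gradient drift on the good event. -/
theorem drift_of_event {n : ℕ} {β ε : ℝ} {g : Edge n → ℝ} (hβ : 0 ≤ β) (hε1 : ε ≤ 1 / 20)
    (hε : 0 ≤ ε) (hτ : ∀ i j, |skMat n β g i j| ≤ ε)
    (hρ : ∀ i, ∑ j, skMat n β g i j ^ 2 ≤ β ^ 2 + ε)
    (hL : ∀ v : Fin n → ℝ, |∑ i, ∑ j, eff (skMat n β g i j) * v i * v j| ≤
      (2 * β + ε) * ∑ i, v i ^ 2) (f : (Fin n → Bool) → ℝ) (x : Fin n → Bool) :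
    2 * ∑ j, grad j f x * grad j (lap (skMat n β g) 0 f) x ≤
      lap (skMat n β g) 0 (gradSq f) x + (2 * (2 * β + 1) + 200 * (β ^ 2 + 1)) * gradSq f x := by
  refine (gradSq_drift 0 (isCoupling_skMat n β g) (fun i j => (hτ i j).trans hε1) hL hρ
    (by linarith) f x).trans ?_
  have := mul_le_mul_of_nonneg_right
    (show 2 * (2 * β + ε) + 200 * (β ^ 2 + ε) ≤ 2 * (2 * β + 1) + 200 * (β ^ 2 + 1) by linarith)
    (gradSq_nonneg f x)
  linarith

theorem gap_le_one {n : ℕ} (hn : 0 < n) (β : ℝ) (g : Edge n → ℝ) : gap n β g ≤ 1 :=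
  (gap_bounds hn (c := 0) fun h f => by
    rw [zero_mul]; exact Finset.sum_nonneg fun i _ => site_nonneg h i f).2

/-- At every temperature the inverse gap is at least one and mixing takes at least `log n`. -/
theorem lower_all {β : ℝ} (hβ0 : 0 ≤ β) :
    ∃ a : ℝ, 0 < a ∧ ∀ η : ℝ, 0 < η → ∃ n₀ : ℕ, ∀ n ≥ n₀,
      ENNReal.ofReal (1 - η) ≤ disorder n {g | gap n β g ≤ 1 ∧
        ∀ t ∈ Set.Icc 0 (a * Real.log n), ∃ x, 1 / 4 < tvDist n β g t x} := by
  obtain ⟨K, -, hbd⟩ := couplingBounds β hβ0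
  refine ⟨1 / (2 * (2 * (2 * β + 1) + 200 * (β ^ 2 + 1) + 5)), by positivity, fun η hη => ?_⟩
  obtain ⟨n₁, hn₁⟩ := hbd (1 / 20) (by norm_num) (η / 2) (by linarith)
  refine ⟨max n₁ 4097, fun n hn => (two_sided_event n (hn₁ n (by omega))).trans
    (measure_mono fun g hg => ⟨gap_le_one (by omega) β g, fun t ht => ?_⟩)⟩
  exact tv_large_log (by omega) (by positivity)
    (drift_of_event hβ0 le_rfl (by norm_num) hg.1 hg.2.1 hg.2.2.1) (by omega) ht.1 ht.2

/-- The exact orders below one half. -/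
theorem order_of_entropy (hE : EntropyFromCov) {β : ℝ} (hβ0 : 0 ≤ β) (hβ : β < 1 / 2) :
    ∃ a : ℝ, 0 < a ∧ ∃ C : ℝ, 0 < C ∧ ∀ η : ℝ, 0 < η → ∃ n₀ : ℕ, ∀ n ≥ n₀,
      ENNReal.ofReal (1 - η) ≤ disorder n {g | (1 - 2 * β) / 8 ≤ gap n β g ∧ gap n β g ≤ 1 ∧
        (∀ t ∈ Set.Icc 0 (a * Real.log n), ∃ x, 1 / 4 < tvDist n β g t x) ∧
        ∀ t, C * Real.log n ≤ t → ∀ x, tvDist n β g t x ≤ 1 / 4} := by
  obtain ⟨K, hK, hbd⟩ := couplingBounds β hβ0
  set c := (1 - 2 * β) / 8 with hcdef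
  have hc : 0 < c := by rw [hcdef]; linarith
  refine ⟨1 / (2 * (2 * (2 * β + 1) + 200 * (β ^ 2 + 1) + 5)), by positivity,
    3 * Real.exp (256 * K / c), by positivity, fun η hη => ?_⟩
  set ε := (1 - 2 * β) / 800 with hεdef
  have hε : 0 < ε := by rw [hεdef]; linarith
  obtain ⟨n₁, hn₁⟩ := hbd ε hε (η / 2) (by linarith)
  obtain ⟨n₃, hn₃⟩ := exists_nat_ge ((16 * K) ^ 4 * (2 / c + 1))
  refine ⟨max (max n₁ n₃) 4097, fun n hn => (two_sided_event n (hn₁ n (by omega))).trans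
    (measure_mono fun g hg => ?_)⟩
  obtain ⟨hτ, hρ, hL, hS⟩ := hg
  obtain ⟨hP, hAll⟩ := allCovBound_of_bounds (isCoupling_skMat n β g) hc hε (by linarith) hK
    (param_bound hβ0 hβ) hτ hρ (fun v => (abs_le.1 (hL v)).2) hS
  obtain ⟨g1, g2⟩ := gap_bounds (by omega) hP
  exact ⟨g1, g2,
    fun t ht => tv_large_log (by omega) (by positivity)
      (drift_of_event hβ0 (by linarith) hε.le hτ hρ hL) (by omega) ht.1 ht.2,
    fun t ht x => tv_small hE hc (by linarith) hε.le (by linarith) hK (by omega)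
      (hn₃.trans (by exact_mod_cast (show n₃ ≤ n by omega))) hτ hAll ht x⟩

/-- The gap below one half together with the lower bound at every temperature. -/
theorem gap_and_lower :
    (∀ β : ℝ, 0 ≤ β → β < 1 / 2 → ∀ η : ℝ, 0 < η → ∃ n₀ : ℕ, ∀ n ≥ n₀,
      ENNReal.ofReal (1 - η) ≤
        disorder n {g | (1 - 2 * β) / 8 ≤ gap n β g ∧ gap n β g ≤ 1}) ∧
    ∀ β : ℝ, 0 ≤ β → ∃ a : ℝ, 0 < a ∧ ∀ η : ℝ, 0 < η → ∃ n₀ : ℕ, ∀ n ≥ n₀,
      ENNReal.ofReal (1 - η) ≤ disorder n {g | gap n β g ≤ 1 ∧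
        ∀ t ∈ Set.Icc 0 (a * Real.log n), ∃ x, 1 / 4 < tvDist n β g t x} :=
  ⟨fun _ h0 h => gap_of_parts couplingBounds h0 h, fun _ h0 => lower_all h0⟩

end Vale.Agent.P150.Fast
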