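import Vale.Agent.P150.Fast.Criterion
import Vale.Agent.P150.Glauber

/-!
# P150 fast side: the SK dynamics as a finite Ising model
-/

open Finset MeasureTheory

namespace Vale.Agent.P150.Fast

variable {n : ℕ} {β : ℝ} {g : Edge n → ℝ}

theorem isCoupling_skMat (n : ℕ) (β : ℝ) (g : Edge n → ℝ) : IsCoupling (skMat n β g) := by
  refine ⟨fun i j => ?_, fun i => by simp [skMat]⟩
  rcases lt_trichotomy i j with h | h | h
  · simp [skMat, h, h.not_gt]
  · simp [h]
  · simp [skMat, h, h.not_gt]

theorem skMat_edge (e : Edge n) : skMat n β g e.1.1 e.1.2 = β / √(n : ℝ) * g e := by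
  simp [skMat, e.2]

theorem ham_skMat (x : Fin n → Bool) : ham (skMat n β g) 0 x = β * energy n g x := by
  have h := sum_edge (fun i j => skMat n β g i j * spin (x i) * spin (x j)) fun i j => by
    rw [(isCoupling_skMat n β g).1 i j]; ring
  simp only [(isCoupling_skMat n β g).2, zero_mul, Finset.sum_const_zero, sub_zero] at h
  simp only [ham, Pi.zero_apply, zero_mul, Finset.sum_const_zero, zero_add, ← h, skMat_edge, energy,
    Finset.mul_sum, Finset.sum_div]
  exact Finset.sum_congr rfl fun e _ => by ring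

theorem weight_skMat (x : Fin n → Bool) : weight (skMat n β g) 0 x = gibbs n β g x := by
  simp only [weight, gibbs, ham_skMat]

theorem condMat_skMat (i : Fin n) (f : (Fin n → Bool) → ℝ) (x : Fin n → Bool) :
    (condMat n β g i).mulVec f x = cond (skMat n β g) 0 i f x := by
  have hJ := isCoupling_skMat n β g
  have hne : gibbs n β g (Function.update x i true) + gibbs n β g (Function.update x i false) ≠ 0 :=
    (add_pos (gibbs_pos n β g _) (gibbs_pos n β g _)).ne'
  have w1 := weight_update_mul 0 hJ i x true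
  have w0 := weight_update_mul 0 hJ i x false
  simp only [weight_skMat, spin_true, spin_false] at w1 w0
  rw [condMat_mulVec, cond, div_eq_iff hne]
  linear_combination (-f (Function.update x i true)) * w1 + (-f (Function.update x i false)) * w0

theorem generator_skMat (f : (Fin n → Bool) → ℝ) (x : Fin n → Bool) :
    (generator n β g).mulVec f x = lap (skMat n β g) 0 f x := by
  simp only [generator, Matrix.sum_mulVec, Matrix.sub_mulVec, Matrix.one_mulVec, Finset.sum_apply,
    Pi.sub_apply, condMat_skMat, lap]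

theorem lapMat_skMat : lapMat (skMat n β g) 0 = generator n β g := by
  ext x y
  rw [lapMat, Matrix.of_apply, ← generator_skMat]
  simp [Matrix.mulVec, dotProduct, Pi.single_apply]

theorem tvDist_skMat (t : ℝ) (x : Fin n → Bool) :
    tvDist n β g t x =
      (∑ y, |NormedSpace.exp (t • lapMat (skMat n β g) 0) x y - weight (skMat n β g) 0 y|) / 2 := by
  simp only [tvDist, kernel, lapMat_skMat, weight_skMat]

theorem gibbsVar_skMat (f : (Fin n → Bool) → ℝ) :
    gibbsVar n β g f = var (skMat n β g) 0 f := by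
  simp only [gibbsVar, var_eq, mean, weight_skMat]

theorem dirichlet_skMat (f : (Fin n → Bool) → ℝ) :
    dirichlet n β g f = ∑ i, site (skMat n β g) 0 i f := by
  simp only [site_eq_mean_mul_dev 0 (isCoupling_skMat n β g), ← mean_sum]
  simp only [dirichlet, mean, weight_skMat, generator_skMat, lap_eq, ← Finset.sum_neg_distrib,
    Finset.mul_sum]
  exact Finset.sum_congr rfl fun x _ => Finset.sum_congr rfl fun i _ => by ring

theorem gibbsVar_spin (i : Fin n) :
    gibbsVar n β g (linStat (Pi.single i 1)) = 1 ∧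
      dirichlet n β g (linStat (Pi.single i 1)) ≤ 1 := by
  have e : ∀ x : Fin n → Bool, linStat (Pi.single i 1) x = spin (x i) := fun x => by
    simp [linStat, Pi.single_apply]
  refine ⟨?_, ?_⟩
  · rw [gibbsVar, mean_linStat]
    simp [e, spin_sq, sum_gibbs]
  · refine (dirichlet_linStat_le _).trans (le_of_eq ?_)
    rw [Finset.sum_eq_single i (fun j _ hj => by simp [hj]) (by simp)]
    simp

/-- A Poincare inequality traps the spectral gap. -/
theorem gap_bounds (hn : 0 < n) {c : ℝ} (hP : Poincare (skMat n β g) c) :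
    c ≤ gap n β g ∧ gap n β g ≤ 1 := by
  obtain ⟨hv, hd⟩ := gibbsVar_spin (β := β) (g := g) (⟨0, hn⟩ : Fin n)
  haveI : Nonempty {f : (Fin n → Bool) → ℝ // 0 < gibbsVar n β g f} :=
    ⟨⟨linStat (Pi.single ⟨0, hn⟩ 1), by rw [hv]; exact one_pos⟩⟩
  have hlow : ∀ f : {f : (Fin n → Bool) → ℝ // 0 < gibbsVar n β g f},
      c ≤ dirichlet n β g f.1 / gibbsVar n β g f.1 := fun f => by
    rw [le_div_iff₀ f.2, gibbsVar_skMat, dirichlet_skMat]
    exact hP 0 f.1
  refine ⟨le_ciInf hlow, (ciInf_le ⟨c, by rintro _ ⟨f, rfl⟩; exact hlow f⟩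
    ⟨linStat (Pi.single ⟨0, hn⟩ 1), by rw [hv]; exact one_pos⟩).trans ?_⟩
  simp only [hv, div_one]
  exact hd

/-- A crude bound on the logarithm of the inverse Gibbs weight. -/
theorem log_inv_weight_le {J : Fin n → Fin n → ℝ} {ε : ℝ} (hε : ∀ i j, |J i j| ≤ ε)
    (x : Fin n → Bool) : Real.log (1 / weight J 0 x) ≤ n * Real.log 2 + ε * (n : ℝ) ^ 2 := by
  have hH : ∀ y : Fin n → Bool, |ham J 0 y| ≤ ε * (n : ℝ) ^ 2 / 2 := fun y => by
    simp only [ham, Pi.zero_apply, zero_mul, Finset.sum_const_zero, zero_add, abs_div, abs_two]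
    gcongr
    calc |∑ i, ∑ j, J i j * spin (y i) * spin (y j)|
        ≤ ∑ i, ∑ j, |J i j * spin (y i) * spin (y j)| :=
          (Finset.abs_sum_le_sum_abs _ _).trans
            (Finset.sum_le_sum fun i _ => Finset.abs_sum_le_sum_abs _ _)
      _ ≤ ∑ _i : Fin n, ∑ _j : Fin n, ε :=
          Finset.sum_le_sum fun i _ => Finset.sum_le_sum fun j _ => by
            rw [abs_mul, abs_mul, abs_spin, abs_spin, mul_one, mul_one]; exact hε i j
      _ = ε * (n : ℝ) ^ 2 := by
          simp only [Finset.sum_const, Finset.card_univ, Fintype.card_fin, nsmul_eq_mul]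
          ring
  have hpos : 0 < ∑ y, Real.exp (ham J 0 y) :=
    Finset.sum_pos (fun _ _ => Real.exp_pos _) univ_nonempty
  rw [weight, one_div_div, Real.log_div hpos.ne' (Real.exp_pos _).ne', Real.log_exp]
  have hZ : ∑ y, Real.exp (ham J 0 y) ≤
      2 ^ n * Real.exp (ε * (n : ℝ) ^ 2 / 2) := by
    calc ∑ y, Real.exp (ham J 0 y) ≤ ∑ _y : Fin n → Bool, Real.exp (ε * (n : ℝ) ^ 2 / 2) :=
          Finset.sum_le_sum fun y _ => Real.exp_le_exp.2 ((le_abs_self _).trans (hH y))
      _ = _ := by simp [Finset.card_univ]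
  have h2 := Real.log_le_log hpos hZ
  rw [Real.log_mul (by positivity) (Real.exp_pos _).ne', Real.log_exp, Real.log_pow] at h2
  linarith [(abs_le.1 (hH x)).1]

end Vale.Agent.P150.Fast
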