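import Mathlib

/-!
# P150 fast side: the two-spin inequality

`θ` is the hyperbolic tangent of the coupling, `t` and `u` those of the two fields, `A₁, A₀` the
differences of the test function along the first spin at the two values of the second, `B₁, B₀`
symmetrically.
-/

namespace Vale.Agent.P150.Fast

/-- The coefficient of `w^2`. -/
def coefC (θ t u : ℝ) : ℝ :=
  4 + 4 * θ * t * u + θ ^ 2 * (4 - 8 * u ^ 2 - 8 * t ^ 2) - 4 * θ ^ 3 * t * u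
    + 8 * θ ^ 4 * t ^ 2 * u ^ 2

/-- The coefficient of `S * T`. -/
def coefA (θ t u : ℝ) : ℝ :=
  -2 + 4 * θ * t * u + θ ^ 2 * (4 - 2 * u ^ 2 - 2 * t ^ 2) - 4 * θ ^ 3 * t * u
    + 2 * θ ^ 4 * t ^ 2 * u ^ 2

/-- The coefficient of `S * w` and of `T * w`. -/
def coefB (θ t u : ℝ) : ℝ :=
  -4 * t * u + θ * (-4 + 4 * u ^ 2 + 4 * t ^ 2) + 4 * θ ^ 2 * t * u
    - 4 * θ ^ 3 * t ^ 2 * u ^ 2

theorem abs_mul_le_of_le {a b c : ℝ} (ha : |a| ≤ 1) (hb : |b| ≤ c) : |b * a| ≤ c := by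
  rw [abs_mul]
  calc |b| * |a| ≤ c * 1 := mul_le_mul hb ha (abs_nonneg _) ((abs_nonneg b).trans hb)
    _ = c := mul_one c

theorem abs_tu_le {t u : ℝ} (ht : |t| ≤ 1) (hu : |u| ≤ 1) : |t * u| ≤ 1 := by
  rw [abs_mul]; exact mul_le_one₀ ht (abs_nonneg _) hu

theorem abs_sq_le {θ : ℝ} (hθ : |θ| ≤ 1 / 20) : |θ ^ 2| ≤ 1 / 400 := by
  rw [abs_pow]
  calc |θ| ^ 2 ≤ (1 / 20) ^ 2 := pow_le_pow_left₀ (abs_nonneg _) hθ 2
    _ = 1 / 400 := by norm_num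

theorem abs_cube_le {θ : ℝ} (hθ : |θ| ≤ 1 / 20) : |θ ^ 3| ≤ 1 / 8000 := by
  rw [abs_pow]
  calc |θ| ^ 3 ≤ (1 / 20) ^ 3 := pow_le_pow_left₀ (abs_nonneg _) hθ 3
    _ = 1 / 8000 := by norm_num

theorem abs_quart_le {θ : ℝ} (hθ : |θ| ≤ 1 / 20) : |θ ^ 4| ≤ 1 / 160000 := by
  rw [abs_pow]
  calc |θ| ^ 4 ≤ (1 / 20) ^ 4 := pow_le_pow_left₀ (abs_nonneg _) hθ 4
    _ = 1 / 160000 := by norm_num

theorem coef_bounds {θ t u : ℝ} (hθ : |θ| ≤ 1 / 20) (ht : |t| ≤ 1) (hu : |u| ≤ 1) :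
    3 ≤ coefC θ t u ∧ |coefA θ t u| ≤ 23 / 10 ∧ |coefB θ t u| ≤ 5 := by
  have htu := abs_tu_le ht hu
  have hqq : |(t * u) ^ 2| ≤ 1 := by rw [abs_pow]; exact pow_le_one₀ (abs_nonneg _) htu
  have ht2 : t ^ 2 ≤ 1 := by rw [← sq_abs]; exact pow_le_one₀ (abs_nonneg _) ht
  have hu2 : u ^ 2 ≤ 1 := by rw [← sq_abs]; exact pow_le_one₀ (abs_nonneg _) hu
  have hm : |t ^ 2 + u ^ 2 - 1| ≤ 1 := abs_le.2 ⟨by nlinarith, by linarith⟩
  have hm' : |(t ^ 2 + u ^ 2) / 2| ≤ 1 := abs_le.2 ⟨by nlinarith, by linarith⟩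
  obtain ⟨x1, x2⟩ := abs_le.1 (abs_mul_le_of_le htu hθ)
  obtain ⟨y1, y2⟩ := abs_le.1 (abs_mul_le_of_le htu (abs_sq_le hθ))
  obtain ⟨z1, z2⟩ := abs_le.1 (abs_mul_le_of_le htu (abs_cube_le hθ))
  obtain ⟨f1, f2⟩ := abs_le.1 (abs_mul_le_of_le hm hθ)
  obtain ⟨g1, g2⟩ := abs_le.1 (abs_mul_le_of_le hm' (abs_sq_le hθ))
  obtain ⟨k1, k2⟩ := abs_le.1 (abs_mul_le_of_le hqq (abs_quart_le hθ))
  obtain ⟨l1, l2⟩ := abs_le.1 (abs_mul_le_of_le hqq (abs_cube_le hθ))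
  obtain ⟨q1, q2⟩ := abs_le.1 (abs_sq_le hθ)
  obtain ⟨r1, r2⟩ := abs_le.1 htu
  refine ⟨?_, abs_le.2 ⟨?_, ?_⟩, abs_le.2 ⟨?_, ?_⟩⟩ <;> simp only [coefC, coefA, coefB] <;>
    linarith only [x1, x2, y1, y2, z1, z2, f1, f2, g1, g2, k1, k2, l1, l2, q1, q2, r1, r2]

/-- The corrected off-diagonal term after clearing denominators. -/
def pairPoly (θ t u S T w : ℝ) : ℝ :=
  coefC θ t u * w ^ 2 + θ ^ 2 * (t * u * coefA θ t u * S * T + t * coefB θ t u * S * w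
    + u * coefB θ t u * T * w)

/-- The lower bound on the main polynomial. -/
theorem pair_poly {θ t u S T w : ℝ} (hθ : |θ| ≤ 1 / 20) (ht : |t| ≤ 1) (hu : |u| ≤ 1) :
    -(6 / 5) * θ ^ 2 * (t ^ 2 * S ^ 2 + u ^ 2 * T ^ 2) ≤ pairPoly θ t u S T w := by
  obtain ⟨hc, ha, hb⟩ := coef_bounds hθ ht hu
  have hθ2 : θ ^ 2 ≤ 1 / 400 := (le_abs_self _).trans (abs_sq_le hθ)
  simp only [pairPoly]
  generalize coefC θ t u = c at hc ⊢
  generalize coefA θ t u = a at ha ⊢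
  generalize coefB θ t u = b at hb ⊢
  have k1 : |a * ((t * S) * (u * T))| ≤ 23 / 20 * ((t * S) ^ 2 + (u * T) ^ 2) := by
    rw [abs_mul, abs_mul]
    have := two_mul_le_add_sq |t * S| |u * T|
    rw [sq_abs, sq_abs] at this
    linarith [mul_le_mul_of_nonneg_right ha (mul_nonneg (abs_nonneg (t * S)) (abs_nonneg (u * T)))]
  have k2 : ∀ y : ℝ, |b * (y * w)| ≤ y ^ 2 / 20 + 125 * w ^ 2 := fun y => by
    rw [abs_mul, abs_mul]
    have := two_mul_le_add_sq |y| (50 * |w|)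
    rw [mul_pow, sq_abs, sq_abs] at this
    linarith [mul_le_mul_of_nonneg_right hb (mul_nonneg (abs_nonneg y) (abs_nonneg w))]
  have k1' := (abs_le.1 k1).1
  have k2' := (abs_le.1 (k2 (t * S))).1
  have k3' := (abs_le.1 (k2 (u * T))).1
  have key : θ ^ 2 * (-(6 / 5) * (t ^ 2 * S ^ 2 + u ^ 2 * T ^ 2) - 250 * w ^ 2) ≤
      θ ^ 2 * (t * u * a * S * T + t * b * S * w + u * b * T * w) := by
    refine mul_le_mul_of_nonneg_left ?_ (sq_nonneg θ)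
    linarith
  linarith [mul_le_mul_of_nonneg_right hc (sq_nonneg w),
    mul_le_mul_of_nonneg_right hθ2 (sq_nonneg w), sq_nonneg w]

/-- Weighted Cauchy-Schwarz for the two values of the neighbour. -/
theorem pair_cauchy {θ t u P Q : ℝ} (hθ : |θ| ≤ 1 / 20) (ht : |t| < 1) (hu : |u| < 1) :
    (1 - u ^ 2) * (t ^ 2 * (P + Q) ^ 2) ≤
      2 * (21 / 20) * ((1 + u) / (1 + θ * t) * (t * P) ^ 2 + (1 - u) / (1 - θ * t) * (t * Q) ^ 2) := by
  have hθt : |θ * t| ≤ 1 / 20 := by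
    rw [abs_mul]
    exact (mul_le_mul hθ ht.le (abs_nonneg _) (by norm_num)).trans_eq (mul_one _)
  obtain ⟨a1, a2⟩ := abs_le.1 hθt
  obtain ⟨b1, b2⟩ := abs_lt.1 hu
  set p := θ * t
  set e₁ := (1 + u) / (1 + p) with he1
  set e₀ := (1 - u) / (1 - p) with he0
  have h1 : 0 < e₁ := div_pos (by linarith) (by linarith)
  have h0 : 0 < e₀ := div_pos (by linarith) (by linarith)
  have hsum : (1 - u ^ 2) * (e₁⁻¹ + e₀⁻¹) ≤ 2 * (21 / 20) := by
    have : (1 - u ^ 2) * (e₁⁻¹ + e₀⁻¹) = 2 - 2 * u * p := by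
      rw [he1, he0, inv_div, inv_div]
      have : 1 + u ≠ 0 := by linarith
      have : 1 - u ≠ 0 := by linarith
      field_simp
      ring
    rw [this]
    nlinarith [mul_le_mul hu.le (abs_le.2 ⟨a1, a2⟩) (abs_nonneg _) zero_le_one,
      neg_abs_le (u * p), abs_mul u p]
  have hcs : (t * P + t * Q) ^ 2 ≤ (e₁⁻¹ + e₀⁻¹) * (e₁ * (t * P) ^ 2 + e₀ * (t * Q) ^ 2) := by
    have := sq_nonneg (e₁ * (t * P) - e₀ * (t * Q))
    have e : (e₁⁻¹ + e₀⁻¹) * (e₁ * (t * P) ^ 2 + e₀ * (t * Q) ^ 2) - (t * P + t * Q) ^ 2 =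
        (e₁ * (t * P) - e₀ * (t * Q)) ^ 2 / (e₁ * e₀) := by
      field_simp
      ring
    have : 0 ≤ (e₁ * (t * P) - e₀ * (t * Q)) ^ 2 / (e₁ * e₀) := by positivity
    linarith
  calc (1 - u ^ 2) * (t ^ 2 * (P + Q) ^ 2) = (1 - u ^ 2) * (t * P + t * Q) ^ 2 := by ring
    _ ≤ (1 - u ^ 2) * ((e₁⁻¹ + e₀⁻¹) * (e₁ * (t * P) ^ 2 + e₀ * (t * Q) ^ 2)) :=
        mul_le_mul_of_nonneg_left hcs (by nlinarith)
    _ ≤ _ := by
        rw [← mul_assoc]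
        exact mul_le_mul_of_nonneg_right hsum (by positivity)

/-- The joint weight of two spins, up to normalisation. -/
noncomputable def pairWeight (θ t u a b : ℝ) : ℝ := (1 + θ * a * b) * (1 + t * a) * (1 + u * b)

/-- The conditional mean of one spin given the value `b` of the other. -/
noncomputable def pairMean (θ t b : ℝ) : ℝ := (t + θ * b) / (1 + θ * t * b)

/-- The integrand of the corrected off-diagonal term. -/
noncomputable def pairCross (θ t u a b A B : ℝ) : ℝ :=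
  pairWeight θ t u a b * ((a * b * (1 - pairMean θ t b * a) * (1 - pairMean θ u a * b) +
    θ / (1 - θ ^ 2) * (1 - pairMean θ t b ^ 2) * (1 - pairMean θ u a ^ 2)) * (A * B)) / 4

/-- The integrand of the error terms. -/
noncomputable def pairErr (θ t u a b A B : ℝ) : ℝ :=
  pairWeight θ t u a b *
    (θ ^ 2 * (7 / 5 * pairMean θ t b ^ 2 + 40 * θ ^ 2) * ((1 - pairMean θ t b ^ 2) * A ^ 2) +
     θ ^ 2 * (7 / 5 * pairMean θ u a ^ 2 + 40 * θ ^ 2) * ((1 - pairMean θ u a ^ 2) * B ^ 2)) / 4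

theorem one_add_ne {θ t b : ℝ} (h : |θ * t| ≤ 1 / 20) (hb : b = 1 ∨ b = -1) :
    1 + θ * t * b ≠ 0 := by
  obtain ⟨a1, a2⟩ := abs_le.1 h
  rcases hb with rfl | rfl <;> intro hh <;> linarith

/-- The numerator of one value of the cross term. -/
def crossNum (θ t u a b : ℝ) : ℝ :=
  a * b * (1 - θ * a * b) * ((1 - (θ * t) ^ 2) * (1 - (θ * u) ^ 2)) +
    θ * (1 + θ * a * b) * (1 + t * a) * (1 + u * b) * (1 - θ * t * b) * (1 - θ * u * a)

theorem pairMean_compl {θ t a b : ℝ} (h : 1 + θ * t * b ≠ 0) :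
    1 - pairMean θ t b * a = (1 + θ * t * b - t * a - θ * a * b) / (1 + θ * t * b) := by
  rw [pairMean, div_mul_eq_mul_div, one_sub_div h]
  congr 1
  ring

theorem pairMean_var {θ t b : ℝ} (h : 1 + θ * t * b ≠ 0) (hb : b = 1 ∨ b = -1) :
    1 - pairMean θ t b ^ 2 = (1 - t ^ 2) * (1 - θ ^ 2) / (1 + θ * t * b) ^ 2 := by
  rw [pairMean, div_pow, one_sub_div (pow_ne_zero 2 h)]
  congr 1
  rcases hb with rfl | rfl <;> ring

theorem cross_shape {w c X Y K L n m s θ P R : ℝ} (hn : n ≠ 0) (hm : m ≠ 0) (_hs : s ≠ 0) :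
    w * ((c * (X / n) * (Y / m) + θ / s * (K * s / n ^ 2) * (L * s / m ^ 2)) *
      (P * n * (R * m))) = (c * (w * (X * Y)) + θ * w * (K * L * s) / (n * m)) * (P * R) := by
  field_simp

theorem pairCross_eq {θ t u a b P R : ℝ} (hs : 1 - θ ^ 2 ≠ 0) (h : |θ * t| ≤ 1 / 20)
    (h' : |θ * u| ≤ 1 / 20) (ha : a = 1 ∨ a = -1) (hb : b = 1 ∨ b = -1) :
    (1 - (θ * t) ^ 2) * (1 - (θ * u) ^ 2) *
        pairCross θ t u a b (P * (1 + θ * t * b)) (R * (1 + θ * u * a)) =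
      (1 - t ^ 2) * (1 - u ^ 2) * (1 - θ ^ 2) / 4 * (crossNum θ t u a b * (P * R)) := by
  have n1 := one_add_ne h hb
  have n2 := one_add_ne h' ha
  have k1 : pairWeight θ t u a b * ((1 + θ * t * b - t * a - θ * a * b) *
      (1 + θ * u * a - u * b - θ * a * b)) =
      (1 - t ^ 2) * (1 - u ^ 2) * (1 - θ ^ 2) * (1 - θ * a * b) := by
    rw [pairWeight]; rcases ha with rfl | rfl <;> rcases hb with rfl | rfl <;> ring
  rw [pairCross, pairMean_compl n1, pairMean_var n1 hb, pairMean_var n2 ha]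
  rw [show 1 - pairMean θ u a * b = (1 + θ * u * a - u * b - θ * a * b) / (1 + θ * u * a) by
    rw [pairMean_compl n2]; ring]
  have e1 : (1 + θ * t * b) * (1 - θ * t * b) = 1 - (θ * t) ^ 2 := by
    rcases hb with rfl | rfl <;> ring
  have e2 : (1 + θ * u * a) * (1 - θ * u * a) = 1 - (θ * u) ^ 2 := by
    rcases ha with rfl | rfl <;> ring
  rw [crossNum, ← e1, ← e2]
  rw [cross_shape n1 n2 hs, k1, pairWeight]
  field_simp

/-- One half of the error integrand. -/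
noncomputable def errTerm (θ t u a b A : ℝ) : ℝ :=
  pairWeight θ t u a b *
    (θ ^ 2 * (7 / 5 * pairMean θ t b ^ 2 + 40 * θ ^ 2) * ((1 - pairMean θ t b ^ 2) * A ^ 2))

theorem pairErr_eq (θ t u a b A B : ℝ) :
    pairErr θ t u a b A B = (errTerm θ t u a b A + errTerm θ u t b a B) / 4 := by
  simp only [pairErr, errTerm, pairWeight]; ring

theorem errSide_eq {θ t u b P : ℝ} (h : |θ * t| ≤ 1 / 20) (hb : b = 1 ∨ b = -1) :
    errTerm θ t u 1 b (P * (1 + θ * t * b)) + errTerm θ t u (-1) b (P * (1 + θ * t * b)) =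
      2 * θ ^ 2 * (1 - θ ^ 2) * (1 - t ^ 2) * ((1 + u * b) / (1 + θ * t * b) *
        ((7 / 5 * (t + θ * b) ^ 2 + 40 * θ ^ 2 * (1 + θ * t * b) ^ 2) * P ^ 2)) := by
  have n1 := one_add_ne h hb
  have e : pairWeight θ t u 1 b + pairWeight θ t u (-1) b =
      2 * (1 + θ * t * b) * (1 + u * b) := by
    simp only [pairWeight]; ring
  rw [errTerm, errTerm, pairMean_var n1 hb, ← add_mul, e, pairMean]
  field_simp

theorem shift_bound {t θ d : ℝ} (hd : 9 / 10 ≤ d) :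
    21 / 20 * t ^ 2 ≤ 7 / 5 * (4 / 5) * (t + θ) ^ 2 + 40 * (4 / 5) * θ ^ 2 * d := by
  nlinarith [sq_nonneg (t + 16 * θ), sq_nonneg θ,
    mul_le_mul_of_nonneg_left hd (sq_nonneg θ)]

theorem half_bound {θ t u P Q : ℝ} (hθ : |θ| ≤ 1 / 20) (ht : |t| < 1) (hu : |u| < 1) :
    (1 - u ^ 2) * (t ^ 2 * (P + Q) ^ 2) ≤ 2 * (4 / 5) *
        ((1 + u) / (1 + θ * t) * ((7 / 5 * (t + θ) ^ 2 + 40 * θ ^ 2 * (1 + θ * t) ^ 2) * P ^ 2) +
          (1 - u) / (1 - θ * t) *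
            ((7 / 5 * (t - θ) ^ 2 + 40 * θ ^ 2 * (1 - θ * t) ^ 2) * Q ^ 2)) := by
  have h : |θ * t| ≤ 1 / 20 := abs_mul_le_of_le ht.le hθ
  obtain ⟨a1, a2⟩ := abs_le.1 h
  obtain ⟨b1, b2⟩ := abs_lt.1 hu
  refine (pair_cauchy (P := P) (Q := Q) hθ ht hu).trans ?_
  have h1 : 0 ≤ (1 + u) / (1 + θ * t) := div_nonneg (by linarith) (by linarith)
  have h0 : 0 ≤ (1 - u) / (1 - θ * t) := div_nonneg (by linarith) (by linarith)
  have d1 : 9 / 10 ≤ (1 + θ * t) ^ 2 := by nlinarith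
  have d0 : 9 / 10 ≤ (1 - θ * t) ^ 2 := by nlinarith
  have f1 := mul_le_mul_of_nonneg_right (shift_bound (t := t) (θ := θ) d1) (sq_nonneg P)
  have f0 := mul_le_mul_of_nonneg_right (shift_bound (t := t) (θ := -θ) d0) (sq_nonneg Q)
  have g1 := mul_le_mul_of_nonneg_left f1 h1
  have g0 := mul_le_mul_of_nonneg_left f0 h0
  rw [neg_sq, ← sub_eq_add_neg] at g0
  linarith

theorem crossSum_eq {θ t u P Q R V : ℝ}
    (hAB : P * (1 + θ * t) - Q * (1 - θ * t) = R * (1 + θ * u) - V * (1 - θ * u)) :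
    crossNum θ t u 1 1 * (P * R) + crossNum θ t u 1 (-1) * (Q * R) +
        crossNum θ t u (-1) 1 * (P * V) + crossNum θ t u (-1) (-1) * (Q * V) =
      pairPoly θ t u (P + Q) (R + V) ((P * (1 + θ * t) - Q * (1 - θ * t)) / 2) := by
  have hR : R = ((P * (1 + θ * t) - Q * (1 - θ * t)) + (R + V) * (1 - θ * u)) / 2 := by linarith
  generalize hT : R + V = T at hR
  rw [show V = T - R by linarith, hR]
  simp only [crossNum, pairPoly, coefA, coefB, coefC]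
  ring

theorem final_step {a b c θ t u S T Y G F : ℝ} (k1 : a * (b * (t * S)) ≤ a * (2 * (4 / 5) * G))
    (k2 : b * (a * (u * T)) ≤ b * (2 * (4 / 5) * F))
    (k3 : a * b * c * (-(6 / 5) * θ * (t * S + u * T)) ≤ a * b * c * Y) (hc : 0 ≤ θ * c) :
    -(12 / 25) * (θ * c * (a * G + b * F)) ≤ a * b * c / 4 * Y := by
  have := mul_le_mul_of_nonneg_left (add_le_add k1 k2) hc
  linarith

/-- The two-spin inequality. -/
theorem pair_ineq {θ t u A₁ A₀ B₁ B₀ : ℝ} (hθ : |θ| ≤ 1 / 20) (ht : |t| < 1) (hu : |u| < 1)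
    (hAB : A₁ - A₀ = B₁ - B₀) :
    0 ≤ (pairCross θ t u 1 1 A₁ B₁ + pairCross θ t u 1 (-1) A₀ B₁ +
          pairCross θ t u (-1) 1 A₁ B₀ + pairCross θ t u (-1) (-1) A₀ B₀) +
        (pairErr θ t u 1 1 A₁ B₁ + pairErr θ t u 1 (-1) A₀ B₁ +
          pairErr θ t u (-1) 1 A₁ B₀ + pairErr θ t u (-1) (-1) A₀ B₀) := by
  have hθt : |θ * t| ≤ 1 / 20 := abs_mul_le_of_le ht.le hθ
  have hθu : |θ * u| ≤ 1 / 20 := abs_mul_le_of_le hu.le hθ
  obtain ⟨a1, a2⟩ := abs_le.1 hθt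
  obtain ⟨b1, b2⟩ := abs_le.1 hθu
  obtain ⟨d1, d2⟩ := abs_lt.1 ht
  obtain ⟨e1, e2⟩ := abs_lt.1 hu
  have hs : 0 < 1 - θ ^ 2 := by linarith [(abs_le.1 (abs_sq_le hθ)).2]
  obtain ⟨P, rfl⟩ : ∃ P, A₁ = P * (1 + θ * t * 1) :=
    ⟨A₁ / (1 + θ * t * 1), by rw [div_mul_cancel₀]; linarith⟩
  obtain ⟨Q, rfl⟩ : ∃ Q, A₀ = Q * (1 + θ * t * (-1)) :=
    ⟨A₀ / (1 + θ * t * (-1)), by rw [div_mul_cancel₀]; linarith⟩
  obtain ⟨R, rfl⟩ : ∃ R, B₁ = R * (1 + θ * u * 1) :=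
    ⟨B₁ / (1 + θ * u * 1), by rw [div_mul_cancel₀]; linarith⟩
  obtain ⟨V, rfl⟩ : ∃ V, B₀ = V * (1 + θ * u * (-1)) :=
    ⟨B₀ / (1 + θ * u * (-1)), by rw [div_mul_cancel₀]; linarith⟩
  have p : (1 : ℝ) = 1 ∨ (1 : ℝ) = -1 := Or.inl rfl
  have q : (-1 : ℝ) = 1 ∨ (-1 : ℝ) = -1 := Or.inr rfl
  have c11 := pairCross_eq (P := P) (R := R) hs.ne' hθt hθu p p
  have c10 := pairCross_eq (P := Q) (R := R) hs.ne' hθt hθu p q
  have c01 := pairCross_eq (P := P) (R := V) hs.ne' hθt hθu q p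
  have c00 := pairCross_eq (P := Q) (R := V) hs.ne' hθt hθu q q
  have r1 := errSide_eq (u := u) (P := P) hθt p
  have r0 := errSide_eq (u := u) (P := Q) hθt q
  have s1 := errSide_eq (u := t) (P := R) hθu p
  have s0 := errSide_eq (u := t) (P := V) hθu q
  simp only [pairErr_eq]
  simp only [mul_one, mul_neg, ← sub_eq_add_neg] at c11 c10 c01 c00 r1 r0 s1 s0 hAB ⊢
  have hsum := crossSum_eq hAB
  have hpoly := pair_poly (S := P + Q) (T := R + V)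
    (w := (P * (1 + θ * t) - Q * (1 - θ * t)) / 2) hθ ht.le hu.le
  rw [← hsum] at hpoly
  have hsS : 0 ≤ 1 - t ^ 2 := sub_nonneg.2 ((sq_lt_one_iff_abs_lt_one t).2 ht).le
  have huS : 0 ≤ 1 - u ^ 2 := sub_nonneg.2 ((sq_lt_one_iff_abs_lt_one u).2 hu).le
  have k1 := mul_le_mul_of_nonneg_left (half_bound (P := P) (Q := Q) hθ ht hu) hsS
  have k2 := mul_le_mul_of_nonneg_left (half_bound (P := R) (Q := V) hθ hu ht) huS
  have k3 := mul_le_mul_of_nonneg_left hpoly (mul_nonneg (mul_nonneg hsS huS) hs.le)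
  have hden : 99 / 100 ≤ (1 - (θ * t) ^ 2) * (1 - (θ * u) ^ 2) := by
    have q1 := (abs_le.1 (abs_sq_le hθt)).2
    have q2 := (abs_le.1 (abs_sq_le hθu)).2
    linarith only [q1, q2, mul_nonneg (sq_nonneg (θ * t)) (sq_nonneg (θ * u))]
  generalize hX : pairCross θ t u 1 1 (P * (1 + θ * t)) (R * (1 + θ * u)) +
    pairCross θ t u 1 (-1) (Q * (1 - θ * t)) (R * (1 + θ * u)) +
    pairCross θ t u (-1) 1 (P * (1 + θ * t)) (V * (1 - θ * u)) +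
    pairCross θ t u (-1) (-1) (Q * (1 - θ * t)) (V * (1 - θ * u)) = X
  generalize hD : (1 - (θ * t) ^ 2) * (1 - (θ * u) ^ 2) = D at hden c11 c10 c01 c00
  generalize hG : (1 + u) / (1 + θ * t) *
      ((7 / 5 * (t + θ) ^ 2 + 40 * θ ^ 2 * (1 + θ * t) ^ 2) * P ^ 2) = G1 at k1 r1
  generalize hH : (1 - u) / (1 - θ * t) *
      ((7 / 5 * (t - θ) ^ 2 + 40 * θ ^ 2 * (1 - θ * t) ^ 2) * Q ^ 2) = G0 at k1 r0
  generalize hG' : (1 + t) / (1 + θ * u) *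
      ((7 / 5 * (u + θ) ^ 2 + 40 * θ ^ 2 * (1 + θ * u) ^ 2) * R ^ 2) = F1 at k2 s1
  generalize hH' : (1 - t) / (1 - θ * u) *
      ((7 / 5 * (u - θ) ^ 2 + 40 * θ ^ 2 * (1 - θ * u) ^ 2) * V ^ 2) = F0 at k2 s0
  have hG1 : 0 ≤ G1 := by rw [← hG]; exact mul_nonneg (div_nonneg (by linarith) (by linarith)) (by positivity)
  have hG0 : 0 ≤ G0 := by rw [← hH]; exact mul_nonneg (div_nonneg (by linarith) (by linarith)) (by positivity)
  have hF1 : 0 ≤ F1 := by rw [← hG']; exact mul_nonneg (div_nonneg (by linarith) (by linarith)) (by positivity)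
  have hF0 : 0 ≤ F0 := by rw [← hH']; exact mul_nonneg (div_nonneg (by linarith) (by linarith)) (by positivity)
  generalize hE : (1 - t ^ 2) * (G1 + G0) + (1 - u ^ 2) * (F1 + F0) = E
  have hE0 : 0 ≤ E := by
    rw [← hE]; exact add_nonneg (mul_nonneg hsS (add_nonneg hG1 hG0))
      (mul_nonneg huS (add_nonneg hF1 hF0))
  have hDX : -(12 / 25) * (θ ^ 2 * (1 - θ ^ 2) * E) ≤ D * X := by
    rw [← hX, mul_add, mul_add, mul_add, c11, c10, c01, c00, ← hE]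
    simp only [← mul_add]
    generalize crossNum θ t u 1 1 * (P * R) + crossNum θ t u 1 (-1) * (Q * R) +
      crossNum θ t u (-1) 1 * (P * V) + crossNum θ t u (-1) (-1) * (Q * V) = Y at k3 ⊢
    exact final_step k1 k2 k3 (mul_nonneg (sq_nonneg θ) hs.le)
  have hW : 0 ≤ θ ^ 2 * (1 - θ ^ 2) * E := mul_nonneg (mul_nonneg (sq_nonneg θ) hs.le) hE0
  generalize hWd : θ ^ 2 * (1 - θ ^ 2) * E = W at hDX hW
  have hDpos : 0 < D := by linarith
  have hgoal : 0 ≤ X + W / 2 := by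
    refine nonneg_of_mul_nonneg_right ?_ hDpos
    linarith only [hDX, hW, mul_le_mul_of_nonneg_right hden hW]
  rw [← hE] at hWd
  linarith only [hgoal, hWd, r1, r0, s1, s0]

end Vale.Agent.P150.Fast
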