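import Vale.Agent.P150.Fast.Basic
import Vale.Agent.P150.Fast.PairAlgebra

/-!
# P150 fast side: the Bochner-type criterion

The two-spin inequality bounds every off-diagonal term of `E (sum_i (f - Q_i f))^2` below by
`-eff(J_ij) E[M_i M_j]` minus a second-order error. A Poincare inequality follows by solving the
Poisson equation.
-/

open Finset

namespace Vale.Agent.P150.Fast

variable {ι : Type*} [Fintype ι] [DecidableEq ι] {J : ι → ι → ℝ} (h : ι → ℝ)

theorem tanh_add_eq (a b : ℝ) :
    Real.tanh (a + b) =
      (Real.tanh a + Real.tanh b) / (1 + Real.tanh a * Real.tanh b) := by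
  have ha := (Real.cosh_pos a).ne'
  have hb := (Real.cosh_pos b).ne'
  have hab : Real.cosh a * Real.cosh b + Real.sinh a * Real.sinh b ≠ 0 := by
    rw [← Real.cosh_add]; exact (Real.cosh_pos _).ne'
  rw [Real.tanh_eq_sinh_div_cosh, Real.sinh_add, Real.cosh_add, Real.tanh_eq_sinh_div_cosh,
    Real.tanh_eq_sinh_div_cosh]
  field_simp

theorem tanh_mul_spin (a : ℝ) (b : Bool) : Real.tanh (a * spin b) = Real.tanh a * spin b := by
  cases b <;> simp [spin, Real.tanh_neg]

theorem eff_eq (a : ℝ) : eff a = Real.tanh a / (1 - Real.tanh a ^ 2) := by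
  have hc := (Real.cosh_pos a).ne'
  have e : 1 - Real.tanh a ^ 2 = 1 / Real.cosh a ^ 2 := by
    rw [Real.tanh_eq_sinh_div_cosh]
    field_simp
    linarith [Real.cosh_sq a]
  rw [eff, e, Real.tanh_eq_sinh_div_cosh]
  field_simp

theorem abs_tanh_le (a : ℝ) : |Real.tanh a| ≤ |a| := by
  have key : ∀ b : ℝ, 0 ≤ b → 0 ≤ Real.tanh b ∧ Real.tanh b ≤ b := fun b hb => by
    rw [Real.tanh_eq_sinh_div_cosh]
    refine ⟨div_nonneg (Real.sinh_nonneg_iff.2 hb) (Real.cosh_pos b).le, ?_⟩
    rw [div_le_iff₀ (Real.cosh_pos b)]
    have hm : MonotoneOn (fun y => y * Real.cosh y - Real.sinh y) (Set.Ici 0) := by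
      refine monotoneOn_of_hasDerivWithinAt_nonneg (convex_Ici 0) (f' := fun y => y * Real.sinh y)
        (by fun_prop) (fun y _ => ?_) (fun y hy => ?_)
      · have := (((hasDerivAt_id y).mul (Real.hasDerivAt_cosh y)).sub (Real.hasDerivAt_sinh y))
        simp only [id, one_mul] at this
        exact (this.congr_deriv (by ring)).hasDerivWithinAt
      · rw [interior_Ici] at hy
        exact mul_nonneg (le_of_lt hy) (Real.sinh_nonneg_iff.2 (le_of_lt hy))
    have := hm Set.self_mem_Ici (Set.mem_Ici.2 hb) hb
    simp only [Real.sinh_zero, zero_mul, sub_zero] at this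
    linarith
  rcases le_total 0 a with ha | ha
  · rw [abs_of_nonneg ha, abs_of_nonneg (key a ha).1]; exact (key a ha).2
  · have := key (-a) (neg_nonneg.2 ha)
    rw [Real.tanh_neg] at this
    rw [abs_of_nonpos ha, abs_of_nonpos (neg_nonneg.1 this.1)]; exact this.2

/-- The second-order error of the pair `(i, j)` at the site `i`. -/
noncomputable def err (J : ι → ι → ℝ) (h : ι → ℝ) (i j : ι) (f : (ι → Bool) → ℝ)
    (x : ι → Bool) : ℝ :=
  Real.tanh (J i j) ^ 2 * (7 / 5 * cmean J h i x ^ 2 + 40 * Real.tanh (J i j) ^ 2) *
    ((1 - cmean J h i x ^ 2) * grad i f x ^ 2) / 4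

/-- The smoothed deviation. -/
noncomputable def smooth (J : ι → ι → ℝ) (h : ι → ℝ) (i : ι) (f : (ι → Bool) → ℝ)
    (x : ι → Bool) : ℝ :=
  (1 - cmean J h i x ^ 2) * grad i f x / 2

/-- The integrand of the pair `(i, j)`. -/
noncomputable def pairTerm (J : ι → ι → ℝ) (h : ι → ℝ) (i j : ι) (f : (ι → Bool) → ℝ)
    (x : ι → Bool) : ℝ :=
  dev J h i f x * dev J h j f x + eff (J i j) * (smooth J h i f x * smooth J h j f x) +
    err J h i j f x + err J h j i f x

theorem ham_pair (hJ : IsCoupling J) {i j : ι} (hij : i ≠ j) (x : ι → Bool) (a b : Bool) :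
    ham J h (Function.update (Function.update x i a) j b) =
      (ham J h x - spin (x i) * (field J h i x - J i j * spin (x j)) -
          spin (x j) * (field J h j x - J i j * spin (x i)) - J i j * spin (x i) * spin (x j)) +
        spin a * (field J h i x - J i j * spin (x j)) +
        spin b * (field J h j x - J i j * spin (x i)) + spin b * (J i j * spin a) := by
  rw [ham_update h hJ, Function.update_of_ne hij.symm, ham_update h hJ, field_update h,
    hJ.1 j i]
  ring

theorem field_pair (hJ : IsCoupling J) {i j : ι} (hij : i ≠ j) (x : ι → Bool) (a b : Bool) :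
    field J h i (Function.update (Function.update x i a) j b) =
      (field J h i x - J i j * spin (x j)) + J i j * spin b := by
  rw [field_update h, Function.update_of_ne hij.symm, field_update_self h hJ]
  ring

theorem weight_pair (hJ : IsCoupling J) {i j : ι} (hij : i ≠ j) (x : ι → Bool) :
    ∃ c : ℝ, 0 ≤ c ∧ ∀ a b : Bool,
      weight J h (Function.update (Function.update x i a) j b) =
        c * pairWeight (Real.tanh (J i j)) (Real.tanh (field J h i x - J i j * spin (x j)))
          (Real.tanh (field J h j x - J i j * spin (x i))) (spin a) (spin b) := by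
  set p := field J h i x - J i j * spin (x j) with hp
  set q := field J h j x - J i j * spin (x i) with hq
  refine ⟨Real.exp (ham J h x - spin (x i) * p - spin (x j) * q - J i j * spin (x i) * spin (x j)) *
    Real.cosh p * Real.cosh q * Real.cosh (J i j) / ∑ y, Real.exp (ham J h y), ?_, fun a b => ?_⟩
  · have := Real.cosh_pos p
    have := Real.cosh_pos q
    have := Real.cosh_pos (J i j)
    exact div_nonneg (by positivity) (Finset.sum_nonneg fun _ _ => (Real.exp_pos _).le)
  · have e : Real.exp (spin b * (J i j * spin a)) =
        Real.cosh (J i j) * (1 + Real.tanh (J i j) * spin a * spin b) := by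
      rw [exp_split, tanh_mul_spin]
      congr 1
      cases a <;> simp [spin]
    rw [weight, ham_pair h hJ hij x a b, ← hp, ← hq, Real.exp_add, Real.exp_add, Real.exp_add,
      exp_split p a, exp_split q b, e, pairWeight]
    ring

theorem cmean_pair (hJ : IsCoupling J) {i j : ι} (hij : i ≠ j) (x : ι → Bool) (a b : Bool) :
    cmean J h i (Function.update (Function.update x i a) j b) =
      pairMean (Real.tanh (J i j)) (Real.tanh (field J h i x - J i j * spin (x j))) (spin b) := by
  rw [cmean, field_pair h hJ hij, tanh_add_eq, tanh_mul_spin, pairMean]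
  congr 1
  ring

omit [Fintype ι] in
theorem grad_pair {i j : ι} (hij : i ≠ j) (f : (ι → Bool) → ℝ) (x : ι → Bool) (a b : Bool) :
    grad i f (Function.update (Function.update x i a) j b) = grad i f (Function.update x j b) := by
  rw [Function.update_comm hij, grad_update_self]

theorem mean_pairTerm_nonneg (hJ : IsCoupling J) {i j : ι} (hij : i ≠ j)
    (hθ : |J i j| ≤ 1 / 20) (f : (ι → Bool) → ℝ) : 0 ≤ mean J h (pairTerm J h i j f) := by
  have a := sum_update j (fun x => weight J h x * pairTerm J h i j f x)
  have b := sum_update i (fun x =>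
    weight J h (Function.update x j true) * pairTerm J h i j f (Function.update x j true) +
      weight J h (Function.update x j false) * pairTerm J h i j f (Function.update x j false))
  have key : ∀ x, 0 ≤
      weight J h (Function.update (Function.update x i true) j true) *
          pairTerm J h i j f (Function.update (Function.update x i true) j true) +
        weight J h (Function.update (Function.update x i true) j false) *
          pairTerm J h i j f (Function.update (Function.update x i true) j false) +
      (weight J h (Function.update (Function.update x i false) j true) *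
          pairTerm J h i j f (Function.update (Function.update x i false) j true) +
        weight J h (Function.update (Function.update x i false) j false) *
          pairTerm J h i j f (Function.update (Function.update x i false) j false)) := fun x => by
    obtain ⟨c, hc, hw⟩ := weight_pair h hJ hij x
    set θ := Real.tanh (J i j) with hθdef
    set t := Real.tanh (field J h i x - J i j * spin (x j)) with htdef
    set u := Real.tanh (field J h j x - J i j * spin (x i)) with hudef
    have hm' : ∀ a b, cmean J h j (Function.update (Function.update x i a) j b) =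
        pairMean θ u (spin a) := fun a b => by
      rw [Function.update_comm hij, cmean_pair h hJ hij.symm, hJ.1 j i]
    have hg' : ∀ a b, grad j f (Function.update (Function.update x i a) j b) =
        grad j f (Function.update x i a) := fun a b => by
      rw [grad_update_self]
    have hterm : ∀ a b, weight J h (Function.update (Function.update x i a) j b) *
        pairTerm J h i j f (Function.update (Function.update x i a) j b) =
        c * (pairCross θ t u (spin a) (spin b) (grad i f (Function.update x j b))
              (grad j f (Function.update x i a)) +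
            pairErr θ t u (spin a) (spin b) (grad i f (Function.update x j b))
              (grad j f (Function.update x i a))) := fun a b => by
      rw [hw a b]
      simp only [pairTerm, dev_eq, smooth, err, eff_eq, hJ.1 j i, cmean_pair h hJ hij x a b,
        hm' a b, grad_pair hij, hg' a b, ← htdef, ← hθdef, Function.update_of_ne hij,
        Function.update_self, pairCross, pairErr]
      ring
    have hAB : grad i f (Function.update x j true) - grad i f (Function.update x j false) =
        grad j f (Function.update x i true) - grad j f (Function.update x i false) := by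
      simp only [grad, Function.update_comm hij]
      ring
    have := mul_nonneg hc (pair_ineq (θ := θ) (t := t) (u := u)
      ((abs_tanh_le _).trans hθ) (Real.abs_tanh_lt_one _) (Real.abs_tanh_lt_one _) hAB)
    simp only [hterm, spin_true, spin_false]
    linarith
  have := Finset.sum_nonneg (s := univ) fun x _ => key x
  simp only [mean]
  linarith

theorem dev_sq (hJ : IsCoupling J) (i : ι) (f : (ι → Bool) → ℝ) :
    mean J h (fun x => dev J h i f x * dev J h i f x) = site J h i f := by
  rw [mean_cond h hJ i, site]
  refine congrArg (mean J h) (funext fun x => ?_)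
  simp only [cond, dev_eq, cmean_update_self h hJ, grad_update_self, Function.update_self,
    spin_true, spin_false]
  ring

/-- `E (L f)^2 >= γ sum_i E Var_i f`. -/
theorem bochner (hJ : IsCoupling J) {L ρ τ : ℝ} (hτ : ∀ i j, |J i j| ≤ τ) (hτ' : τ ≤ 1 / 20)
    (hL : ∀ v : ι → ℝ, ∑ i, ∑ j, eff (J i j) * v i * v j ≤ L * ∑ i, v i ^ 2)
    (hρ : ∀ i, ∑ j, J i j ^ 2 ≤ ρ) (f : (ι → Bool) → ℝ) :
    (1 - max L (3 * ρ) - 100 * τ ^ 2 * ρ) * ∑ i, site J h i f ≤
      mean J h (fun x => lap J h f x ^ 2) := by
  have hexp : mean J h (fun x => lap J h f x ^ 2) =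
      ∑ i, ∑ j, mean J h (fun x => dev J h i f x * dev J h j f x) := by
    simp only [← mean_sum]
    refine congrArg (mean J h) (funext fun x => ?_)
    rw [lap_eq, neg_sq, sq, Finset.sum_mul_sum]
  have hterm : ∀ i j, (if i = j then site J h i f else 0) ≤
      mean J h (fun x => dev J h i f x * dev J h j f x) +
      (mean J h (fun x => eff (J i j) * (smooth J h i f x * smooth J h j f x)) +
        (mean J h (err J h i j f) + mean J h (err J h j i f))) := fun i j => by
    by_cases hij : i = j
    · subst hij
      rw [if_pos rfl, dev_sq h hJ, show err J h i i f = fun _ => (0 : ℝ) from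
        funext fun x => by simp [err, hJ.2]]
      simp [hJ.2, eff, mean_const]
    · rw [if_neg hij]
      have := mean_pairTerm_nonneg h hJ hij ((hτ i j).trans hτ') f
      change 0 ≤ mean J h (fun x => dev J h i f x * dev J h j f x +
        eff (J i j) * (smooth J h i f x * smooth J h j f x) + err J h i j f x + err J h j i f x)
        at this
      rw [mean_add, mean_add, mean_add] at this
      linarith
  have hsum := Finset.sum_le_sum (s := univ) fun i _ =>
    Finset.sum_le_sum (s := univ) fun j _ => hterm i j
  simp only [Finset.sum_add_distrib, Finset.sum_ite_eq, Finset.mem_univ, if_true] at hsum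
  rw [← hexp, Finset.sum_comm (f := fun i j => mean J h (err J h j i f))] at hsum
  simp only [← mean_sum] at hsum
  rw [← mean_add, ← mean_add] at hsum
  have hmain : mean J h (fun x => (∑ i, ∑ j, eff (J i j) * (smooth J h i f x * smooth J h j f x)) +
      ((∑ i, ∑ j, err J h i j f x) + ∑ i, ∑ j, err J h i j f x)) ≤
      (max L (3 * ρ) + 100 * τ ^ 2 * ρ) * ∑ i, site J h i f := by
    simp only [site]
    rw [← mean_sum, ← mean_smul]
    refine mean_le_mean h fun x => ?_
    have h1 : ∑ i, ∑ j, eff (J i j) * (smooth J h i f x * smooth J h j f x) ≤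
        max L (3 * ρ) * ∑ i, smooth J h i f x ^ 2 := by
      refine le_trans (le_of_eq ?_) ((hL fun i => smooth J h i f x).trans
        (mul_le_mul_of_nonneg_right (le_max_left _ _) (Finset.sum_nonneg fun i _ => sq_nonneg _)))
      exact Finset.sum_congr rfl fun i _ => Finset.sum_congr rfl fun j _ => by ring
    have h2 : ∀ i, 2 * ∑ j, err J h i j f x ≤
        max L (3 * ρ) * (cmean J h i x ^ 2 * ((1 - cmean J h i x ^ 2) * grad i f x ^ 2 / 4)) +
          100 * τ ^ 2 * ρ * ((1 - cmean J h i x ^ 2) * grad i f x ^ 2 / 4) := fun i => by
      set m := (1 - cmean J h i x ^ 2) * grad i f x ^ 2 / 4 with hm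
      have hm0 : 0 ≤ m := div_nonneg
        (mul_nonneg (sub_nonneg.2 (Real.tanh_sq_lt_one _).le) (sq_nonneg _)) (by norm_num)
      have hρ0 : 0 ≤ ρ := le_trans (Finset.sum_nonneg fun j _ => sq_nonneg _) (hρ i)
      have e : ∀ j, err J h i j f x ≤
          J i j ^ 2 * ((7 / 5 * cmean J h i x ^ 2 + 40 * τ ^ 2) * m) := fun j => by
        have e1 : Real.tanh (J i j) ^ 2 ≤ J i j ^ 2 := sq_le_sq.2 (abs_tanh_le _)
        have e2 : Real.tanh (J i j) ^ 2 ≤ τ ^ 2 :=
          e1.trans (by rw [← sq_abs]; exact pow_le_pow_left₀ (abs_nonneg _) (hτ i j) 2)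
        rw [show err J h i j f x = Real.tanh (J i j) ^ 2 *
          ((7 / 5 * cmean J h i x ^ 2 + 40 * Real.tanh (J i j) ^ 2) * m) by rw [err, hm]; ring]
        exact mul_le_mul e1 (mul_le_mul_of_nonneg_right (by linarith) hm0)
          (mul_nonneg (by positivity) hm0) (sq_nonneg _)
      have hle := Finset.sum_le_sum (s := univ) fun j _ => e j
      rw [← Finset.sum_mul] at hle
      have hb : 0 ≤ (7 / 5 * cmean J h i x ^ 2 + 40 * τ ^ 2) * m :=
        mul_nonneg (by positivity) hm0
      have hc : 0 ≤ cmean J h i x ^ 2 * m := mul_nonneg (sq_nonneg _) hm0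
      have hd : 0 ≤ τ ^ 2 * ρ * m := by positivity
      linarith [mul_le_mul_of_nonneg_right (hρ i) hb,
        mul_le_mul_of_nonneg_right (le_max_right L (3 * ρ)) hc, mul_nonneg hρ0 hc]
    have h3 := Finset.sum_le_sum (s := univ) fun i _ => h2 i
    have h4 : ∀ i, smooth J h i f x ^ 2 +
        cmean J h i x ^ 2 * ((1 - cmean J h i x ^ 2) * grad i f x ^ 2 / 4) =
        (1 - cmean J h i x ^ 2) * grad i f x ^ 2 / 4 := fun i => by rw [smooth]; ring
    have h5 := congrArg (fun s => max L (3 * ρ) * s)
      (Finset.sum_congr (s₁ := univ) rfl fun i _ => h4 i)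
    simp only [Finset.sum_add_distrib, ← Finset.mul_sum] at h3 h5
    linarith
  rw [sub_sub, sub_mul, one_mul]
  linarith

theorem var_eq (f : (ι → Bool) → ℝ) :
    var J h f = mean J h (fun x => f x ^ 2) - mean J h f ^ 2 := by
  rw [var, show (fun x => (f x - mean J h f) ^ 2) =
    fun x => f x ^ 2 - (2 * mean J h f * f x - mean J h f ^ 2) from funext fun x => by ring,
    mean_sub, mean_sub, mean_smul, mean_const]
  ring

theorem const_of_grad {f : (ι → Bool) → ℝ} (hf : ∀ i x, grad i f x = 0) (x y : ι → Bool) :
    f x = f y := by
  have key : ∀ (s : Finset ι) (x : ι → Bool), f (fun i => if i ∈ s then y i else x i) = f x := by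
    intro s
    induction s using Finset.induction_on with
    | empty => intro x; simp
    | @insert a s ha ih =>
      intro x
      have e : (fun i => if i ∈ insert a s then y i else x i) =
          Function.update (fun i => if i ∈ s then y i else x i) a (y a) := funext fun i => by
        by_cases hi : i = a
        · subst hi; simp
        · simp [hi]
      rw [e, ← ih x]
      have g0 := hf a (fun i => if i ∈ s then y i else x i)
      rw [grad, sub_eq_zero] at g0
      generalize (fun i => if i ∈ s then y i else x i) = z at g0 ⊢
      conv_rhs => rw [← Function.update_eq_self a z]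
      cases y a <;> cases z a <;> simp [g0]
  simpa using (key univ x).symm

theorem exists_poisson (hJ : IsCoupling J) (φ : (ι → Bool) → ℝ) (hφ : mean J h φ = 0) :
    ∃ g, ∀ x, φ x = -lap J h g x := by
  let T : ((ι → Bool) → ℝ) →ₗ[ℝ] ((ι → Bool) → ℝ) :=
    { toFun := fun g x => -lap J h g x + mean J h g
      map_add' := fun u v => funext fun x => by
        simp only [lap, cond, Pi.add_apply]
        rw [show mean J h (u + v) = mean J h u + mean J h v from mean_add h u v]
        simp only [Finset.sum_sub_distrib, Finset.sum_add_distrib, mul_add]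
        ring
      map_smul' := fun c u => funext fun x => by
        simp only [lap, cond, Pi.smul_apply, smul_eq_mul, RingHom.id_apply]
        rw [show mean J h (c • u) = c * mean J h u from mean_smul h c u]
        simp only [Finset.sum_sub_distrib, Finset.sum_add_distrib, ← Finset.mul_sum, mul_left_comm _ c]
        ring }
  have hT : ∀ g, mean J h (T g) = mean J h g := fun g => by
    change mean J h (fun x => -lap J h g x + mean J h g) = _
    rw [show (fun x => -lap J h g x + mean J h g) =
      fun x => (-1 : ℝ) * lap J h g x + mean J h g from funext fun x => by ring,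
      mean_add, mean_smul, mean_lap h hJ, mean_const]
    ring
  have hinj : Function.Injective T := (injective_iff_map_eq_zero T).2 fun g hg => by
    have h0 : mean J h g = 0 := by rw [← hT, hg]; exact mean_const h 0
    have hl : ∀ x, lap J h g x = 0 := fun x => by
      have := congrFun hg x
      simp only [T, LinearMap.coe_mk, AddHom.coe_mk, h0, add_zero, Pi.zero_apply, neg_eq_zero]
        at this
      exact this
    have hs : ∑ i, site J h i g = 0 := by
      simp only [site_eq_mean_mul_dev h hJ, ← mean_sum, ← Finset.mul_sum]
      have : ∀ x, ∑ i, dev J h i g x = 0 := fun x => neg_eq_zero.1 ((lap_eq h g x).symm.trans (hl x))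
      simp only [this, mul_zero, mean_const]
    have hgrad : ∀ i x, grad i g x = 0 := fun i x => by
      have h1 := (Finset.sum_eq_zero_iff_of_nonneg fun i _ => site_nonneg h i g).1 hs i (mem_univ i)
      have hp : ∀ y, 0 < 1 - cmean J h i y ^ 2 := fun y => sub_pos.2 (Real.tanh_sq_lt_one _)
      have h2 := (Finset.sum_eq_zero_iff_of_nonneg fun y _ => mul_nonneg (weight_pos h y).le
        (div_nonneg (mul_nonneg (hp y).le (sq_nonneg (grad i g y))) (by norm_num))).1 h1 x (mem_univ x)
      simpa [(weight_pos h x).ne', (hp x).ne'] using h2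
    funext x
    have : g = fun _ => g x := funext fun y => const_of_grad hgrad y x
    rw [this, mean_const] at h0
    exact h0
  obtain ⟨g, hg⟩ := (LinearMap.injective_iff_surjective.1 hinj) φ
  have h0 : mean J h g = 0 := by rw [← hT, hg, hφ]
  refine ⟨g, fun x => ?_⟩
  have := congrFun hg x
  simp only [T, LinearMap.coe_mk, AddHom.coe_mk, h0, add_zero] at this
  exact this.symm

/-- A lower bound on `E (L f)^2` in terms of the Dirichlet form gives a Poincare inequality. -/
theorem poincare_of_bochner (hJ : IsCoupling J) {γ : ℝ}
    (hb : ∀ f, γ * ∑ i, site J h i f ≤ mean J h (fun x => lap J h f x ^ 2))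
    (f : (ι → Bool) → ℝ) : γ * var J h f ≤ ∑ i, site J h i f := by
  have hs : 0 ≤ ∑ i, site J h i f := Finset.sum_nonneg fun i _ => site_nonneg h i f
  have hv : 0 ≤ var J h f := mean_nonneg h fun x => sq_nonneg _
  rcases le_or_gt γ 0 with hγ | hγ
  · exact le_trans (mul_nonpos_of_nonpos_of_nonneg hγ hv) hs
  obtain ⟨g, hg⟩ := exists_poisson h hJ (fun x => f x - mean J h f)
    (by rw [mean_sub, mean_const, sub_self])
  have e1 : var J h f = mean J h (fun x => lap J h g x ^ 2) :=
    congrArg (mean J h) (funext fun x => by rw [hg x, neg_sq])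
  have e2 : var J h f = ∑ i, mean J h (fun x => f x * dev J h i g x) := by
    rw [← mean_sum]
    have : mean J h (fun x => (f x - mean J h f) * (-lap J h g x)) =
        mean J h (fun x => f x * ∑ i, dev J h i g x) := by
      rw [show (fun x => (f x - mean J h f) * (-lap J h g x)) =
        fun x => f x * ∑ i, dev J h i g x - -(mean J h f) * lap J h g x from
          funext fun x => by rw [lap_eq]; ring,
        mean_sub, mean_smul, mean_lap h hJ]
      ring
    simp only [← Finset.mul_sum]
    rw [← this]
    exact congrArg (mean J h) (funext fun x => by rw [← hg x, sq])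
  have e3 : ∀ i, 2 * γ * mean J h (fun x => f x * dev J h i g x) ≤
      γ ^ 2 * site J h i g + site J h i f := fun i => by
    rw [mean_mul_dev h hJ, site, site, ← mean_smul, ← mean_smul, ← mean_add]
    refine mean_le_mean h fun x => ?_
    have hp : 0 ≤ 1 - cmean J h i x ^ 2 := sub_nonneg.2 (Real.tanh_sq_lt_one _).le
    nlinarith [mul_nonneg hp (sq_nonneg (grad i f x - γ * grad i g x))]
  have e4 := Finset.sum_le_sum (s := univ) fun i _ => e3 i
  simp only [Finset.sum_add_distrib, ← Finset.mul_sum, ← e2] at e4
  nlinarith [hb g, e1, e4]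

theorem pairCriterion : PairCriterion :=
  ⟨1 / 20, by norm_num, fun J L ρ τ hJ hτ hτ' hL hρ h f =>
    poincare_of_bochner h hJ (bochner h hJ hτ hτ' hL hρ) f⟩

/-- A Poincare inequality bounds covariances by their diagonal. -/
theorem covBound_of_poincare (hJ : IsCoupling J) {γ : ℝ} (hγ : 0 < γ) (hP : Poincare J γ) :
    CovBound J γ⁻¹ := by
  intro h v
  rw [inv_mul_eq_div, le_div_iff₀' hγ]
  refine (hP h _).trans (Finset.sum_le_sum fun i _ => ?_)
  have hg : ∀ x, grad i (fun y => ∑ k, v k * spin (y k)) x = 2 * v i := fun x => by
    rw [grad, ← Finset.sum_sub_distrib, Finset.sum_eq_single i]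
    · simp [spin]; ring
    · intro k _ hk; simp [Function.update_of_ne hk]
    · simp
  have hm : mean J h (fun x => spin (x i)) = mean J h (cmean J h i) := by
    rw [mean_cond h hJ i]
    refine congrArg (mean J h) (funext fun x => ?_)
    simp only [cond, Function.update_self, spin_true, spin_false]
    ring
  rw [site, var_eq, hm,
    show (fun x : ι → Bool => spin (x i) ^ 2) = fun _ => (1 : ℝ) from
      funext fun x => by rw [sq, spin_mul_spin],
    mean_const,
    show (fun x => (1 - cmean J h i x ^ 2) * grad i (fun y => ∑ k, v k * spin (y k)) x ^ 2 / 4) =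
      fun x => v i ^ 2 * (1 - cmean J h i x ^ 2) from funext fun x => by rw [hg x]; ring,
    mean_smul, mean_sub, mean_const]
  exact mul_le_mul_of_nonneg_left (sub_le_sub_left (mean_sq_le h _) 1) (sq_nonneg _)

end Vale.Agent.P150.Fast
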