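import Vale.Agent.P150.Fast.Bridge

/-!
# P150 fast side: assembly
-/

open Finset MeasureTheory

namespace Vale.Agent.P150.Fast

/-- The covariance constant of a principal submatrix of size `m` among `n`. -/
noncomputable def etaSK (c K : ℝ) (n m : ℕ) : ℝ :=
  if 16 * K * √(√((m : ℝ) / n)) ≤ 1 then 1 + 8 * K * √(√((m : ℝ) / n)) else c⁻¹

theorem quartic_step {a b : ℝ} (ha : 0 < a) (hb : 0 ≤ b) (hba : b ≤ a) :
    a ^ 4 - b ^ 4 ≤ 4 * a ^ 3 * (a - b) := by
  have h1 := mul_le_mul hba hba hb ha.le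
  have e : a ^ 4 - b ^ 4 = (a + b) * (a ^ 2 + b ^ 2) * (a - b) := by ring
  rw [e]
  refine mul_le_mul_of_nonneg_right ?_ (sub_nonneg.2 hba)
  calc (a + b) * (a ^ 2 + b ^ 2) ≤ (2 * a) * (2 * a ^ 2) :=
        mul_le_mul (by linarith) (by linarith) (add_nonneg (sq_nonneg _) (sq_nonneg _)) (by linarith)
    _ = 4 * a ^ 3 := by ring

theorem root_sum_le {n : ℕ} (hn : 0 < n) :
    ∑ m ∈ Icc 2 n, √(√((m : ℝ) / n)) / m ≤ 4 := by
  set r : ℕ → ℝ := fun m => √(√((m : ℝ) / n)) with hr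
  have hn' : (0 : ℝ) < n := by exact_mod_cast hn
  have h4 : ∀ m, r m ^ 4 = (m : ℝ) / n := fun m => by
    rw [show r m ^ 4 = (r m ^ 2) ^ 2 by ring, hr]
    simp only
    rw [Real.sq_sqrt (Real.sqrt_nonneg _), Real.sq_sqrt (by positivity)]
  have step : ∀ k, r (k + 1) / ((k + 1 : ℕ) : ℝ) ≤ 4 * (r (k + 1) - r k) := fun k => by
    have hk : (0 : ℝ) < ((k + 1 : ℕ) : ℝ) := by positivity
    have ha : 0 < r (k + 1) := Real.sqrt_pos.2 (Real.sqrt_pos.2 (by positivity))
    have hba : r k ≤ r (k + 1) := by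
      refine Real.sqrt_le_sqrt (Real.sqrt_le_sqrt ?_)
      gcongr; omega
    have := quartic_step ha (Real.sqrt_nonneg _) hba
    rw [h4, h4] at this
    have e : ((k + 1 : ℕ) : ℝ) / n - (k : ℝ) / n = r (k + 1) ^ 4 / ((k + 1 : ℕ) : ℝ) := by
      rw [h4]; field_simp; push_cast; ring
    rw [e, div_le_iff₀ hk] at this
    rw [div_le_iff₀ hk]
    refine le_of_mul_le_mul_left ?_ (pow_pos ha 3)
    linarith
  calc ∑ m ∈ Icc 2 n, r m / m ≤ ∑ m ∈ Icc 1 n, r m / m :=
        Finset.sum_le_sum_of_subset_of_nonneg (Icc_subset_Icc_left one_le_two)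
          fun m _ _ => div_nonneg (Real.sqrt_nonneg _) (Nat.cast_nonneg m)
    _ = ∑ k ∈ range n, r (k + 1) / ((k + 1 : ℕ) : ℝ) := by
        rw [Finset.sum_bij (fun k _ => k - 1) (fun k hk => ?_) (fun a ha b hb h => ?_)
          (fun k hk => ⟨k + 1, ?_, by simp⟩) (fun k hk => ?_)]
        · simp only [mem_Icc, mem_range] at hk ⊢; omega
        · simp only [mem_Icc] at ha hb; omega
        · simp only [mem_Icc, mem_range] at hk ⊢; omega
        · simp only [mem_Icc] at hk; rw [show k - 1 + 1 = k by omega]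
    _ ≤ ∑ k ∈ range n, 4 * (r (k + 1) - r k) := Finset.sum_le_sum fun k _ => step k
    _ = 4 * (r n - r 0) := by rw [← Finset.mul_sum, Finset.sum_range_sub]
    _ ≤ 4 := by
        have h1 : r n = 1 := by simp [hr, hn.ne']
        have h0 : r 0 = 0 := by simp [hr]
        rw [h1, h0]; norm_num

theorem etaSK_spec {c K : ℝ} (hc : 0 < c) (hc1 : c ≤ 1) (hK : 0 < K) {n m : ℕ}
    (hn : (16 * K) ^ 4 * (2 / c + 1) ≤ n) (hm : 2 ≤ m) (hmn : m ≤ n) :
    1 ≤ etaSK c K n m ∧ 0 ≤ (etaSK c K n m - 1) / ((m : ℝ) - 1) ∧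
      (etaSK c K n m - 1) / ((m : ℝ) - 1) ≤ 1 / 2 ∧
      (etaSK c K n m - 1) / ((m : ℝ) - 1) ≤ 32 * K / c * (√(√((m : ℝ) / n)) / m) ∧
      etaSK c K n m < m := by
  have hm' : (2 : ℝ) ≤ m := by exact_mod_cast hm
  have hn' : (0 : ℝ) < n := by
    have : (0 : ℕ) < n := by omega
    exact_mod_cast this
  set r := √(√((m : ℝ) / n)) with hr
  have hr0 : 0 ≤ r := Real.sqrt_nonneg _
  have hinv : 1 ≤ c⁻¹ := one_le_inv₀ hc |>.2 hc1
  have main : 1 ≤ etaSK c K n m ∧ etaSK c K n m - 1 ≤ 16 * K * r * c⁻¹ ∧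
      2 * (etaSK c K n m - 1) ≤ (m : ℝ) - 1 := by
    unfold etaSK
    rw [← hr]
    split_ifs with h
    · have h0 : 0 ≤ K * r := mul_nonneg hK.le hr0
      exact ⟨by linarith, by nlinarith [mul_le_mul_of_nonneg_left hinv h0], by linarith⟩
    · rw [not_le] at h
      refine ⟨hinv, ?_, ?_⟩
      · have := mul_le_mul_of_nonneg_right h.le (inv_nonneg.2 hc.le)
        linarith
      · have h4 : 1 ≤ (16 * K) ^ 4 * ((m : ℝ) / n) := by
          have := one_le_pow₀ (n := 4) h.le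
          rw [mul_pow, show r ^ 4 = (r ^ 2) ^ 2 by ring, hr, Real.sq_sqrt (Real.sqrt_nonneg _),
            Real.sq_sqrt (by positivity)] at this
          exact this
        rw [mul_div_assoc', le_div_iff₀ hn', one_mul] at h4
        have h5 := le_of_mul_le_mul_left (hn.trans h4) (by positivity)
        rw [div_eq_mul_inv] at h5
        linarith
  obtain ⟨h1, h2, h3⟩ := main
  have hpos : (0 : ℝ) < (m : ℝ) - 1 := by linarith
  refine ⟨h1, div_nonneg (sub_nonneg.2 h1) hpos.le, ?_, ?_, by linarith⟩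
  · rw [div_le_iff₀ hpos]; linarith
  · calc (etaSK c K n m - 1) / ((m : ℝ) - 1) ≤ 16 * K * r * c⁻¹ / ((m : ℝ) / 2) :=
          div_le_div₀ (by positivity) h2 (by linarith) (by linarith)
      _ = 32 * K / c * (r / m) := by field_simp; ring

theorem atConst_le {c K : ℝ} (hc : 0 < c) (hc1 : c ≤ 1) (hK : 0 < K) {n : ℕ}
    (hn : (16 * K) ^ 4 * (2 / c + 1) ≤ n) :
    atConst (etaSK c K n) n ≤ Real.exp (256 * K / c) := by
  have hn0 : 0 < n := by
    have : (0 : ℝ) < n := lt_of_lt_of_le (by positivity) hn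
    exact_mod_cast this
  calc atConst (etaSK c K n) n
      ≤ ∏ m ∈ Icc 2 n, Real.exp (64 * K / c * (√(√((m : ℝ) / n)) / m)) := by
        refine Finset.prod_le_prod (fun m hm => ?_) fun m hm => ?_
        · obtain ⟨hm2, hmn⟩ := mem_Icc.1 hm
          obtain ⟨h1, _, _, _, h5⟩ := etaSK_spec hc hc1 hK hn hm2 hmn
          have : (2 : ℝ) ≤ m := by exact_mod_cast hm2
          exact div_nonneg (by linarith) (by linarith)
        · obtain ⟨hm2, hmn⟩ := mem_Icc.1 hm
          obtain ⟨h1, h2, h3, h4, h5⟩ := etaSK_spec hc hc1 hK hn hm2 hmn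
          have : (2 : ℝ) ≤ m := by exact_mod_cast hm2
          set a := (etaSK c K n m - 1) / ((m : ℝ) - 1) with ha
          have e : ((m : ℝ) - 1) / ((m : ℝ) - etaSK c K n m) = 1 / (1 - a) := by
            rw [ha, one_sub_div (show (m : ℝ) - 1 ≠ 0 by linarith), one_div_div]
            congr 1; ring
          rw [e]
          calc 1 / (1 - a) ≤ 2 * a + 1 := by
                rw [div_le_iff₀ (by linarith)]
                nlinarith [mul_le_mul_of_nonneg_left h3 h2]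
            _ ≤ Real.exp (2 * a) := Real.add_one_le_exp _
            _ ≤ _ := Real.exp_le_exp.2
                ((mul_le_mul_of_nonneg_left h4 zero_le_two).trans (le_of_eq (by ring)))
    _ = Real.exp (64 * K / c * ∑ m ∈ Icc 2 n, √(√((m : ℝ) / n)) / m) := by
        rw [← Real.exp_sum, Finset.mul_sum]
    _ ≤ _ := Real.exp_le_exp.2 (by
        calc _ ≤ 64 * K / c * 4 := mul_le_mul_of_nonneg_left (root_sum_le hn0) (by positivity)
          _ = _ := by ring)

theorem covBound_mono {ι : Type*} [Fintype ι] [DecidableEq ι] {J : ι → ι → ℝ} {a b : ℝ}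
    (hab : a ≤ b) (h : CovBound J a) : CovBound J b := fun f v =>
  (h f v).trans (mul_le_mul_of_nonneg_right hab (Finset.sum_nonneg fun _ _ =>
    mul_nonneg (sq_nonneg _) (mean_nonneg f fun _ => sq_nonneg _)))

theorem isCoupling_comp {ι κ : Type*} [Fintype κ] {J : ι → ι → ℝ} (hJ : IsCoupling J) (e : κ ↪ ι) :
    IsCoupling (fun a b => J (e a) (e b)) :=
  ⟨fun a b => hJ.1 _ _, fun a => hJ.2 _⟩

theorem poincare_mono {ι : Type*} [Fintype ι] [DecidableEq ι] {J : ι → ι → ℝ} {a b : ℝ}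
    (hab : a ≤ b) (h : Poincare J b) : Poincare J a := fun f u =>
  (mul_le_mul_of_nonneg_right hab (mean_nonneg f fun _ => sq_nonneg _)).trans (h f u)

/-- The covariance bounds of all restrictions, from the norms of the submatrices. -/
theorem allCovBound_of_bounds {n : ℕ} {J : Fin n → Fin n → ℝ} (hJ : IsCoupling J)
    {c ε K L ρ : ℝ} (hc : 0 < c) (hε : 0 < ε) (hε' : ε ≤ 1 / 20) (hK : 0 < K)
    (hgap : max L (3 * ρ) + 100 * ε ^ 2 * ρ ≤ 1 - c)
    (hτ : ∀ i j, |J i j| ≤ ε) (hρ : ∀ i, ∑ j, J i j ^ 2 ≤ ρ)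
    (hL : ∀ v : Fin n → ℝ, ∑ i, ∑ j, eff (J i j) * v i * v j ≤ L * ∑ i, v i ^ 2)
    (hS : ∀ S : Finset (Fin n), S.Nonempty →
      (∀ v : Fin n → ℝ, ∑ i ∈ S, ∑ j ∈ S, eff (J i j) * v i * v j ≤
        K * √(√((S.card : ℝ) / n)) * ∑ i ∈ S, v i ^ 2) ∧
      ∀ i ∈ S, ∑ j ∈ S, J i j ^ 2 ≤ K * √(√((S.card : ℝ) / n))) :
    Poincare J c ∧ AllCovBound J (etaSK c K n) := by
  have hP : Poincare J c :=
    poincare_mono (by linarith) fun h f => poincare_of_bochner h hJ (bochner h hJ hτ hε' hL hρ) f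
  refine ⟨hP, fun {κ} _ _ e => ?_⟩
  rcases isEmpty_or_nonempty κ with hκ | hκ
  · intro f v
    rw [var_eq]
    simp [mean_const]
  set J' := fun a b => J (e a) (e b) with hJ'def
  have hJ' : IsCoupling J' := isCoupling_comp hJ e
  set S : Finset (Fin n) := univ.map e with hSdef
  have hcard : S.card = Fintype.card κ := by simp [hSdef]
  obtain ⟨hS1, hS2⟩ := hS S (univ_nonempty.map)
  set r := √(√((Fintype.card κ : ℝ) / n)) with hr
  have hr0 : 0 ≤ r := Real.sqrt_nonneg _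
  have row_full : ∀ a, ∑ b, J' a b ^ 2 ≤ ρ := fun a =>
    le_trans (le_of_eq (Finset.sum_map univ e fun j => J (e a) j ^ 2).symm)
      ((Finset.sum_le_univ_sum_of_nonneg fun j => sq_nonneg _).trans (hρ _))
  have row_small : ∀ a, ∑ b, J' a b ^ 2 ≤ K * r := fun a => by
    have := hS2 (e a) (mem_map_of_mem e (mem_univ a))
    rw [hcard, hSdef, Finset.sum_map] at this
    exact this
  have form_small : ∀ v : κ → ℝ, ∑ a, ∑ b, eff (J' a b) * v a * v b ≤ K * r * ∑ a, v a ^ 2 :=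
    fun v => by
      have := hS1 (Function.extend e v 0)
      rw [hcard, hSdef] at this
      simp only [Finset.sum_map, e.injective.extend_apply] at this
      exact this
  have form_full : ∀ v : κ → ℝ, ∑ a, ∑ b, eff (J' a b) * v a * v b ≤ L * ∑ a, v a ^ 2 := fun v => by
    have := hL (Function.extend e v 0)
    have z : ∀ i, i ∉ S → Function.extend e v (0 : Fin n → ℝ) i = 0 := fun i hi => by
      rw [Function.extend_apply' _ _ _ (fun ⟨a, ha⟩ => hi (ha ▸ mem_map_of_mem e (mem_univ a)))]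
      rfl
    rw [← Finset.sum_subset (subset_univ S) (fun i _ hi => by simp [z i hi]),
      ← Finset.sum_subset (subset_univ S) (f := fun i => Function.extend e v (0 : Fin n → ℝ) i ^ 2)
        (fun i _ hi => by simp [z i hi])] at this
    rw [Finset.sum_congr rfl fun i _ => (Finset.sum_subset (subset_univ S)
      (f := fun j => eff (J i j) * Function.extend e v 0 i * Function.extend e v 0 j)
      (fun j _ hj => by simp [z j hj])).symm] at this
    simp only [hSdef, Finset.sum_map, e.injective.extend_apply] at this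
    exact this
  have hτ' : ∀ a b, |J' a b| ≤ ε := fun a b => hτ _ _
  unfold etaSK
  rw [← hr]
  split_ifs with h
  · have hγ : 0 < 1 - 4 * (K * r) := by linarith
    refine covBound_mono ?_ (covBound_of_poincare hJ' hγ (poincare_mono ?_ fun f u =>
      poincare_of_bochner f hJ' (bochner f hJ' hτ' hε' form_small row_small) u))
    · rw [inv_le_iff_one_le_mul₀ hγ]
      nlinarith [mul_nonneg hK.le hr0]
    · have h0 : 0 ≤ K * r := mul_nonneg hK.le hr0
      rw [max_eq_right (by linarith)]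
      have : ε ^ 2 ≤ 1 / 400 := by
        calc ε ^ 2 ≤ (1 / 20) ^ 2 := pow_le_pow_left₀ hε.le hε' 2
          _ = 1 / 400 := by norm_num
      linarith [mul_le_mul_of_nonneg_right this h0]
  · exact covBound_of_poincare hJ' hc (poincare_mono (by linarith) fun f u =>
      poincare_of_bochner f hJ' (bochner f hJ' hτ' hε' form_full row_full) u)

/-- The numerical choice of the parameters below `1/2`. -/
theorem param_bound {β : ℝ} (hβ0 : 0 ≤ β) (hβ : β < 1 / 2) :
    max (2 * β + (1 - 2 * β) / 800) (3 * (β ^ 2 + (1 - 2 * β) / 800)) +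
      100 * ((1 - 2 * β) / 800) ^ 2 * (β ^ 2 + (1 - 2 * β) / 800) ≤ 1 - (1 - 2 * β) / 8 := by
  set c := (1 - 2 * β) / 8 with hc
  rw [show (1 - 2 * β) / 800 = c / 100 by rw [hc]; ring]
  have hc0 : 0 < c := by rw [hc]; linarith
  have hb : β ^ 2 ≤ β / 2 := by nlinarith
  have h2 : 100 * (c / 100) ^ 2 * (β ^ 2 + c / 100) ≤ c := by
    calc 100 * (c / 100) ^ 2 * (β ^ 2 + c / 100) ≤ 100 * (c / 100) ^ 2 * 1 :=
          mul_le_mul_of_nonneg_left (by linarith) (by positivity)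
      _ = c * (c / 100) := by ring
      _ ≤ c * 1 := mul_le_mul_of_nonneg_left (by linarith) hc0.le
      _ = c := mul_one c
  have h3 : max (2 * β + c / 100) (3 * (β ^ 2 + c / 100)) ≤ 1 - 2 * c :=
    max_le (by linarith) (by linarith)
  linarith

/-- A gap bounded below for `β < 1/2`, from the coupling bounds. -/
theorem gap_of_parts (hC : CouplingBounds) {β : ℝ} (hβ0 : 0 ≤ β) (hβ : β < 1 / 2) :
    ∀ η : ℝ, 0 < η → ∃ n₀ : ℕ, ∀ n ≥ n₀,
      ENNReal.ofReal (1 - η) ≤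
        disorder n {g | (1 - 2 * β) / 8 ≤ gap n β g ∧ gap n β g ≤ 1} := by
  obtain ⟨K, hK, hbd⟩ := hC β hβ0
  intro η hη
  obtain ⟨n₁, hn₁⟩ := hbd ((1 - 2 * β) / 800) (by linarith) η hη
  refine ⟨max n₁ 1, fun n hn => (hn₁ n (by omega)).trans (measure_mono fun g hg => ?_)⟩
  exact gap_bounds (by omega) (allCovBound_of_bounds (isCoupling_skMat n β g) (by linarith)
    (by linarith) (by linarith) hK (param_bound hβ0 hβ) hg.1 hg.2.1 hg.2.2.1 hg.2.2.2).1

/-- Mixing by time `O(log n)` from the covariance bounds. -/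
theorem tv_small (hE : EntropyFromCov) {n : ℕ} {β c ε K : ℝ} {g : Edge n → ℝ} (hc : 0 < c)
    (hc1 : c ≤ 1) (hε : 0 ≤ ε) (hε1 : ε ≤ 1) (hK : 0 < K) (hn : 16 ≤ n) (hbig : (16 * K) ^ 4 * (2 / c + 1) ≤ n)
    (hτ : ∀ i j, |skMat n β g i j| ≤ ε) (hA : AllCovBound (skMat n β g) (etaSK c K n)) {t : ℝ}
    (ht : 3 * Real.exp (256 * K / c) * Real.log n ≤ t) (x : Fin n → Bool) :
    tvDist n β g t x ≤ 1 / 4 := by
  have hn16 : (16 : ℝ) ≤ n := by exact_mod_cast hn
  haveI : Nonempty (Fin n) := ⟨⟨0, by omega⟩⟩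
  have hlog : 0 ≤ Real.log n := Real.log_nonneg (by linarith)
  have ht0 : 0 ≤ t := le_trans (by positivity) ht
  have key := hE (skMat n β g) (etaSK c K n) (Real.exp (256 * K / c)) (isCoupling_skMat n β g) hA
    (fun m hm hmn => by
      rw [Fintype.card_fin] at hmn
      have := etaSK_spec hc hc1 hK hbig hm hmn
      exact ⟨this.1, this.2.2.2.2⟩)
    (by rw [Fintype.card_fin]; exact atConst_le hc hc1 hK hbig) 0 x t ht0
  rw [← tvDist_skMat] at key
  have hw := log_inv_weight_le (J := skMat n β g) hτ x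
  have hl2 : Real.log 2 ≤ 1 := by
    linarith [Real.log_le_sub_one_of_pos (show (0 : ℝ) < 2 by norm_num)]
  have hw2 : Real.log (1 / weight (skMat n β g) 0 x) ≤ 2 * (n : ℝ) ^ 2 := by
    nlinarith
  have hexp : Real.exp (-t / Real.exp (256 * K / c)) ≤ ((n : ℝ) ^ 3)⁻¹ := by
    rw [← Real.exp_log (show (0 : ℝ) < ((n : ℝ) ^ 3)⁻¹ by positivity), Real.log_inv, Real.log_pow]
    refine Real.exp_le_exp.2 ?_
    rw [neg_div, neg_le_neg_iff, le_div_iff₀ (Real.exp_pos _)]
    push_cast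
    linarith
  have hr : Real.exp (-t / Real.exp (256 * K / c)) * Real.log (1 / weight (skMat n β g) 0 x) ≤
      1 / 8 := by
    refine (mul_le_mul_of_nonneg_left hw2 (Real.exp_pos _).le).trans ?_
    refine (mul_le_mul_of_nonneg_right hexp (by positivity)).trans ?_
    rw [inv_mul_eq_div, div_le_iff₀ (by positivity)]
    nlinarith [pow_pos (show (0 : ℝ) < n by linarith) 2]
  nlinarith [key.trans hr]

/-- Fast mixing below `1/2`, from the two remaining ingredients. -/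
theorem fast_of_parts (hE : EntropyFromCov) (hC : CouplingBounds) {β : ℝ} (hβ0 : 0 ≤ β)
    (hβ : β < 1 / 2) :
    ∃ c : ℝ, 0 < c ∧ ∃ C : ℝ, 0 < C ∧ ∀ η : ℝ, 0 < η → ∃ n₀ : ℕ, ∀ n ≥ n₀,
      ENNReal.ofReal (1 - η) ≤ disorder n {g | c ≤ gap n β g ∧ gap n β g ≤ 1 ∧
        ∀ t : ℝ, C * Real.log n ≤ t → ∀ x, tvDist n β g t x ≤ 1 / 4} := by
  obtain ⟨K, hK, hbd⟩ := hC β hβ0
  set c := (1 - 2 * β) / 8 with hcdef
  have hc : 0 < c := by rw [hcdef]; linarith
  have hc1 : c ≤ 1 := by rw [hcdef]; linarith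
  set ε := c / 100 with hεdef
  have hε : 0 < ε := by positivity
  have hgap : max (2 * β + ε) (3 * (β ^ 2 + ε)) + 100 * ε ^ 2 * (β ^ 2 + ε) ≤ 1 - c := by
    have hb : β ^ 2 ≤ β / 2 := by nlinarith
    have h2 : 100 * ε ^ 2 * (β ^ 2 + ε) ≤ c := by
      calc 100 * ε ^ 2 * (β ^ 2 + ε) ≤ 100 * ε ^ 2 * 1 :=
            mul_le_mul_of_nonneg_left (by linarith) (by positivity)
        _ = c * (c / 100) := by rw [hεdef]; ring
        _ ≤ c * 1 := mul_le_mul_of_nonneg_left (by linarith) hc.le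
        _ = c := mul_one c
    have h3 : max (2 * β + ε) (3 * (β ^ 2 + ε)) ≤ 1 - 2 * c := max_le (by linarith) (by linarith)
    linarith
  refine ⟨c, hc, 3 * Real.exp (256 * K / c), by positivity, fun η hη => ?_⟩
  obtain ⟨n₁, hn₁⟩ := hbd ε hε η hη
  obtain ⟨n₂, hn₂⟩ := exists_nat_ge ((16 * K) ^ 4 * (2 / c + 1))
  refine ⟨max (max n₁ n₂) 16, fun n hn => (hn₁ n (by omega)).trans (measure_mono fun g hg => ?_)⟩
  obtain ⟨hτ, hρ, hL, hS⟩ := hg
  have hbig : (16 * K) ^ 4 * (2 / c + 1) ≤ n :=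
    hn₂.trans (by exact_mod_cast (show n₂ ≤ n by omega))
  obtain ⟨hP, hA⟩ := allCovBound_of_bounds (isCoupling_skMat n β g) hc hε (by linarith) hK hgap
    hτ hρ hL hS
  obtain ⟨h1, h2⟩ := gap_bounds (by omega) hP
  refine ⟨h1, h2, fun t ht x => ?_⟩
  exact tv_small hE hc hc1 hε.le (by linarith) hK (by omega) hbig hτ hA ht x

end Vale.Agent.P150.Fast
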