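import Vale.Agent.P150.Fast.Defs

/-!
# P150 fast side: elementary identities for the single-site operations
-/

open Finset

namespace Vale.Agent.P150.Fast

variable {ι : Type*} [Fintype ι] [DecidableEq ι] {J : ι → ι → ℝ} (h : ι → ℝ)

theorem spin_true : spin true = 1 := rfl

theorem spin_false : spin false = -1 := rfl

theorem spin_cases (b : Bool) : spin b = 1 ∨ spin b = -1 := by cases b <;> simp [spin]

theorem spin_mul_spin (b : Bool) : spin b * spin b = 1 := by cases b <;> simp [spin]

theorem weight_pos (x : ι → Bool) : 0 < weight J h x :=
  div_pos (Real.exp_pos _) (Finset.sum_pos (fun _ _ => Real.exp_pos _) univ_nonempty)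

theorem sum_weight : ∑ x, weight J h x = 1 := by
  simp only [weight, ← Finset.sum_div]
  exact div_self (Finset.sum_pos (fun _ _ => Real.exp_pos _) univ_nonempty).ne'

theorem mean_const (c : ℝ) : mean J h (fun _ => c) = c := by
  simp only [mean, ← Finset.sum_mul, sum_weight h, one_mul]

theorem mean_add (f g : (ι → Bool) → ℝ) :
    mean J h (fun x => f x + g x) = mean J h f + mean J h g := by
  simp only [mean, mul_add, Finset.sum_add_distrib]

theorem mean_smul (c : ℝ) (f : (ι → Bool) → ℝ) :
    mean J h (fun x => c * f x) = c * mean J h f := by
  simp only [mean, Finset.mul_sum]; exact Finset.sum_congr rfl fun x _ => by ring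

theorem mean_sub (f g : (ι → Bool) → ℝ) :
    mean J h (fun x => f x - g x) = mean J h f - mean J h g := by
  simp only [mean, mul_sub, Finset.sum_sub_distrib]

theorem mean_sum {κ : Type*} (s : Finset κ) (f : κ → (ι → Bool) → ℝ) :
    mean J h (fun x => ∑ k ∈ s, f k x) = ∑ k ∈ s, mean J h (f k) := by
  simp only [mean, Finset.mul_sum]; exact Finset.sum_comm

theorem mean_le_mean {f g : (ι → Bool) → ℝ} (hfg : ∀ x, f x ≤ g x) :
    mean J h f ≤ mean J h g :=
  Finset.sum_le_sum fun x _ => mul_le_mul_of_nonneg_left (hfg x) (weight_pos h x).le

theorem mean_nonneg {f : (ι → Bool) → ℝ} (hf : ∀ x, 0 ≤ f x) : 0 ≤ mean J h f :=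
  Finset.sum_nonneg fun x _ => mul_nonneg (weight_pos h x).le (hf x)

theorem mean_sq_le (f : (ι → Bool) → ℝ) : mean J h f ^ 2 ≤ mean J h (fun x => f x ^ 2) := by
  have h0 : 0 ≤ mean J h (fun x => (f x - mean J h f) ^ 2) := mean_nonneg h fun x => sq_nonneg _
  have e : (fun x => (f x - mean J h f) ^ 2) =
      fun x => f x ^ 2 - (2 * mean J h f * f x - mean J h f ^ 2) := funext fun x => by ring
  rw [e, mean_sub, mean_sub, mean_smul, mean_const] at h0
  nlinarith

omit [Fintype ι] in
theorem update_true_add_false {α : Type*} [AddCommMonoid α] (i : ι) (x : ι → Bool)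
    (φ : (ι → Bool) → α) :
    φ (Function.update x i true) + φ (Function.update x i false) =
      φ x + φ (Function.update x i (!x i)) := by
  cases hx : x i
  · conv_rhs => arg 1; rw [← Function.update_eq_self i x, hx]
    simp [add_comm]
  · conv_rhs => arg 1; rw [← Function.update_eq_self i x, hx]
    simp

theorem sum_update (i : ι) (φ : (ι → Bool) → ℝ) :
    2 * ∑ x, φ x = ∑ x, (φ (Function.update x i true) + φ (Function.update x i false)) := by
  have hinv : Function.Involutive fun x : ι → Bool => Function.update x i (!x i) :=
    fun x => by simp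
  have h1 : ∑ x, φ (Function.update x i (!x i)) = ∑ x, φ x := Equiv.sum_comp hinv.toPerm φ
  simp only [update_true_add_false]
  rw [Finset.sum_add_distrib, h1, two_mul]

theorem field_update (i k : ι) (x : ι → Bool) (b : Bool) :
    field J h k (Function.update x i b) = field J h k x + J k i * (spin b - spin (x i)) := by
  have e : ∀ j, J k j * spin (Function.update x i b j) =
      J k j * spin (x j) + if j = i then J k i * (spin b - spin (x i)) else 0 := fun j => by
    by_cases hj : j = i
    · subst hj; simp; ring
    · simp [hj]
  simp only [field, e, Finset.sum_add_distrib, Finset.sum_ite_eq', Finset.mem_univ, if_true]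
  ring

theorem field_update_self (hJ : IsCoupling J) (i : ι) (x : ι → Bool) (b : Bool) :
    field J h i (Function.update x i b) = field J h i x := by
  rw [field_update, hJ.2 i]; ring

theorem cmean_update_self (hJ : IsCoupling J) (i : ι) (x : ι → Bool) (b : Bool) :
    cmean J h i (Function.update x i b) = cmean J h i x := by
  rw [cmean, cmean, field_update_self h hJ]

omit [Fintype ι] in
theorem grad_update_self (i : ι) (f : (ι → Bool) → ℝ) (x : ι → Bool) (b : Bool) :
    grad i f (Function.update x i b) = grad i f x := by
  simp [grad]

theorem ham_update (hJ : IsCoupling J) (i : ι) (x : ι → Bool) (b : Bool) :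
    ham J h (Function.update x i b) = ham J h x + (spin b - spin (x i)) * field J h i x := by
  set d := spin b - spin (x i) with hd
  have hs : ∀ j, spin (Function.update x i b j) = spin (x j) + if j = i then d else 0 := fun j => by
    by_cases hj : j = i
    · subst hj; simp [hd]
    · simp [hj]
  have h1 : ∑ j, h j * spin (Function.update x i b j) = (∑ j, h j * spin (x j)) + d * h i := by
    simp only [hs, mul_add, Finset.sum_add_distrib, mul_ite, mul_zero, Finset.sum_ite_eq',
      Finset.mem_univ, if_true]
    ring
  have h2 : ∑ a, ∑ c, J a c * spin (Function.update x i b a) * spin (Function.update x i b c) =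
      (∑ a, ∑ c, J a c * spin (x a) * spin (x c)) + 2 * d * ∑ c, J i c * spin (x c) := by
    have e : ∀ a c, J a c * spin (Function.update x i b a) * spin (Function.update x i b c) =
        J a c * spin (x a) * spin (x c) + (if a = i then d * (J i c * spin (x c)) else 0) +
          (if c = i then d * (J a i * spin (x a)) else 0) := fun a c => by
      rw [hs a, hs c]
      split_ifs with ha hc hc
      · subst ha hc; rw [hJ.2]; ring
      · subst ha; ring
      · subst hc; ring
      · ring
    simp only [e, Finset.sum_add_distrib, Finset.sum_ite_irrel, Finset.sum_const_zero,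
      Finset.sum_ite_eq', Finset.mem_univ, if_true, ← Finset.mul_sum, hJ.1 _ i]
    ring
  simp only [ham, field, h1, h2]
  ring

theorem exp_split (y : ℝ) (b : Bool) :
    Real.exp (spin b * y) = Real.cosh y * (1 + Real.tanh y * spin b) := by
  have hc : Real.cosh y ≠ 0 := (Real.cosh_pos y).ne'
  rw [mul_add, mul_one, ← mul_assoc, Real.tanh_eq_sinh_div_cosh, mul_div_cancel₀ _ hc]
  cases b
  · rw [spin_false, neg_one_mul, ← Real.cosh_sub_sinh]; ring
  · rw [spin_true, one_mul, mul_one, Real.cosh_add_sinh]

theorem weight_update_mul (hJ : IsCoupling J) (i : ι) (x : ι → Bool) (b : Bool) :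
    (weight J h (Function.update x i true) + weight J h (Function.update x i false)) *
        ((1 + cmean J h i x * spin b) / 2) =
      weight J h (Function.update x i b) := by
  have hc : Real.cosh (field J h i x) ≠ 0 := (Real.cosh_pos _).ne'
  have e : ∀ c, Real.exp (ham J h (Function.update x i c)) =
      Real.exp (ham J h x - spin (x i) * field J h i x) *
        (Real.cosh (field J h i x) * (1 + cmean J h i x * spin c)) := fun c => by
    rw [cmean, ← exp_split, ← Real.exp_add, ham_update h hJ]
    congr 1
    ring
  simp only [weight, e, spin_true, spin_false]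
  ring

/-- Integrating out the `i`-th spin. -/
theorem mean_cond (hJ : IsCoupling J) (i : ι) (φ : (ι → Bool) → ℝ) :
    mean J h φ = mean J h (cond J h i φ) := by
  have a := sum_update i (fun x => weight J h x * φ x)
  have b := sum_update i (fun x => weight J h x * cond J h i φ x)
  have e : ∀ x, weight J h (Function.update x i true) * cond J h i φ (Function.update x i true) +
      weight J h (Function.update x i false) * cond J h i φ (Function.update x i false) =
      weight J h (Function.update x i true) * φ (Function.update x i true) +
      weight J h (Function.update x i false) * φ (Function.update x i false) := fun x => by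
    have w1 := weight_update_mul h hJ i x true
    have w0 := weight_update_mul h hJ i x false
    rw [spin_true] at w1
    rw [spin_false] at w0
    simp only [cond, cmean_update_self h hJ, Function.update_idem]
    linear_combination (φ (Function.update x i true)) * w1 + (φ (Function.update x i false)) * w0
  simp only [e] at b
  simp only [mean]
  linarith

/-- `f - Q_i f`. -/
noncomputable def dev (J : ι → ι → ℝ) (h : ι → ℝ) (i : ι) (f : (ι → Bool) → ℝ) (x : ι → Bool) : ℝ :=
  f x - cond J h i f x

theorem dev_eq (i : ι) (f : (ι → Bool) → ℝ) (x : ι → Bool) :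
    dev J h i f x = spin (x i) * (1 - cmean J h i x * spin (x i)) * grad i f x / 2 := by
  cases hx : x i
  · have : f x = f (Function.update x i false) := by rw [← hx, Function.update_eq_self]
    simp only [dev, cond, grad, this, spin_false]; ring
  · have : f x = f (Function.update x i true) := by rw [← hx, Function.update_eq_self]
    simp only [dev, cond, grad, this, spin_true]; ring

/-- The product with a deviation, after integrating out the `i`-th spin. -/
theorem mean_mul_dev (hJ : IsCoupling J) (i : ι) (f g : (ι → Bool) → ℝ) :
    mean J h (fun x => g x * dev J h i f x) =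
      mean J h (fun x => (1 - cmean J h i x ^ 2) * grad i g x * grad i f x / 4) := by
  rw [mean_cond h hJ i]
  refine congrArg (mean J h) (funext fun x => ?_)
  simp only [cond, dev_eq, cmean_update_self h hJ, grad_update_self, Function.update_self,
    spin_true, spin_false]
  simp only [grad]
  ring

theorem lap_eq (f : (ι → Bool) → ℝ) (x : ι → Bool) :
    lap J h f x = -∑ i, dev J h i f x := by
  simp only [lap, dev, ← Finset.sum_neg_distrib, neg_sub]

theorem site_eq_mean_mul_dev (hJ : IsCoupling J) (i : ι) (f : (ι → Bool) → ℝ) :
    site J h i f = mean J h (fun x => f x * dev J h i f x) := by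
  rw [mean_mul_dev h hJ, site]
  exact congrArg (mean J h) (funext fun x => by ring)

theorem site_nonneg (i : ι) (f : (ι → Bool) → ℝ) : 0 ≤ site J h i f :=
  mean_nonneg h fun x => div_nonneg
    (mul_nonneg (sub_nonneg.2 (Real.tanh_sq_lt_one _).le) (sq_nonneg _)) (by norm_num)

theorem mean_dev (hJ : IsCoupling J) (i : ι) (f : (ι → Bool) → ℝ) :
    mean J h (dev J h i f) = 0 := by
  change mean J h (fun x => f x - cond J h i f x) = 0
  rw [mean_sub, ← mean_cond h hJ, sub_self]

theorem mean_lap (hJ : IsCoupling J) (f : (ι → Bool) → ℝ) : mean J h (lap J h f) = 0 := by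
  have e : lap J h f = fun x => (-1 : ℝ) * ∑ i, dev J h i f x :=
    funext fun x => by rw [lap_eq]; ring
  rw [e, mean_smul, mean_sum]
  simp [mean_dev h hJ]

end Vale.Agent.P150.Fast
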