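import Vale.Agent.P150.Defs

/-!
# P150 fast side: finite Ising models with arbitrary fields, and the pieces of the proof

(A) `PairCriterion`: a Bochner identity gives a Poincare inequality from the signed operator norm.
(B) `EntropyFromCov`: covariance bounds for all fields and all restrictions give tensorization of
entropy and exponential decay of the total variation distance.
(C) `CouplingBounds`: bounds on all principal submatrices of the SK couplings.
-/

open Finset MeasureTheory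

namespace Vale.Agent.P150.Fast

variable {ι : Type*} [Fintype ι] [DecidableEq ι]

/-- `H(x) = sum h_i s_i + 1/2 sum_{i,j} J_ij s_i s_j`. -/
noncomputable def ham (J : ι → ι → ℝ) (h : ι → ℝ) (x : ι → Bool) : ℝ :=
  (∑ i, h i * spin (x i)) + (∑ i, ∑ j, J i j * spin (x i) * spin (x j)) / 2

/-- The Gibbs weight. -/
noncomputable def weight (J : ι → ι → ℝ) (h : ι → ℝ) (x : ι → Bool) : ℝ :=
  Real.exp (ham J h x) / ∑ y, Real.exp (ham J h y)

/-- Expectation. -/
noncomputable def mean (J : ι → ι → ℝ) (h : ι → ℝ) (f : (ι → Bool) → ℝ) : ℝ :=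
  ∑ x, weight J h x * f x

/-- Variance. -/
noncomputable def var (J : ι → ι → ℝ) (h : ι → ℝ) (f : (ι → Bool) → ℝ) : ℝ :=
  mean J h (fun x => (f x - mean J h f) ^ 2)

/-- The local field at `i`. -/
noncomputable def field (J : ι → ι → ℝ) (h : ι → ℝ) (i : ι) (x : ι → Bool) : ℝ :=
  h i + ∑ j, J i j * spin (x j)

/-- The conditional mean of the `i`-th spin given the others. -/
noncomputable def cmean (J : ι → ι → ℝ) (h : ι → ℝ) (i : ι) (x : ι → Bool) : ℝ :=
  Real.tanh (field J h i x)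

/-- `f(x^{i,+}) - f(x^{i,-})`. -/
def grad (i : ι) (f : (ι → Bool) → ℝ) (x : ι → Bool) : ℝ :=
  f (Function.update x i true) - f (Function.update x i false)

/-- The expected conditional variance at `i`, i.e. `E (f - Q_i f)^2`. -/
noncomputable def site (J : ι → ι → ℝ) (h : ι → ℝ) (i : ι) (f : (ι → Bool) → ℝ) : ℝ :=
  mean J h (fun x => (1 - cmean J h i x ^ 2) * grad i f x ^ 2 / 4)

/-- The operation `f ↦ Q_i f`. -/
noncomputable def cond (J : ι → ι → ℝ) (h : ι → ℝ) (i : ι) (f : (ι → Bool) → ℝ)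
    (x : ι → Bool) : ℝ :=
  (1 + cmean J h i x) / 2 * f (Function.update x i true) +
    (1 - cmean J h i x) / 2 * f (Function.update x i false)

/-- Symmetric with zero diagonal. -/
def IsCoupling (J : ι → ι → ℝ) : Prop :=
  (∀ i j, J i j = J j i) ∧ ∀ i, J i i = 0

/-- Poincare inequality with gap `γ`, for every external field. -/
def Poincare (J : ι → ι → ℝ) (γ : ℝ) : Prop :=
  ∀ (h : ι → ℝ) (f : (ι → Bool) → ℝ), γ * var J h f ≤ ∑ i, site J h i f

/-- Covariance at most `η` times its diagonal, for every external field. -/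
def CovBound (J : ι → ι → ℝ) (η : ℝ) : Prop :=
  ∀ (h : ι → ℝ) (v : ι → ℝ),
    var J h (fun x => ∑ i, v i * spin (x i)) ≤
      η * ∑ i, v i ^ 2 * var J h (fun x => spin (x i))

/-- The second-order corrected coupling `tanh J / (1 - tanh^2 J)`. -/
noncomputable def eff (t : ℝ) : ℝ := Real.sinh t * Real.cosh t

/-- (A): a Poincare inequality from the signed operator norm and the row sums of squares. -/
def PairCriterion : Prop :=
  ∃ θ₀ : ℝ, 0 < θ₀ ∧ ∀ {ι : Type} [Fintype ι] [DecidableEq ι] (J : ι → ι → ℝ) (L ρ τ : ℝ),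
    IsCoupling J → (∀ i j, |J i j| ≤ τ) → τ ≤ θ₀ →
    (∀ v : ι → ℝ, ∑ i, ∑ j, eff (J i j) * v i * v j ≤ L * ∑ i, v i ^ 2) →
    (∀ i, ∑ j, J i j ^ 2 ≤ ρ) →
    Poincare J (1 - max L (3 * ρ) - 100 * τ ^ 2 * ρ)

/-- Covariance bounds of every restriction, with a constant depending on the size only. -/
def AllCovBound (J : ι → ι → ℝ) (η : ℕ → ℝ) : Prop :=
  ∀ {κ : Type} [Fintype κ] [DecidableEq κ] (e : κ ↪ ι),
    CovBound (fun a b => J (e a) (e b)) (η (Fintype.card κ))

/-- The cost of tensorizing down to single sites. -/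
noncomputable def atConst (η : ℕ → ℝ) (n : ℕ) : ℝ :=
  ∏ m ∈ Icc 2 n, ((m : ℝ) - 1) / ((m : ℝ) - η m)

/-- `f ↦ -sum_i (f - Q_i f)`. -/
noncomputable def lap (J : ι → ι → ℝ) (h : ι → ℝ) (f : (ι → Bool) → ℝ) (x : ι → Bool) : ℝ :=
  ∑ i, (cond J h i f x - f x)

/-- `lap` as a matrix. -/
noncomputable def lapMat (J : ι → ι → ℝ) (h : ι → ℝ) :
    Matrix (ι → Bool) (ι → Bool) ℝ :=
  Matrix.of fun x y => lap J h (Pi.single y 1) x

/-- (B): covariance bounds give entropy decay and hence fast mixing. -/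
def EntropyFromCov : Prop :=
  ∀ {ι : Type} [Fintype ι] [DecidableEq ι] [Nonempty ι] (J : ι → ι → ℝ) (η : ℕ → ℝ) (C : ℝ),
    IsCoupling J → AllCovBound J η →
    (∀ m, 2 ≤ m → m ≤ Fintype.card ι → 1 ≤ η m ∧ η m < m) →
    atConst η (Fintype.card ι) ≤ C →
    ∀ (h : ι → ℝ) (x : ι → Bool) (t : ℝ), 0 ≤ t →
      2 * ((∑ y, |NormedSpace.exp (t • lapMat J h) x y - weight J h y|) / 2) ^ 2 ≤
        Real.exp (-t / C) * Real.log (1 / weight J h x)

/-- The SK couplings as a symmetric matrix with zero diagonal. -/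
noncomputable def skMat (n : ℕ) (β : ℝ) (g : Edge n → ℝ) (i j : Fin n) : ℝ :=
  if h : i < j then β / √(n : ℝ) * g ⟨(i, j), h⟩
  else if h' : j < i then β / √(n : ℝ) * g ⟨(j, i), h'⟩ else 0

/-- (C): with high probability the signed norm is at most `2 β + ε`, the squared rows at most
`β² + ε`, and all small principal submatrices are small. -/
def CouplingBounds : Prop :=
  ∀ β : ℝ, 0 ≤ β → ∃ K : ℝ, 0 < K ∧ ∀ ε : ℝ, 0 < ε → ∀ η : ℝ, 0 < η → ∃ n₀ : ℕ, ∀ n ≥ n₀,
    ENNReal.ofReal (1 - η) ≤ disorder n {g |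
      (∀ i j, |skMat n β g i j| ≤ ε) ∧
      (∀ i, ∑ j, skMat n β g i j ^ 2 ≤ β ^ 2 + ε) ∧
      (∀ v : Fin n → ℝ, ∑ i, ∑ j, eff (skMat n β g i j) * v i * v j ≤
        (2 * β + ε) * ∑ i, v i ^ 2) ∧
      ∀ (S : Finset (Fin n)), S.Nonempty →
        (∀ v : Fin n → ℝ, ∑ i ∈ S, ∑ j ∈ S, eff (skMat n β g i j) * v i * v j ≤
          K * √(√((S.card : ℝ) / n)) * ∑ i ∈ S, v i ^ 2) ∧
        ∀ i ∈ S, ∑ j ∈ S, skMat n β g i j ^ 2 ≤ K * √(√((S.card : ℝ) / n))}

end Vale.Agent.P150.Fast
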